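import Vale.Agent.P237.H888.Smooth

/-!
# P237: abstract additive functionals of convex bodies and their extremal bodies
-/

set_option linter.unusedSectionVars false

open MeasureTheory Metric Set Module TopologicalSpace Filter Topology
open scoped Pointwise ENNReal NNReal

namespace Vale.Agent.P237.H888

variable {V : Type*} [NormedAddCommGroup V] [InnerProductSpace ℝ V] [FiniteDimensional ℝ V]
  [MeasurableSpace V] [BorelSpace V]

/-- additive, homogeneous, monotone functionals of compact sets -/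
structure AddFun (F : Set V → ℝ) : Prop where
  add : ∀ K L : Set V, IsCompact K → K.Nonempty → IsCompact L → L.Nonempty →
    F (K + L) = F K + F L
  smul : ∀ (t : ℝ) (K : Set V), 0 ≤ t → IsCompact K → K.Nonempty → F (t • K) = t * F K
  mono : ∀ K L : Set V, IsCompact K → K.Nonempty → IsCompact L → K ⊆ L → F K ≤ F L

variable {F : Set V → ℝ}

theorem AddFun.zero (hF : AddFun F) : F {0} = 0 := by
  have h := hF.smul 0 {0} le_rfl isCompact_singleton (singleton_nonempty _)
  rwa [zero_mul, smul_set_singleton, smul_zero] at h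

theorem AddFun.nonneg (hF : AddFun F) {K : Set V} (hK : IsCompact K) (h0 : (0 : V) ∈ K) :
    0 ≤ F K := by
  rw [← hF.zero]
  exact hF.mono _ _ isCompact_singleton (singleton_nonempty _) hK (singleton_subset_iff.2 h0)

theorem B_compact : IsCompact (closedBall (0 : V) 1) := isCompact_closedBall _ _

theorem B_zero_mem : (0 : V) ∈ closedBall (0 : V) 1 := by simp

theorem B_nonempty : (closedBall (0 : V) 1).Nonempty := ⟨0, B_zero_mem⟩

theorem AddFun.near_le (hF : AddFun F) {K L : NonemptyCompacts V} {r : ℝ} (h : dist K L < r) :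
    F (K : Set V) ≤ F (L : Set V) + r * F (closedBall 0 1) := by
  have hr : 0 < r := lt_of_le_of_lt dist_nonneg h
  have hsub : (K : Set V) ⊆ (L : Set V) + r • closedBall (0 : V) 1 := by
    intro x hx
    obtain ⟨y, hy, hxy⟩ := near h hx
    refine ⟨y, hy, x - y, ⟨r⁻¹ • (x - y), ?_, ?_⟩, by simp⟩
    · rw [mem_closedBall_zero_iff, norm_smul, norm_inv, Real.norm_of_nonneg hr.le,
        ← dist_eq_norm]
      rw [inv_mul_le_iff₀ hr, mul_one]
      exact hxy.le
    · show r • r⁻¹ • (x - y) = x - y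
      rw [smul_smul, mul_inv_cancel₀ hr.ne', one_smul]
  have hc : IsCompact ((L : Set V) + r • closedBall (0 : V) 1) :=
    L.isCompact.add (B_compact.smul r)
  refine (hF.mono _ _ K.isCompact K.nonempty hc hsub).trans (le_of_eq ?_)
  rw [hF.add _ _ L.isCompact L.nonempty (B_compact.smul r) B_nonempty.smul_set,
    hF.smul _ _ hr.le B_compact B_nonempty]

theorem AddFun.continuous (hF : AddFun F) :
    Continuous fun K : NonemptyCompacts V => F (K : Set V) := by
  set W := F (closedBall 0 1) with hW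
  have hW0 : 0 ≤ W := hF.nonneg B_compact B_zero_mem
  have key : ∀ K L : NonemptyCompacts V, F (K : Set V) ≤ F (L : Set V) + W * dist K L := by
    intro K L
    refine le_of_forall_pos_le_add fun δ hδ => ?_
    have hr : dist K L < dist K L + δ / (W + 1) := by
      have : 0 < δ / (W + 1) := by positivity
      linarith
    have h1 := hF.near_le hr
    have h2 : δ / (W + 1) * W ≤ δ := by
      rw [div_mul_eq_mul_div, div_le_iff₀ (by positivity)]
      nlinarith
    have h4 : (dist K L + δ / (W + 1)) * W = W * dist K L + δ / (W + 1) * W := by ring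
    rw [← hW, h4] at h1
    linarith
  refine (LipschitzWith.of_dist_le_mul (K := W.toNNReal) fun K L => ?_).continuous
  rw [Real.coe_toNNReal _ hW0, Real.dist_eq, abs_le]
  have h1 := key K L
  have h2 := key L K
  rw [dist_comm L K] at h2
  constructor <;> linarith

/-- the class of admissible bodies -/
def clsF (F : Set V → ℝ) (c : ℝ) : Set (NonemptyCompacts V) :=
  {K | Convex ℝ (K : Set V) ∧ (∀ x ∈ (K : Set V), -x ∈ (K : Set V)) ∧ F (K : Set V) ≤ c}

theorem clsF_isCompact (hF : AddFun F) {c₀ : ℝ} (hc₀ : 0 < c₀)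
    (hnd : ∀ v : V, c₀ * ‖v‖ ≤ F (sg v)) (c : ℝ) : IsCompact (clsF F c) := by
  have hc : IsCompact {K : NonemptyCompacts V | (K : Set V) ⊆ closedBall (0 : V) (c / c₀)} :=
    NonemptyCompacts.isCompact_subsets_of_isCompact (isCompact_closedBall 0 _)
  refine hc.of_isClosed_subset ?_ ?_
  · refine isClosed_of_closure_subset fun K hK => ?_
    have hK3 : F (K : Set V) ≤ c := by
      have hcl : IsClosed {K : NonemptyCompacts V | F (K : Set V) ≤ c} :=
        isClosed_le hF.continuous continuous_const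
      exact hcl.closure_subset_iff.2 (fun L hL => hL.2.2) hK
    rw [Metric.mem_closure_iff] at hK
    refine ⟨?_, ?_, hK3⟩
    · intro x hx y hy a b ha hb hab
      refine mem_of_forall K _ fun ε hε => ?_
      obtain ⟨L, hL, hKL⟩ := hK (ε / 3) (by positivity)
      obtain ⟨x', hx', hxx⟩ := near hKL hx
      obtain ⟨y', hy', hyy⟩ := near hKL hy
      obtain ⟨z, hz, hzz⟩ := near (by rwa [dist_comm]) (hL.1 hx' hy' ha hb hab)
      refine ⟨z, hz, ?_⟩
      have h1 : dist (a • x + b • y) (a • x' + b • y') ≤ ε / 3 + ε / 3 := by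
        refine (dist_add_add_le _ _ _ _).trans (add_le_add ?_ ?_)
        · rw [dist_smul₀, Real.norm_of_nonneg ha]
          have : a * dist x x' ≤ 1 * dist x x' := by
            gcongr
            linarith
          linarith
        · rw [dist_smul₀, Real.norm_of_nonneg hb]
          have : b * dist y y' ≤ 1 * dist y y' := by
            gcongr
            linarith
          linarith
      have := dist_triangle (a • x + b • y) (a • x' + b • y') z
      linarith
    · intro x hx
      refine mem_of_forall K _ fun ε hε => ?_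
      obtain ⟨L, hL, hKL⟩ := hK (ε / 2) (by positivity)
      obtain ⟨x', hx', hxx⟩ := near hKL hx
      obtain ⟨z, hz, hzz⟩ := near (by rwa [dist_comm]) (hL.2.1 x' hx')
      refine ⟨z, hz, ?_⟩
      have := dist_triangle (-x) (-x') z
      rw [dist_neg_neg] at this
      linarith
  · intro K hK x hx
    rw [mem_closedBall_zero_iff, le_div_iff₀ hc₀, mul_comm]
    have h1 := hF.mono _ _ (sg_compact x) (sg_nonempty x) K.isCompact (sg_subset hK.1 hK.2.1 hx)
    exact (hnd x).trans (h1.trans hK.2.2)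

/-- Existence of the extremal body. -/
theorem exists_maxF (hF : AddFun F) {c₀ : ℝ} (hc₀ : 0 < c₀)
    (hnd : ∀ v : V, c₀ * ‖v‖ ≤ F (sg v)) {c : ℝ} (hc : 0 < c) :
    ∃ K₀ : Set V, IsSymBody K₀ ∧ F K₀ ≤ c ∧
      ∀ K : Set V, IsCompact K → Convex ℝ K → (∀ x ∈ K, -x ∈ K) → K.Nonempty →
        F K ≤ c → vol K ≤ vol K₀ := by
  set W := F (closedBall 0 1) with hW
  have hW0 : 0 ≤ W := hF.nonneg B_compact B_zero_mem
  set r : ℝ := c / (W + 1) with hr
  have hr0 : 0 < r := by positivity
  have hrB : r • closedBall (0 : V) 1 = closedBall (0 : V) r := by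
    rw [_root_.smul_closedBall _ _ zero_le_one, smul_zero, mul_one, Real.norm_of_nonneg hr0.le]
  have hball : F (closedBall (0 : V) r) ≤ c := by
    rw [← hrB, hF.smul _ _ hr0.le B_compact B_nonempty, ← hW, hr, div_mul_eq_mul_div,
      div_le_iff₀ (by positivity)]
    nlinarith
  set B : NonemptyCompacts V := ⟨⟨closedBall (0 : V) r, isCompact_closedBall 0 r⟩,
    ⟨0, by simp [hr0.le]⟩⟩ with hB
  have hBmem : B ∈ clsF F c := by
    refine ⟨convex_closedBall 0 r, ?_, hball⟩
    intro x hx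
    have hx' : x ∈ closedBall (0 : V) r := hx
    change -x ∈ closedBall (0 : V) r
    rw [mem_closedBall_zero_iff] at hx' ⊢
    rwa [norm_neg]
  obtain ⟨K₀, hK₀, hmax⟩ := (vol_usc.upperSemicontinuousOn (clsF F c)).exists_isMaxOn
    ⟨B, hBmem⟩ (clsF_isCompact hF hc₀ hnd c)
  have hmax' : ∀ K : Set V, IsCompact K → Convex ℝ K → (∀ x ∈ K, -x ∈ K) → K.Nonempty →
        F K ≤ c → vol K ≤ vol (K₀ : Set V) := by
    intro K h1 h2 h3 h4 h5
    exact hmax (a := ⟨⟨K, h1⟩, h4⟩) ⟨h2, h3, h5⟩
  refine ⟨K₀, ⟨⟨hK₀.1, K₀.isCompact, ?_⟩, hK₀.2.1⟩, hK₀.2.2, hmax'⟩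
  by_contra hi
  have h0 : vol (K₀ : Set V) = 0 := by
    unfold vol
    have h1 : volume (frontier (K₀ : Set V)) = 0 := hK₀.1.addHaar_frontier volume
    have h2 : (K₀ : Set V) ⊆ frontier (K₀ : Set V) := by
      rw [not_nonempty_iff_eq_empty] at hi
      rw [frontier, hi, K₀.isCompact.isClosed.closure_eq, sdiff_empty]
    rw [measure_mono_null h2 h1, ENNReal.toReal_zero]
  have h1 : vol (closedBall (0 : V) r) ≤ vol (K₀ : Set V) :=
    hmax (a := B) hBmem
  have h2 : 0 < vol (closedBall (0 : V) r) := by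
    refine ENNReal.toReal_pos (measure_closedBall_pos volume 0 hr0).ne' measure_closedBall_lt_top.ne
  linarith

/-- The first variation of the extremal body along segments. -/
theorem first_varF (hF : AddFun F) {n : ℕ} (hn : 0 < n)
    (hd : finrank ℝ V = n) {K₀ : Set V} (hK₀ : IsSymBody K₀) (hFK : F K₀ ≤ n)
    (hmax : ∀ K : Set V, IsCompact K → Convex ℝ K → (∀ x ∈ K, -x ∈ K) → K.Nonempty →
        F K ≤ n → vol K ≤ vol K₀) (v : V) :
    beta K₀ v ≤ vol K₀ * (F (sg v) / 2) := by
  set P := F (sg v) with hP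
  have hP0 : 0 ≤ P := hF.nonneg (sg_compact v) ⟨2⁻¹, 2⁻¹, by norm_num, by norm_num, by norm_num,
    by simp⟩
  have hnR : (0 : ℝ) < n := by exact_mod_cast hn
  have nK : K₀.Nonempty := hK₀.int.mono interior_subset
  have key : ∀ ε : ℝ, 0 < ε → 2 * ε * beta K₀ v ≤
      vol K₀ * ((1 + ε * (P / n)) ^ n - 1) := by
    intro ε hε
    set s : ℝ := 1 + ε * (P / n) with hs
    have hs0 : 0 < s := by positivity
    have hc1 : IsCompact (K₀ + ε • sg v) := hK₀.compact.add ((sg_compact v).smul ε)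
    have hn1 : (K₀ + ε • sg v).Nonempty := nK.add (sg_nonempty v).smul_set
    have h1 := hmax (s⁻¹ • (K₀ + ε • sg v)) (hc1.smul s⁻¹)
      ((hK₀.convex.add ((sg_convex v).smul ε)).smul s⁻¹) (by
        rintro _ ⟨_, ⟨a, ha, _, ⟨b, hb, rfl⟩, rfl⟩, rfl⟩
        refine ⟨-a + ε • (-b), add_mem_add (hK₀.symm a ha)
          (smul_mem_smul_set (sg_symm v b hb)), ?_⟩
        show s⁻¹ • (-a + ε • -b) = -(s⁻¹ • (a + ε • b))
        module) (hn1.smul_set) (by
        rw [hF.smul _ _ (inv_nonneg.2 hs0.le) hc1 hn1,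
          hF.add _ _ hK₀.compact nK ((sg_compact v).smul ε) (sg_nonempty v).smul_set,
          hF.smul _ _ hε.le (sg_compact v) (sg_nonempty v), ← hP, inv_mul_le_iff₀ hs0, hs]
        have : (1 + ε * (P / n)) * n = n + ε * P := by field_simp
        rw [this]
        linarith)
    rw [vol_smul_set, abs_of_pos (inv_pos.2 hs0), hd, inv_pow,
      vol_add_sg hK₀.compact hK₀.convex hε.le, inv_mul_le_iff₀ (by positivity)] at h1
    linarith
  have hder : HasDerivAt (fun ε : ℝ => (1 + ε * (P / n)) ^ n) P 0 := by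
    have h1 : HasDerivAt (fun ε : ℝ => 1 + ε * (P / n)) (P / n) 0 := by
      simpa using ((hasDerivAt_id (0 : ℝ)).mul_const (P / n)).const_add 1
    have h2 := h1.fun_pow n
    have e : (n : ℝ) * (1 + 0 * (P / n)) ^ (n - 1) * (P / n) = P := by
      rw [zero_mul, add_zero, one_pow]
      field_simp
    rwa [e] at h2
  have hsl := (hasDerivAt_iff_tendsto_slope_zero.1 hder).mono_left
    (nhdsWithin_mono 0 (fun x (hx : x ∈ Ioi (0 : ℝ)) => (ne_of_gt hx : x ≠ 0)))
  have hlim : Tendsto (fun t : ℝ => vol K₀ * (t⁻¹ • ((1 + (0 + t) * (P / n)) ^ n -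
      (1 + 0 * (P / n)) ^ n))) (𝓝[>] 0) (𝓝 (vol K₀ * P)) := hsl.const_mul _
  have h2 : 2 * beta K₀ v ≤ vol K₀ * P := by
    refine ge_of_tendsto hlim ?_
    filter_upwards [self_mem_nhdsWithin] with t ht
    have ht : 0 < t := ht
    have h3 := key t ht
    rw [zero_add, zero_mul, add_zero, one_pow, smul_eq_mul]
    have e : vol K₀ * (t⁻¹ * ((1 + t * (P / n)) ^ n - 1)) =
        t⁻¹ * (vol K₀ * ((1 + t * (P / n)) ^ n - 1)) := by ring
    rw [e, le_inv_mul_iff₀ ht]
    linarith
  linarith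

/-- Nondegeneracy from the Sobolev inequality. -/
theorem nondegF (hF : AddFun F) {n : ℕ} (hn : 2 ≤ n) (hd : finrank ℝ V = n) {A : ℝ} (hA : 0 < A)
    (hsob : ∀ L : Set V, IsCompact L → L.Nonempty → Convex ℝ L → (∀ x ∈ L, -x ∈ L) →
      A * vol L ≤ F L ^ n) :
    ∃ c₀ : ℝ, 0 < c₀ ∧ ∀ v : V, c₀ * ‖v‖ ≤ F (sg v) := by
  have hnt : Nontrivial V := Module.nontrivial_of_finrank_pos (R := ℝ) (by omega)
  have hBb : IsBody (closedBall (0 : V) 1) :=
    ⟨convex_closedBall _ _, B_compact, ⟨0, by simp [interior_closedBall]⟩⟩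
  obtain ⟨b, hb, hbeta⟩ := exists_le_beta hBb
  set W := F (closedBall 0 1) with hW
  have hW0 : 0 ≤ W := hF.nonneg B_compact B_zero_mem
  -- choose `ε` large
  obtain ⟨ε, hε1, hε⟩ : ∃ ε : ℝ, 1 ≤ ε ∧ (W + 1) ^ n < A * (2 * b) * ε := by
    refine ⟨max 1 ((W + 1) ^ n / (A * (2 * b)) + 1), le_max_left _ _, ?_⟩
    have h1 : (W + 1) ^ n / (A * (2 * b)) < max 1 ((W + 1) ^ n / (A * (2 * b)) + 1) :=
      lt_of_lt_of_le (lt_add_one _) (le_max_right _ _)
    rw [div_lt_iff₀ (by positivity)] at h1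
    linarith
  have hε0 : 0 < ε := by linarith
  refine ⟨1 / ε, by positivity, fun v => ?_⟩
  have hsg0 : ∀ w : V, 0 ≤ F (sg w) := fun w => hF.nonneg (sg_compact w)
    ⟨2⁻¹, 2⁻¹, by norm_num, by norm_num, by norm_num, by simp⟩
  have unit : ∀ u : V, ‖u‖ = 1 → 1 / ε ≤ F (sg u) := by
    intro u hu
    by_contra hlt
    push Not at hlt
    have h1 := hsob (closedBall 0 1 + ε • sg u) (B_compact.add ((sg_compact u).smul ε))
      (B_nonempty.add (sg_nonempty u).smul_set)
      ((convex_closedBall _ _).add ((sg_convex u).smul ε)) (by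
        rintro _ ⟨a, ha, _, ⟨c, hc, rfl⟩, rfl⟩
        refine ⟨-a, by simpa using ha, ε • (-c), smul_mem_smul_set (sg_symm u c hc), ?_⟩
        show -a + ε • -c = -(a + ε • c)
        module)
    rw [vol_add_sg B_compact (convex_closedBall _ _) hε0.le,
      hF.add _ _ B_compact B_nonempty ((sg_compact u).smul ε) (sg_nonempty u).smul_set,
      hF.smul _ _ hε0.le (sg_compact u) (sg_nonempty u), ← hW] at h1
    have h2 : ε * F (sg u) ≤ 1 := by
      have := mul_le_mul_of_nonneg_left hlt.le hε0.le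
      rwa [mul_one_div_cancel hε0.ne'] at this
    have h3 : (W + ε * F (sg u)) ^ n ≤ (W + 1) ^ n :=
      pow_le_pow_left₀ (add_nonneg hW0 (mul_nonneg hε0.le (hsg0 u))) (by linarith) n
    have h4 := hbeta u
    rw [hu, mul_one] at h4
    have h5 : A * (2 * b) * ε ≤ A * (vol (closedBall (0 : V) 1) + 2 * ε * beta (closedBall 0 1) u) := by
      have h6 : 2 * ε * b ≤ 2 * ε * beta (closedBall 0 1) u :=
        mul_le_mul_of_nonneg_left h4 (by positivity)
      have h7 := vol_nonneg (closedBall (0 : V) 1)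
      have h8 : A * (2 * ε * b) ≤
          A * (vol (closedBall (0 : V) 1) + 2 * ε * beta (closedBall 0 1) u) :=
        mul_le_mul_of_nonneg_left (by linarith) hA.le
      linarith [h8, (by ring : A * (2 * b) * ε = A * (2 * ε * b))]
    linarith
  rcases eq_or_ne v 0 with rfl | hv
  · rw [norm_zero, mul_zero]
    exact hsg0 0
  · have hv0 : 0 < ‖v‖ := norm_pos_iff.2 hv
    have h1 := unit (‖v‖⁻¹ • v) (by
      rw [norm_smul, norm_inv, norm_norm, inv_mul_cancel₀ hv0.ne'])
    have e : sg v = ‖v‖ • sg (‖v‖⁻¹ • v) := by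
      unfold sg
      have h2 : (fun x : V => ‖v‖ • x) '' segment ℝ (-(‖v‖⁻¹ • v)) (‖v‖⁻¹ • v) =
          segment ℝ (‖v‖ • (-(‖v‖⁻¹ • v))) (‖v‖ • (‖v‖⁻¹ • v)) :=
        image_segment ℝ (LinearMap.lsmul ℝ V ‖v‖).toAffineMap _ _
      rw [← Set.image_smul, h2, smul_neg, smul_smul, mul_inv_cancel₀ hv0.ne', one_smul]
    rw [e, hF.smul _ _ hv0.le (sg_compact _) (sg_nonempty _), mul_comm]
    exact mul_le_mul_of_nonneg_left h1 hv0.le

end Vale.Agent.P237.H888
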