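import Vale.Agent.P237.H888.Sob

/-!
# P237: the sharp anisotropic Sobolev inequality for `C¹` functions of compact support
-/

open MeasureTheory Metric Set Module
open scoped Pointwise ENNReal NNReal

namespace Vale.Agent.P237.H888

variable {V : Type*} [NormedAddCommGroup V] [InnerProductSpace ℝ V] [FiniteDimensional ℝ V]

/-- The gradient. -/
noncomputable def gr (g : V → ℝ) (x : V) : V :=
  (InnerProductSpace.toDual ℝ V).symm (fderiv ℝ g x)

theorem inner_gr (g : V → ℝ) (x y : V) : inner ℝ (gr g x) y = fderiv ℝ g x y :=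
  InnerProductSpace.toDual_symm_apply

theorem gr_continuous {g : V → ℝ} (hg : ContDiff ℝ 1 g) : Continuous (gr g) :=
  (InnerProductSpace.toDual ℝ V).symm.continuous.comp (hg.continuous_fderiv (by simp))

theorem gr_eq_zero {g : V → ℝ} {x : V} (hx : x ∉ tsupport g) : gr g x = 0 := by
  have h : x ∉ tsupport (fderiv ℝ g) := fun h => hx (tsupport_fderiv_subset ℝ h)
  unfold gr
  rw [image_eq_zero_of_notMem_tsupport h, map_zero]

theorem gr_hasCompactSupport {g : V → ℝ} (hgs : HasCompactSupport g) :
    HasCompactSupport (gr g) := by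
  refine HasCompactSupport.intro hgs.isCompact fun x hx => gr_eq_zero hx

theorem supp_le' {N : Set V} (hne : N.Nonempty) {v : V} {c : ℝ}
    (h : ∀ x ∈ N, inner ℝ x v ≤ c) : supp N v ≤ c := by
  apply csSup_le (hne.image _)
  rintro _ ⟨x, hx, rfl⟩
  exact h x hx

theorem supp_le_add {K : Set V} (hK : IsCompact K) (nK : K.Nonempty) {R : ℝ}
    (hR : ∀ x ∈ K, ‖x‖ ≤ R) (v w : V) : supp K v ≤ supp K w + R * ‖v - w‖ := by
  refine supp_le' nK fun x hx => ?_
  have e : inner ℝ x v = inner ℝ x w + inner ℝ x (v - w) := by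
    rw [inner_sub_right]
    ring
  rw [e]
  refine add_le_add (le_supp hK w hx) ((real_inner_le_norm _ _).trans ?_)
  exact mul_le_mul_of_nonneg_right (hR x hx) (norm_nonneg _)

theorem exists_norm_le {K : Set V} (hK : IsCompact K) : ∃ R : ℝ, 0 < R ∧ ∀ x ∈ K, ‖x‖ ≤ R := by
  obtain ⟨R, hR⟩ := hK.isBounded.exists_norm_le
  exact ⟨max R 1, by positivity, fun x hx => (hR x hx).trans (le_max_left _ _)⟩

theorem supp_continuous {K : Set V} (hK : IsCompact K) (nK : K.Nonempty) :
    Continuous (supp K) := by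
  obtain ⟨R, hR0, hR⟩ := exists_norm_le hK
  refine (LipschitzWith.of_dist_le_mul (K := R.toNNReal) fun v w => ?_).continuous
  rw [Real.coe_toNNReal _ hR0.le, Real.dist_eq, abs_le, dist_eq_norm]
  have h1 := supp_le_add hK nK hR v w
  have h2 := supp_le_add hK nK hR w v
  rw [norm_sub_rev] at h2
  constructor <;> linarith

theorem supp_nonneg_of_symm {K : Set V} (hK : IsCompact K) (nK : K.Nonempty)
    (hs : ∀ x ∈ K, -x ∈ K) (v : V) : 0 ≤ supp K v := by
  obtain ⟨x, hx⟩ := nK
  have h1 := le_supp hK v hx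
  have h2 := le_supp hK v (hs x hx)
  rw [inner_neg_left] at h2
  linarith

/-- Uniform Taylor estimate. -/
theorem taylor {g : V → ℝ} (hg : ContDiff ℝ 1 g) (hgs : HasCompactSupport g) {R : ℝ}
    (hR : 0 < R) {η : ℝ} (hη : 0 < η) : ∃ ε₀ : ℝ, 0 < ε₀ ∧ ∀ ε : ℝ, 0 < ε → ε ≤ ε₀ →
      ∀ x y : V, ‖y‖ ≤ R → |g (x + ε • y) - g x - ε * inner ℝ (gr g x) y| ≤
        ε * (η * (cthickening 1 (tsupport g)).indicator (fun _ => (1 : ℝ)) x) := by
  have hdc : Continuous (fderiv ℝ g) := hg.continuous_fderiv (by simp)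
  have huc : UniformContinuous (fderiv ℝ g) :=
    (hgs.fderiv ℝ).uniformContinuous_of_continuous hdc
  obtain ⟨δ, hδ, hδ'⟩ := Metric.uniformContinuous_iff.1 huc (η / R) (by positivity)
  have hdiff : Differentiable ℝ g := hg.differentiable (by simp)
  refine ⟨min (δ / 2) 1 / R, by positivity, fun ε hε hεε x y hy => ?_⟩
  have h1 : ‖ε • y‖ ≤ min (δ / 2) 1 := by
    rw [norm_smul, Real.norm_of_nonneg hε.le]
    calc ε * ‖y‖ ≤ min (δ / 2) 1 / R * R := mul_le_mul hεε hy (norm_nonneg _) (by positivity)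
      _ = min (δ / 2) 1 := by field_simp
  by_cases hx : x ∈ cthickening 1 (tsupport g)
  · rw [indicator_of_mem hx, mul_one]
    have hmv := Convex.norm_image_sub_le_of_norm_fderiv_le' (𝕜 := ℝ) (f := g)
      (s := closedBall x ‖ε • y‖) (C := η / R) (φ := fderiv ℝ g x) (x := x) (y := x + ε • y)
      (fun z _ => hdiff z) (by
        intro z hz
        have hz1 : dist z x < δ := by
          have := mem_closedBall.1 hz
          have h3 := min_le_left (δ / 2) 1
          linarith
        have := hδ' hz1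
        rw [dist_eq_norm] at this
        exact this.le) (convex_closedBall _ _) (mem_closedBall_self (norm_nonneg _))
      (by rw [mem_closedBall, dist_eq_norm]; simp)
    rw [add_sub_cancel_left] at hmv
    have e1 : (fderiv ℝ g x) (ε • y) = ε * inner ℝ (gr g x) y := by
      rw [map_smul, smul_eq_mul, inner_gr]
    rw [e1, Real.norm_eq_abs, norm_smul, Real.norm_of_nonneg hε.le] at hmv
    refine hmv.trans ?_
    calc η / R * (ε * ‖y‖) ≤ η / R * (ε * R) := by gcongr
      _ = ε * η := by field_simp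
  · rw [indicator_of_notMem hx, mul_zero, mul_zero]
    have hx1 : x ∉ tsupport g := fun h => hx (self_subset_cthickening _ h)
    have hx2 : x + ε • y ∉ tsupport g := by
      intro h
      apply hx
      refine mem_cthickening_of_dist_le x (x + ε • y) 1 _ h ?_
      rw [dist_eq_norm]
      simp only [sub_add_cancel_left, norm_neg]
      exact h1.trans (min_le_right _ _)
    rw [image_eq_zero_of_notMem_tsupport hx1, image_eq_zero_of_notMem_tsupport hx2,
      gr_eq_zero hx1, inner_zero_left]
    simp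

variable [MeasurableSpace V] [BorelSpace V]

theorem supp_gr_integrable {g : V → ℝ} (hg : ContDiff ℝ 1 g) (hgs : HasCompactSupport g)
    {K : Set V} (hK : IsCompact K) (nK : K.Nonempty) :
    Integrable fun x => supp K (gr g x) := by
  refine ((supp_continuous hK nK).comp (gr_continuous hg)).integrable_of_hasCompactSupport ?_
  refine HasCompactSupport.intro hgs.isCompact fun x hx => ?_
  show supp K (gr g x) = 0
  rw [gr_eq_zero hx]
  refine le_antisymm (supp_le' nK fun x _ => by rw [inner_zero_right]) ?_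
  obtain ⟨z, hz⟩ := nK
  have := le_supp hK 0 hz
  rwa [inner_zero_right] at this

/-- **The sharp anisotropic Sobolev inequality.** -/
theorem sobolev {m : ℕ} (hm : 1 ≤ m) (hd : finrank ℝ V = m + 1) {L : Set V}
    (hL : IsCompact L) (nL : L.Nonempty) (hs : ∀ x ∈ L, -x ∈ L) {g : V → ℝ}
    (hg : ContDiff ℝ 1 g) (hgs : HasCompactSupport g) (hg0 : ∀ x, 0 ≤ g x) :
    (m + 1) * vol L ^ ((1 : ℝ) / (m + 1)) *
      (∫ x, g x ^ (((m : ℝ) + 1) / m)) ^ ((m : ℝ) / (m + 1)) ≤ ∫ x, supp L (gr g x) := by
  have hmR : (0 : ℝ) < m := by exact_mod_cast hm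
  obtain ⟨R, hR0, hR⟩ := exists_norm_le hL
  set K1 := cthickening 1 (tsupport g) with hK1
  have hK1c : IsCompact K1 := hgs.isCompact.cthickening
  have hint := supp_gr_integrable hg hgs hL nL
  have hgi : Integrable g := hg.continuous.integrable_of_hasCompactSupport hgs
  have hind : Integrable (K1.indicator (fun _ => (1 : ℝ))) :=
    (integrable_indicator_iff hK1c.measurableSet).2
      (integrableOn_const hK1c.measure_lt_top.ne)
  have hindI : ∫ x, K1.indicator (fun _ => (1 : ℝ)) x = vol K1 := by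
    rw [integral_indicator hK1c.measurableSet, setIntegral_const, smul_eq_mul, mul_one]
    rfl
  have hind0 : ∀ x, 0 ≤ K1.indicator (fun _ => (1 : ℝ)) x := fun x =>
    indicator_nonneg (fun _ _ => zero_le_one) x
  have hsupp0 : ∀ x, 0 ≤ supp L (gr g x) := fun x => supp_nonneg_of_symm hL nL hs _
  set p : ℝ := ((m : ℝ) + 1) / m with hp
  have hp0 : 0 < p := by positivity
  have hgp : Integrable fun x => g x ^ p := by
    refine Continuous.integrable_of_hasCompactSupport ?_ ?_
    · exact hg.continuous.rpow_const fun x => Or.inr hp0.le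
    · refine HasCompactSupport.intro hgs.isCompact fun x hx => ?_
      show g x ^ p = 0
      rw [image_eq_zero_of_notMem_tsupport hx, Real.zero_rpow hp0.ne']
  have hgp0 : 0 ≤ ∫ x, g x ^ p := integral_nonneg fun x => Real.rpow_nonneg (hg0 x) _
  have hgpI : ∫⁻ x, ENNReal.ofReal (g x) ^ p = ENNReal.ofReal (∫ x, g x ^ p) := by
    rw [ofReal_integral_eq_lintegral_ofReal hgp
      (Filter.Eventually.of_forall fun x => Real.rpow_nonneg (hg0 x) _)]
    refine lintegral_congr fun x => ?_
    rw [ENNReal.ofReal_rpow_of_nonneg (hg0 x) hp0.le]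
  have hL0 : 0 ≤ vol L ^ ((1 : ℝ) / (m + 1)) := Real.rpow_nonneg (vol_nonneg L) _
  have key : ∀ η : ℝ, 0 < η → (m + 1) * vol L ^ ((1 : ℝ) / (m + 1)) *
      (∫ x, g x ^ p) ^ ((m : ℝ) / (m + 1)) ≤ (∫ x, supp L (gr g x)) + η * vol K1 := by
    intro η hη
    obtain ⟨ε, hε, hT⟩ := taylor hg hgs hR0 hη
    have hT' := hT ε hε le_rfl
    set G : V → ℝ := fun x => g x + ε * (supp L (gr g x) +
      η * K1.indicator (fun _ => (1 : ℝ)) x) with hG
    have hG0 : ∀ x, 0 ≤ G x := fun x =>
      add_nonneg (hg0 x) (mul_nonneg hε.le (add_nonneg (hsupp0 x) (mul_nonneg hη.le (hind0 x))))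
    have hi1 : Integrable fun x => supp L (gr g x) + η * K1.indicator (fun _ => (1 : ℝ)) x :=
      hint.add (hind.const_mul η)
    have hi2 : Integrable fun x => ε * (supp L (gr g x) +
        η * K1.indicator (fun _ => (1 : ℝ)) x) := hi1.const_mul ε
    have hGi : Integrable G := hgi.add hi2
    have hGI : ∫ x, G x = (∫ x, g x) + ε * ((∫ x, supp L (gr g x)) + η * vol K1) := by
      rw [hG, integral_add hgi hi2, integral_const_mul,
        integral_add hint (hind.const_mul η), integral_const_mul, hindI]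
    have hGm : Measurable G := by
      refine hg.continuous.measurable.add (measurable_const.mul ?_)
      refine ((supp_continuous hL nL).comp (gr_continuous hg)).measurable.add ?_
      exact measurable_const.mul (measurable_const.indicator hK1c.measurableSet)
    have hstep := sob_step hm hd hL nL hε.le hg.continuous hgs hg0 hGm hG0 (by
      intro a y hy
      have h1 := hT' (a + ε • y) (-y) (by rw [norm_neg]; exact hR y hy)
      have e1 : a + ε • y + ε • (-y) = a := by simp
      rw [e1] at h1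
      have h2 := (abs_le.1 h1).2
      have h3 := le_supp hL (gr g (a + ε • y)) (hs y hy)
      rw [real_inner_comm] at h3
      have h4 : ε * inner ℝ (gr g (a + ε • y)) (-y) ≤ ε * supp L (gr g (a + ε • y)) :=
        mul_le_mul_of_nonneg_left h3 hε.le
      show g a ≤ g (a + ε • y) + ε * (supp L (gr g (a + ε • y)) +
        η * K1.indicator (fun _ => (1 : ℝ)) (a + ε • y))
      rw [mul_add]
      linarith)
    rw [← ofReal_integral_eq_lintegral_ofReal hgi (Filter.Eventually.of_forall hg0),
      ← ofReal_integral_eq_lintegral_ofReal hGi (Filter.Eventually.of_forall hG0), hgpI,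
      ENNReal.ofReal_rpow_of_nonneg hgp0 (by positivity), ← ENNReal.ofReal_mul (by positivity),
      ← ENNReal.ofReal_add (integral_nonneg hg0) (by positivity),
      ENNReal.ofReal_le_ofReal_iff (integral_nonneg hG0), hGI] at hstep
    have h5 : ε * ((m + 1) * vol L ^ ((1 : ℝ) / (m + 1)) *
      (∫ x, g x ^ p) ^ ((m : ℝ) / (m + 1))) ≤ ε * ((∫ x, supp L (gr g x)) + η * vol K1) := by
      have e2 : ε * ((m + 1) * vol L ^ ((1 : ℝ) / (m + 1)) *
        (∫ x, g x ^ p) ^ ((m : ℝ) / (m + 1))) = (m + 1) * (ε * vol L ^ ((1 : ℝ) / (m + 1))) *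
        (∫ x, g x ^ p) ^ ((m : ℝ) / (m + 1)) := by ring
      rw [e2]
      linarith
    exact le_of_mul_le_mul_left h5 hε
  refine le_of_forall_pos_le_add fun δ hδ => ?_
  have h := key (δ / (vol K1 + 1)) (by have := vol_nonneg K1; positivity)
  refine h.trans ?_
  have hv := vol_nonneg K1
  have : δ / (vol K1 + 1) * vol K1 ≤ δ := by
    rw [div_mul_eq_mul_div, div_le_iff₀ (by positivity)]
    nlinarith
  linarith

end Vale.Agent.P237.H888
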