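import Vale.Agent.P237.H888.Fun

/-!
# P237: Petty's inequality for `C¹` functions of compact support
-/

set_option linter.unusedSectionVars false

open MeasureTheory Metric Set Module TopologicalSpace Filter Topology
open scoped Pointwise ENNReal NNReal

namespace Vale.Agent.P237.H888

variable {V : Type*} [NormedAddCommGroup V] [InnerProductSpace ℝ V] [FiniteDimensional ℝ V]
  [MeasurableSpace V] [BorelSpace V]

theorem smul_sg (ε : ℝ) (v : V) : ε • sg v = {-(ε • v)} + segment ℝ 0 ((2 * ε) • v) := by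
  ext z
  constructor
  · rintro ⟨_, ⟨a, b, ha, hb, hab, rfl⟩, rfl⟩
    refine ⟨-(ε • v), rfl, b • ((2 * ε) • v), ⟨a, b, ha, hb, hab, by simp⟩, ?_⟩
    obtain rfl : a = 1 - b := by linarith
    show -(ε • v) + b • ((2 * ε) • v) = ε • ((1 - b) • -v + b • v)
    module
  · rintro ⟨_, rfl, _, ⟨a, b, ha, hb, hab, rfl⟩, rfl⟩
    refine ⟨a • -v + b • v, ⟨a, b, ha, hb, hab, rfl⟩, ?_⟩
    obtain rfl : a = 1 - b := by linarith
    show ε • ((1 - b) • -v + b • v) = -(ε • v) + ((1 - b) • (0 : V) + b • ((2 * ε) • v))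
    module

theorem vol_add_sg {K : Set V} (hK : IsCompact K) (hc : Convex ℝ K) {ε : ℝ} (hε : 0 ≤ ε)
    (v : V) : vol (K + ε • sg v) = vol K + 2 * ε * beta K v := by
  have e1 : K + ε • sg v = {-(ε • v)} + (K + segment ℝ 0 ((2 * ε) • v)) := by
    rw [smul_sg, ← add_assoc, ← add_assoc, add_comm K]
  rw [e1, vol_vadd_set, ← beta_hs hK hc (2 * ε) v (by positivity)]
  unfold beta
  ring

/-- The first variation of the extremal body along segments. -/
theorem first_var {w : V → V} (hw : Integrable w) {n : ℕ} (hn : 0 < n)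
    (hd : finrank ℝ V = n) {K₀ : Set V} (hK₀ : IsSymBody K₀) (hF : Fn w K₀ ≤ n)
    (hmax : ∀ K : Set V, IsCompact K → Convex ℝ K → (∀ x ∈ K, -x ∈ K) → K.Nonempty →
        Fn w K ≤ n → vol K ≤ vol K₀) (v : V) :
    beta K₀ v ≤ vol K₀ * ((∫ x, |inner ℝ v (w x)|) / 2) := by
  set P := ∫ x, |inner ℝ v (w x)| with hP
  have hP0 : 0 ≤ P := integral_nonneg fun x => abs_nonneg _
  have hnR : (0 : ℝ) < n := by exact_mod_cast hn
  have nK : K₀.Nonempty := hK₀.int.mono interior_subset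
  have key : ∀ ε : ℝ, 0 < ε → 2 * ε * beta K₀ v ≤
      vol K₀ * ((1 + ε * (P / n)) ^ n - 1) := by
    intro ε hε
    set s : ℝ := 1 + ε * (P / n) with hs
    have hs0 : 0 < s := by positivity
    have hc1 : IsCompact (K₀ + ε • sg v) := hK₀.compact.add ((sg_compact v).smul ε)
    have hn1 : (K₀ + ε • sg v).Nonempty := nK.add (sg_nonempty v).smul_set
    have h1 := hmax (s⁻¹ • (K₀ + ε • sg v)) (hc1.smul s⁻¹)
      ((hK₀.convex.add ((sg_convex v).smul ε)).smul s⁻¹) (by
        rintro _ ⟨_, ⟨a, ha, _, ⟨b, hb, rfl⟩, rfl⟩, rfl⟩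
        refine ⟨-a + ε • (-b), add_mem_add (hK₀.symm a ha)
          (smul_mem_smul_set (sg_symm v b hb)), ?_⟩
        show s⁻¹ • (-a + ε • -b) = -(s⁻¹ • (a + ε • b))
        module) (hn1.smul_set) (by
        rw [Fn_smul (inv_nonneg.2 hs0.le), Fn_add hw hK₀.compact nK ((sg_compact v).smul ε)
          (sg_nonempty v).smul_set, Fn_smul hε.le, Fn_sg, ← hP, inv_mul_le_iff₀ hs0, hs]
        have : (1 + ε * (P / n)) * n = n + ε * P := by field_simp
        rw [this]
        linarith)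
    rw [vol_smul_set, abs_of_pos (inv_pos.2 hs0), hd, inv_pow,
      vol_add_sg hK₀.compact hK₀.convex hε.le, inv_mul_le_iff₀ (by positivity)] at h1
    linarith
  have hder : HasDerivAt (fun ε : ℝ => (1 + ε * (P / n)) ^ n) P 0 := by
    have h1 : HasDerivAt (fun ε : ℝ => 1 + ε * (P / n)) (P / n) 0 := by
      simpa using ((hasDerivAt_id (0 : ℝ)).mul_const (P / n)).const_add 1
    have h2 := h1.fun_pow n
    have e : (n : ℝ) * (1 + 0 * (P / n)) ^ (n - 1) * (P / n) = P := by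
      rw [zero_mul, add_zero, one_pow]
      field_simp
    rwa [e] at h2
  have hsl := (hasDerivAt_iff_tendsto_slope_zero.1 hder).mono_left
    (nhdsWithin_mono 0 (fun x (hx : x ∈ Ioi (0 : ℝ)) => (ne_of_gt hx : x ≠ 0)))
  have hlim : Tendsto (fun t : ℝ => vol K₀ * (t⁻¹ • ((1 + (0 + t) * (P / n)) ^ n -
      (1 + 0 * (P / n)) ^ n))) (𝓝[>] 0) (𝓝 (vol K₀ * P)) := hsl.const_mul _
  have h2 : 2 * beta K₀ v ≤ vol K₀ * P := by
    refine ge_of_tendsto hlim ?_
    filter_upwards [self_mem_nhdsWithin] with t ht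
    have ht : 0 < t := ht
    have h3 := key t ht
    rw [zero_add, zero_mul, add_zero, one_pow, smul_eq_mul]
    have e : vol K₀ * (t⁻¹ * ((1 + t * (P / n)) ^ n - 1)) =
        t⁻¹ * (vol K₀ * ((1 + t * (P / n)) ^ n - 1)) := by ring
    rw [e, le_inv_mul_iff₀ ht]
    linarith
  linarith

theorem wulff_compact {h : V → ℝ} {C : ℝ} (hC : ∀ v, h v ≤ C * ‖v‖) : IsCompact (wulff h) := by
  refine (isCompact_closedBall (0 : V) (max C 0)).of_isClosed_subset ?_ ?_
  · have : wulff h = ⋂ v : V, {y | inner ℝ y v ≤ h v} := by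
      ext y
      simp only [wulff, mem_ofPred_eq, mem_iInter]
    rw [this]
    exact isClosed_iInter fun u => isClosed_le (continuous_id.inner continuous_const)
      continuous_const
  · intro y hy
    rw [mem_closedBall_zero_iff]
    have h1 := hy y
    rw [real_inner_self_eq_norm_sq] at h1
    have h2 := h1.trans (hC y)
    rcases (norm_nonneg y).eq_or_lt with h0 | h0
    · rw [← h0]
      exact le_max_right _ _
    · rw [sq] at h2
      exact (le_of_mul_le_mul_right h2 h0).trans (le_max_left _ _)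

theorem abs_inner_integrable {w : V → V} (hw : Integrable w) (v : V) :
    Integrable fun x => |inner ℝ v (w x)| := (hw.const_inner v).abs

theorem P_le {w : V → V} (hw : Integrable w) (v v' : V) :
    ∫ x, |inner ℝ v (w x)| ≤ (∫ x, |inner ℝ v' (w x)|) + (∫ x, ‖w x‖) * ‖v - v'‖ := by
  rw [mul_comm, ← integral_const_mul, ← integral_add (abs_inner_integrable hw v')
    (hw.norm.const_mul _)]
  refine integral_mono (abs_inner_integrable hw v)
    ((abs_inner_integrable hw v').add (hw.norm.const_mul _)) fun x => ?_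
  show |inner ℝ v (w x)| ≤ |inner ℝ v' (w x)| + ‖v - v'‖ * ‖w x‖
  have e : inner ℝ v (w x) = inner ℝ v' (w x) + inner ℝ (v - v') (w x) := by
    rw [inner_sub_left]
    ring
  rw [e]
  exact (abs_add_le _ _).trans (add_le_add le_rfl (abs_real_inner_le_norm _ _))

theorem P_smul {w : V → V} (t : ℝ) (v : V) :
    ∫ x, |inner ℝ (t • v) (w x)| = |t| * ∫ x, |inner ℝ v (w x)| := by
  rw [← integral_const_mul]
  refine integral_congr_ae (ae_of_all _ fun x => ?_)
  show |inner ℝ (t • v) (w x)| = |t| * |inner ℝ v (w x)|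
  rw [real_inner_smul_left, abs_mul]

theorem P_pos {g : V → ℝ} (hg : ContDiff ℝ 1 g) (hgs : HasCompactSupport g) {x₀ : V}
    (hx₀ : g x₀ ≠ 0) {v : V} (hv : v ≠ 0) : 0 < ∫ x, |inner ℝ v (gr g x)| := by
  have hgc := gr_continuous hg
  have hw : Integrable (gr g) := hgc.integrable_of_hasCompactSupport (gr_hasCompactSupport hgs)
  have h0 : 0 ≤ ∫ x, |inner ℝ v (gr g x)| := integral_nonneg fun x => abs_nonneg _
  refine lt_of_le_of_ne h0 fun he => ?_
  have h1 := (integral_eq_zero_iff_of_nonneg (fun x => abs_nonneg _)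
    (abs_inner_integrable hw v)).1 he.symm
  have hcont : Continuous fun x => |inner ℝ v (gr g x)| := (continuous_const.inner hgc).abs
  have h2 := (Continuous.ae_eq_iff_eq volume hcont continuous_const).1 h1
  have h3 : ∀ x, fderiv ℝ g x v = 0 := by
    intro x
    have h4 : |inner ℝ v (gr g x)| = 0 := congrFun h2 x
    rw [abs_eq_zero, real_inner_comm, inner_gr] at h4
    exact h4
  have hφ : ∀ t : ℝ, HasDerivAt (fun t : ℝ => g (x₀ + t • v)) 0 t := by
    intro t
    have h5 : HasDerivAt (fun t : ℝ => x₀ + t • v) v t := by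
      simpa using ((hasDerivAt_id t).smul_const v).const_add x₀
    have h6 := ((hg.differentiable (by simp)) (x₀ + t • v)).hasFDerivAt.comp_hasDerivAt t h5
    rw [h3] at h6
    exact h6
  have hconst : ∀ t : ℝ, g (x₀ + t • v) = g x₀ := by
    intro t
    have := is_const_of_deriv_eq_zero (f := fun t : ℝ => g (x₀ + t • v))
      (fun t => (hφ t).differentiableAt) (fun t => (hφ t).deriv) t 0
    simpa using this
  obtain ⟨R, hR0, hR⟩ := exists_norm_le (K := tsupport g) hgs.isCompact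
  have hvn : 0 < ‖v‖ := norm_pos_iff.2 hv
  set t : ℝ := (R + ‖x₀‖ + 1) / ‖v‖ with ht
  have ht0 : 0 < t := by positivity
  have h7 : x₀ + t • v ∈ tsupport g := subset_tsupport g (by
    rw [Function.mem_support, hconst]
    exact hx₀)
  have h8 := hR _ h7
  have h9 : ‖t • v‖ = R + ‖x₀‖ + 1 := by
    rw [norm_smul, Real.norm_of_nonneg ht0.le, ht]
    field_simp
  have h10 : ‖t • v‖ ≤ ‖x₀ + t • v‖ + ‖x₀‖ := by
    have := norm_sub_le (x₀ + t • v) x₀
    rwa [add_sub_cancel_left] at this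
  linarith

theorem nondeg (hd : 0 < finrank ℝ V) {g : V → ℝ} (hg : ContDiff ℝ 1 g)
    (hgs : HasCompactSupport g) {x₀ : V} (hx₀ : g x₀ ≠ 0) :
    ∃ c₀ : ℝ, 0 < c₀ ∧ ∀ v : V, c₀ * ‖v‖ ≤ ∫ x, |inner ℝ v (gr g x)| := by
  have hgc := gr_continuous hg
  have hw : Integrable (gr g) := hgc.integrable_of_hasCompactSupport (gr_hasCompactSupport hgs)
  have hnt : Nontrivial V := Module.nontrivial_of_finrank_pos hd
  have hPc : Continuous fun v : V => ∫ x, |inner ℝ v (gr g x)| := by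
    have hW0 : 0 ≤ ∫ x, ‖gr g x‖ := integral_nonneg fun x => norm_nonneg _
    refine (LipschitzWith.of_dist_le_mul (K := (∫ x, ‖gr g x‖).toNNReal) fun v v' => ?_).continuous
    rw [Real.coe_toNNReal _ hW0, Real.dist_eq, abs_le, dist_eq_norm]
    have h1 := P_le hw v v'
    have h2 := P_le hw v' v
    rw [norm_sub_rev v' v] at h2
    constructor <;> linarith
  obtain ⟨u, hu, humin⟩ := (isCompact_sphere (0 : V) 1).exists_isMinOn
    (NormedSpace.sphere_nonempty.2 zero_le_one) hPc.continuousOn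
  have hu0 : u ≠ 0 := by
    rintro rfl
    simp at hu
  refine ⟨_, P_pos hg hgs hx₀ hu0, fun v => ?_⟩
  rcases eq_or_ne v 0 with rfl | hv
  · simp
  · have hn : ‖v‖ ≠ 0 := norm_ne_zero_iff.mpr hv
    have hmem : ‖v‖⁻¹ • v ∈ sphere (0 : V) 1 := by
      rw [mem_sphere_zero_iff_norm, norm_smul, norm_inv, norm_norm, inv_mul_cancel₀ hn]
    have h1 : ∫ x, |inner ℝ u (gr g x)| ≤ ∫ x, |inner ℝ (‖v‖⁻¹ • v) (gr g x)| := humin hmem
    rw [P_smul, abs_inv, abs_norm] at h1
    calc (∫ x, |inner ℝ u (gr g x)|) * ‖v‖ ≤ ‖v‖⁻¹ * (∫ x, |inner ℝ v (gr g x)|) * ‖v‖ :=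
          mul_le_mul_of_nonneg_right h1 (norm_nonneg v)
      _ = ∫ x, |inner ℝ v (gr g x)| := by field_simp

/-- **Petty's inequality for `C¹` functions of compact support.** -/
theorem smooth_case {m : ℕ} (hm : 1 ≤ m) (hd : finrank ℝ V = m + 1) {c : ℝ} (hc : 0 ≤ c)
    (hP : ∀ K : Set V, IsBody K → c * vol K ^ m ≤ vol (projBody K)) {g : V → ℝ}
    (hg : ContDiff ℝ 1 g) (hgs : HasCompactSupport g) (hg0 : ∀ x, 0 ≤ g x) :
    c * (∫ x, g x ^ (((m : ℝ) + 1) / m)) ^ m ≤
      vol (wulff fun v : V => (∫ x, |inner ℝ v (gr g x)|) / 2) := by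
  have hmR : (0 : ℝ) < m := by exact_mod_cast hm
  by_cases hz : ∀ x, g x = 0
  · have : ∫ x, g x ^ (((m : ℝ) + 1) / m) = 0 := by
      have e : (fun x => g x ^ (((m : ℝ) + 1) / m)) = fun _ => 0 := by
        funext x
        rw [hz x, Real.zero_rpow (by positivity)]
      rw [e, integral_zero]
    rw [this, zero_pow (by omega), mul_zero]
    exact vol_nonneg _
  push Not at hz
  obtain ⟨x₀, hx₀⟩ := hz
  have hw : Integrable (gr g) :=
    (gr_continuous hg).integrable_of_hasCompactSupport (gr_hasCompactSupport hgs)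
  obtain ⟨c₀, hc₀, hnd⟩ := nondeg (by omega) hg hgs hx₀
  obtain ⟨K₀, hK₀, hF, hmax⟩ := exists_max hw hc₀ hnd (c := ((m + 1 : ℕ) : ℝ)) (by positivity)
  have nK : K₀.Nonempty := hK₀.int.mono interior_subset
  have hv0 : 0 < vol K₀ := Main.vol_pos hK₀.toIsBody
  have hfv := first_var hw (by omega : 0 < m + 1) hd hK₀ hF hmax
  set S := ∫ x, g x ^ (((m : ℝ) + 1) / m) with hS
  have hS0 : 0 ≤ S := integral_nonneg fun x => Real.rpow_nonneg (hg0 x) _
  -- Sobolev
  have hsob := sobolev hm hd hK₀.compact nK hK₀.symm hg hgs hg0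
  have hm1 : (0 : ℝ) < m + 1 := by positivity
  have h1 : vol K₀ ^ ((1 : ℝ) / (m + 1)) * S ^ ((m : ℝ) / (m + 1)) ≤ 1 := by
    have h2 : (m + 1) * vol K₀ ^ ((1 : ℝ) / (m + 1)) * S ^ ((m : ℝ) / (m + 1)) ≤ m + 1 := by
      refine hsob.trans (hF.trans ?_)
      push_cast
      exact le_rfl
    have h3 : (m + 1) * (vol K₀ ^ ((1 : ℝ) / (m + 1)) * S ^ ((m : ℝ) / (m + 1))) ≤
        (m + 1) * 1 := by
      rw [mul_one, ← mul_assoc]
      exact h2
    exact le_of_mul_le_mul_left h3 hm1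
  have h4 : vol K₀ * S ^ m ≤ 1 := by
    have h5 := pow_le_pow_left₀ (mul_nonneg (Real.rpow_nonneg hv0.le _)
      (Real.rpow_nonneg hS0 _)) h1 (m + 1)
    rw [one_pow, mul_pow] at h5
    have e1 : (vol K₀ ^ ((1 : ℝ) / (m + 1))) ^ (m + 1) = vol K₀ := by
      rw [← Real.rpow_natCast, ← Real.rpow_mul hv0.le]
      push_cast
      rw [one_div_mul_cancel hm1.ne', Real.rpow_one]
    have e2 : (S ^ ((m : ℝ) / (m + 1))) ^ (m + 1) = S ^ m := by
      rw [← Real.rpow_natCast, ← Real.rpow_mul hS0]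
      push_cast
      rw [div_mul_cancel₀ _ hm1.ne', Real.rpow_natCast]
    rwa [e1, e2] at h5
  -- the projection body of `K₀`
  have hsub : (vol K₀)⁻¹ • projBody K₀ ⊆
      wulff fun v : V => (∫ x, |inner ℝ v (gr g x)|) / 2 := by
    rintro _ ⟨z, hz, rfl⟩ v
    rw [projBody_eq_wulff hK₀.compact hK₀.convex] at hz
    have h6 : inner ℝ z v ≤ beta K₀ v := hz v
    show inner ℝ ((vol K₀)⁻¹ • z) v ≤ _
    rw [real_inner_smul_left, inv_mul_le_iff₀ hv0]
    exact h6.trans (hfv v)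
  have hcomp : IsCompact (wulff fun v : V => (∫ x, |inner ℝ v (gr g x)|) / 2) := by
    refine wulff_compact (C := (∫ x, ‖gr g x‖) / 2) fun v => ?_
    have h7 := P_le hw v 0
    simp only [inner_zero_left, abs_zero, integral_zero, zero_add, sub_zero] at h7
    linarith
  have h8 := vol_mono hcomp hsub
  rw [vol_smul_set, abs_of_pos (inv_pos.2 hv0), hd] at h8
  refine le_trans ?_ h8
  have h9 := hP K₀ hK₀.toIsBody
  have h10 : (vol K₀)⁻¹ ^ (m + 1) * (c * vol K₀ ^ m) ≤
      (vol K₀)⁻¹ ^ (m + 1) * vol (projBody K₀) :=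
    mul_le_mul_of_nonneg_left h9 (by positivity)
  refine le_trans ?_ h10
  have e3 : (vol K₀)⁻¹ ^ (m + 1) * (c * vol K₀ ^ m) = c * (vol K₀)⁻¹ := by
    rw [inv_pow]
    field_simp
    ring
  rw [e3]
  refine mul_le_mul_of_nonneg_left ?_ hc
  rw [inv_eq_one_div, le_div_iff₀ hv0, mul_comm]
  exact h4

end Vale.Agent.P237.H888
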