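import Vale.Agent.P237.H888.Defs
import Vale.Agent.P237.H888.Smooth

/-!
# P237: Petty's inequality for functions of bounded variation
-/

set_option linter.unusedSectionVars false

open MeasureTheory Metric Set Module TopologicalSpace Filter Topology ContinuousLinearMap
open scoped Pointwise ENNReal NNReal Convolution

namespace Vale.Agent.P237.H888

variable {V : Type*} [NormedAddCommGroup V] [InnerProductSpace ℝ V] [FiniteDimensional ℝ V]
  [MeasurableSpace V] [BorelSpace V]

theorem diff_integrable {f : V → ℝ} (hf : Integrable f) (v : V) :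
    Integrable fun x => |f (x + v) - f x| := ((hf.comp_add_right v).sub hf).abs

theorem IsBV.bddAbove {f : V → ℝ} (hf : IsBV f) (v : V) :
    BddAbove (range fun t : Ioi (0 : ℝ) => (∫ x, |f (x + (t : ℝ) • v) - f x|) / (t : ℝ)) := by
  obtain ⟨C, hC⟩ := hf.2
  refine ⟨C * ‖v‖, ?_⟩
  rintro _ ⟨⟨t, ht⟩, rfl⟩
  have ht : 0 < t := ht
  show (∫ x, |f (x + t • v) - f x|) / t ≤ C * ‖v‖
  rw [div_le_iff₀ ht]
  have h := hC (t • v)
  rw [norm_smul, Real.norm_of_nonneg ht.le] at h
  calc ∫ x, |f (x + t • v) - f x| ≤ C * (t * ‖v‖) := h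
    _ = C * ‖v‖ * t := by ring

theorem IsBV.le_dirVar {f : V → ℝ} (hf : IsBV f) {t : ℝ} (ht : 0 < t) (v : V) :
    ∫ x, |f (x + t • v) - f x| ≤ t * dirVar f v := by
  have h := le_ciSup (hf.bddAbove v) ⟨t, ht⟩
  have h' : (∫ x, |f (x + t • v) - f x|) / t ≤ dirVar f v := h
  rw [div_le_iff₀ ht] at h'
  linarith

theorem dirVar_nonneg (f : V → ℝ) (v : V) : 0 ≤ dirVar f v := by
  refine Real.iSup_nonneg ?_
  rintro ⟨t, ht⟩
  have ht : 0 < t := ht
  exact div_nonneg (integral_nonneg fun x => abs_nonneg _) ht.le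

theorem dirVar_le_of {f : V → ℝ} {v : V} {D : ℝ}
    (h : ∀ t : ℝ, 0 < t → ∫ x, |f (x + t • v) - f x| ≤ t * D) : dirVar f v ≤ D := by
  have : Nonempty (Ioi (0 : ℝ)) := ⟨⟨1, mem_Ioi.2 one_pos⟩⟩
  refine ciSup_le ?_
  rintro ⟨t, ht⟩
  have ht : 0 < t := ht
  show (∫ x, |f (x + t • v) - f x|) / t ≤ D
  rw [div_le_iff₀ ht]
  linarith [h t ht]

theorem IsBV.dirVar_le {f : V → ℝ} (hf : IsBV f) : ∃ C : ℝ, ∀ v : V, dirVar f v ≤ C * ‖v‖ := by
  obtain ⟨C, hC⟩ := hf.2
  refine ⟨C, fun v => dirVar_le_of fun t ht => ?_⟩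
  have h := hC (t • v)
  rw [norm_smul, Real.norm_of_nonneg ht.le] at h
  linarith [mul_left_comm C t ‖v‖]

theorem IsBV.abs {f : V → ℝ} (hf : IsBV f) : IsBV (fun x => |f x|) := by
  obtain ⟨C, hC⟩ := hf.2
  refine ⟨hf.1.abs, C, fun v => le_trans ?_ (hC v)⟩
  exact integral_mono (diff_integrable hf.1.abs v) (diff_integrable hf.1 v)
    fun x => abs_abs_sub_abs_le_abs_sub _ _

theorem IsBV.dirVar_abs_le {f : V → ℝ} (hf : IsBV f) (v : V) :
    dirVar (fun x => |f x|) v ≤ dirVar f v := by
  refine dirVar_le_of fun t ht => le_trans ?_ (hf.le_dirVar ht v)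
  exact integral_mono (diff_integrable hf.1.abs _) (diff_integrable hf.1 _)
    fun x => abs_abs_sub_abs_le_abs_sub _ _

/-- Gradient bound from difference quotients. -/
theorem grad_le {g : V → ℝ} (hg : ContDiff ℝ 1 g) {v : V} {D : ℝ}
    (hgi : Integrable g)
    (h : ∀ t : ℝ, 0 < t → ∫ x, |g (x + t • v) - g x| ≤ t * D) :
    ∫ x, |inner ℝ v (gr g x)| ≤ D := by
  have hD : 0 ≤ D := by
    have h1 := h 1 one_pos
    rw [one_mul] at h1
    exact (integral_nonneg fun x => abs_nonneg _).trans h1
  set T : ℕ → ℝ := fun k => ((k : ℝ) + 1)⁻¹ with hT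
  have hT0 : ∀ k, 0 < T k := fun k => by positivity
  have hTlim : Tendsto T atTop (𝓝[>] 0) := by
    refine tendsto_nhdsWithin_iff.2 ⟨?_, Eventually.of_forall hT0⟩
    have := tendsto_one_div_add_atTop_nhds_zero_nat (𝕜 := ℝ)
    simpa only [one_div] using this
  have hpt : ∀ x, Tendsto (fun k => ENNReal.ofReal (|g (x + T k • v) - g x| / T k)) atTop
      (𝓝 (ENNReal.ofReal |inner ℝ v (gr g x)|)) := by
    intro x
    have h5 : HasDerivAt (fun t : ℝ => x + t • v) v 0 := by
      simpa using ((hasDerivAt_id (0 : ℝ)).smul_const v).const_add x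
    have hfd : HasFDerivAt g (fderiv ℝ g x) (x + (0 : ℝ) • v) := by
      rw [zero_smul, add_zero]
      exact ((hg.differentiable (by simp)) x).hasFDerivAt
    have h6 : HasDerivAt (fun t : ℝ => g (x + t • v)) (fderiv ℝ g x v) 0 :=
      hfd.comp_hasDerivAt (0 : ℝ) h5
    have h7 := (hasDerivAt_iff_tendsto_slope_zero.1 h6).mono_left
      (nhdsWithin_mono 0 (fun x (hx : x ∈ Ioi (0 : ℝ)) => (ne_of_gt hx : x ≠ 0)))
    have h8 := (h7.comp hTlim).abs
    have e : |fderiv ℝ g x v| = |inner ℝ v (gr g x)| := by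
      rw [real_inner_comm, inner_gr]
    rw [e] at h8
    refine (ENNReal.tendsto_ofReal h8).congr fun k => ?_
    congr 1
    show |(T k)⁻¹ • (g (x + (0 + T k) • v) - g (x + (0 : ℝ) • v))| = |g (x + T k • v) - g x| / T k
    rw [zero_add, zero_smul, add_zero, smul_eq_mul, abs_mul, abs_of_pos (inv_pos.2 (hT0 k)),
      div_eq_inv_mul]
  have hmeas : ∀ k, Measurable fun x => ENNReal.ofReal (|g (x + T k • v) - g x| / T k) := by
    intro k
    have hc : Continuous fun x => |g (x + T k • v) - g x| / T k :=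
      (((hg.continuous.comp (continuous_id.add continuous_const)).sub hg.continuous).abs).div_const _
    exact hc.measurable.ennreal_ofReal
  have hfat := lintegral_liminf_le (μ := (volume : Measure V)) (u := atTop) hmeas
  have hl : ∫⁻ x, ENNReal.ofReal |inner ℝ v (gr g x)| ≤ ENNReal.ofReal D := by
    have e1 : ∫⁻ x, ENNReal.ofReal |inner ℝ v (gr g x)| =
        ∫⁻ x, liminf (fun k => ENNReal.ofReal (|g (x + T k • v) - g x| / T k)) atTop :=
      lintegral_congr fun x => ((hpt x).liminf_eq).symm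
    rw [e1]
    refine hfat.trans ?_
    refine liminf_le_of_frequently_le (Frequently.of_forall fun k => ?_) (by isBoundedDefault)
    have hi : Integrable fun x => |g (x + T k • v) - g x| / T k :=
      (diff_integrable hgi _).div_const _
    rw [← ofReal_integral_eq_lintegral_ofReal hi
      (Eventually.of_forall fun x => div_nonneg (abs_nonneg _) (hT0 k).le)]
    refine ENNReal.ofReal_le_ofReal ?_
    rw [integral_div, div_le_iff₀ (hT0 k)]
    linarith [h (T k) (hT0 k)]
  have hcont : Continuous fun x => |inner ℝ v (gr g x)| :=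
    (continuous_const.inner (gr_continuous hg)).abs
  rw [integral_eq_lintegral_of_nonneg_ae (Eventually.of_forall fun x => abs_nonneg _)
    hcont.aestronglyMeasurable]
  refine ENNReal.toReal_le_of_le_ofReal hD hl

/-- the mollification -/
noncomputable def moll (φ : ContDiffBump (0 : V)) (f : V → ℝ) : V → ℝ :=
  (φ.normed volume) ⋆[lsmul ℝ ℝ, volume] f

theorem moll_apply (φ : ContDiffBump (0 : V)) (f : V → ℝ) (x : V) :
    moll φ f x = ∫ t, φ.normed volume t * f (x - t) := rfl

theorem moll_contDiff (φ : ContDiffBump (0 : V)) {f : V → ℝ} (hf : Integrable f) :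
    ContDiff ℝ 1 (moll φ f) := by
  have h := HasCompactSupport.contDiff_convolution_left (n := 1) (μ := (volume : Measure V))
    (lsmul ℝ ℝ) (φ.hasCompactSupport_normed (μ := (volume : Measure V)))
    (φ.contDiff_normed) hf.locallyIntegrable
  exact_mod_cast h

theorem moll_nonneg (φ : ContDiffBump (0 : V)) {f : V → ℝ} (hf : ∀ x, 0 ≤ f x) (x : V) :
    0 ≤ moll φ f x :=
  integral_nonneg fun t => mul_nonneg (φ.nonneg_normed t) (hf _)

theorem normed_integrable (φ : ContDiffBump (0 : V)) :
    Integrable (φ.normed (volume : Measure V)) :=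
  φ.continuous_normed.integrable_of_hasCompactSupport φ.hasCompactSupport_normed

theorem moll_integrable (φ : ContDiffBump (0 : V)) {f : V → ℝ} (hf : Integrable f) :
    Integrable (moll φ f) := (normed_integrable φ).integrable_convolution (lsmul ℝ ℝ) hf

theorem moll_integral (φ : ContDiffBump (0 : V)) {f : V → ℝ} (hf : Integrable f) :
    ∫ x, moll φ f x = ∫ x, f x := by
  have h := integral_convolution (μ := (volume : Measure V)) (ν := (volume : Measure V))
    (lsmul ℝ ℝ) (normed_integrable φ) hf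
  unfold moll
  rw [h, φ.integral_normed]
  simp

theorem moll_exists (φ : ContDiffBump (0 : V)) {f : V → ℝ} (hf : Integrable f) (x : V) :
    Integrable fun t => φ.normed volume t * f (x - t) :=
  (φ.hasCompactSupport_normed (μ := (volume : Measure V))).convolutionExists_left (lsmul ℝ ℝ)
    φ.continuous_normed hf.locallyIntegrable x

theorem moll_diff_le (φ : ContDiffBump (0 : V)) {f : V → ℝ} (hf : Integrable f) (v : V) :
    ∫ x, |moll φ f (x + v) - moll φ f x| ≤ ∫ x, |f (x + v) - f x| := by
  have hd : Integrable fun x => f (x + v) - f x := (hf.comp_add_right v).sub hf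
  have e : ∀ x, moll φ f (x + v) - moll φ f x = moll φ (fun x => f (x + v) - f x) x := by
    intro x
    rw [moll_apply, moll_apply, moll_apply, ← integral_sub (moll_exists φ hf (x + v))
      (moll_exists φ hf x)]
    refine integral_congr_ae (ae_of_all _ fun t => ?_)
    show φ.normed volume t * f (x + v - t) - φ.normed volume t * f (x - t) =
      φ.normed volume t * (f (x - t + v) - f (x - t))
    rw [mul_sub, show x + v - t = x - t + v by abel]
  have h1 : ∀ x, |moll φ f (x + v) - moll φ f x| ≤ moll φ (fun x => |f (x + v) - f x|) x := by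
    intro x
    rw [e, moll_apply, moll_apply, ← Real.norm_eq_abs]
    refine (norm_integral_le_integral_norm _).trans (le_of_eq ?_)
    refine integral_congr_ae (ae_of_all _ fun t => ?_)
    show ‖φ.normed volume t * (f (x - t + v) - f (x - t))‖ =
      φ.normed volume t * |f (x - t + v) - f (x - t)|
    rw [norm_mul, Real.norm_of_nonneg (φ.nonneg_normed t), Real.norm_eq_abs]
  calc ∫ x, |moll φ f (x + v) - moll φ f x|
      ≤ ∫ x, moll φ (fun x => |f (x + v) - f x|) x :=
        integral_mono (diff_integrable (moll_integrable φ hf) v)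
          (moll_integrable φ (diff_integrable hf v)) h1
    _ = ∫ x, |f (x + v) - f x| := moll_integral φ (diff_integrable hf v)

end Vale.Agent.P237.H888
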