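import Vale.Agent.P237.H888.Conv

/-!
# P237: the variation of `C¹` functions of compact support
-/

set_option linter.unusedSectionVars false

open MeasureTheory Metric Set Module TopologicalSpace Filter Topology
open scoped Pointwise ENNReal NNReal

namespace Vale.Agent.P237.H888

variable {V : Type*} [NormedAddCommGroup V] [InnerProductSpace ℝ V] [FiniteDimensional ℝ V]
  [MeasurableSpace V] [BorelSpace V]

theorem k_continuous {g : V → ℝ} (hg : ContDiff ℝ 1 g) (v : V) :
    Continuous fun x => |fderiv ℝ g x v| :=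
  ((hg.continuous_fderiv (by simp)).clm_apply continuous_const).abs

theorem k_integrable {g : V → ℝ} (hg : ContDiff ℝ 1 g) (hgs : HasCompactSupport g) (v : V) :
    Integrable fun x => |fderiv ℝ g x v| := by
  refine (k_continuous hg v).integrable_of_hasCompactSupport ?_
  refine HasCompactSupport.intro (hgs.fderiv ℝ).isCompact fun x hx => ?_
  rw [image_eq_zero_of_notMem_tsupport hx]
  simp

theorem c1_diff_le {g : V → ℝ} (hg : ContDiff ℝ 1 g) (hgs : HasCompactSupport g) (v : V)
    {t : ℝ} (ht : 0 < t) :
    ∫ x, |g (x + t • v) - g x| ≤ t * ∫ x, |fderiv ℝ g x v| := by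
  have hk := k_continuous hg v
  have hki := k_integrable hg hgs v
  have hgi : Integrable g := hg.continuous.integrable_of_hasCompactSupport hgs
  have hline : ∀ x : V, Continuous fun s : ℝ => |fderiv ℝ g (x + s • v) v| := fun x =>
    hk.comp (continuous_const.add (continuous_id.smul continuous_const))
  have hreal : ∀ x : V, |g (x + t • v) - g x| ≤
      ∫ s in Ioc (0 : ℝ) t, |fderiv ℝ g (x + s • v) v| := by
    intro x
    have hder : ∀ s : ℝ, HasDerivAt (fun s : ℝ => g (x + s • v)) (fderiv ℝ g (x + s • v) v) s := by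
      intro s
      have h5 : HasDerivAt (fun t : ℝ => x + t • v) v s := by
        simpa using ((hasDerivAt_id s).smul_const v).const_add x
      exact ((hg.differentiable (by simp)) (x + s • v)).hasFDerivAt.comp_hasDerivAt s h5
    have hcont : Continuous fun s : ℝ => fderiv ℝ g (x + s • v) v :=
      ((hg.continuous_fderiv (by simp)).comp
        (continuous_const.add (continuous_id.smul continuous_const))).clm_apply continuous_const
    have h1 := intervalIntegral.integral_eq_sub_of_hasDerivAt (a := 0) (b := t)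
      (fun s _ => hder s) (hcont.intervalIntegrable _ _)
    rw [zero_smul, add_zero] at h1
    rw [← h1, ← Real.norm_eq_abs, ← intervalIntegral.integral_of_le ht.le]
    exact intervalIntegral.norm_integral_le_integral_norm ht.le
  have hpt : ∀ x : V, ENNReal.ofReal |g (x + t • v) - g x| ≤
      ∫⁻ s in Ioc (0 : ℝ) t, ENNReal.ofReal |fderiv ℝ g (x + s • v) v| := by
    intro x
    have hi : IntegrableOn (fun s : ℝ => |fderiv ℝ g (x + s • v) v|) (Ioc 0 t) :=
      (hline x).integrableOn_Ioc
    rw [← ofReal_integral_eq_lintegral_ofReal hi (Eventually.of_forall fun s => abs_nonneg _)]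
    exact ENNReal.ofReal_le_ofReal (hreal x)
  have hjoint : Continuous fun z : V × ℝ => |fderiv ℝ g (z.1 + z.2 • v) v| :=
    hk.comp (continuous_fst.add (continuous_snd.smul continuous_const))
  have hmain : ∫⁻ x, ENNReal.ofReal |g (x + t • v) - g x| ≤
      ENNReal.ofReal t * ∫⁻ x, ENNReal.ofReal |fderiv ℝ g x v| := by
    calc ∫⁻ x, ENNReal.ofReal |g (x + t • v) - g x|
        ≤ ∫⁻ x, (∫⁻ s in Ioc (0 : ℝ) t, ENNReal.ofReal |fderiv ℝ g (x + s • v) v|) :=
          lintegral_mono hpt
      _ = ∫⁻ s in Ioc (0 : ℝ) t, (∫⁻ x, ENNReal.ofReal |fderiv ℝ g (x + s • v) v|) := by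
          rw [lintegral_lintegral_swap]
          exact hjoint.measurable.ennreal_ofReal.aemeasurable
      _ = ∫⁻ _s in Ioc (0 : ℝ) t, (∫⁻ x, ENNReal.ofReal |fderiv ℝ g x v|) := by
          refine lintegral_congr fun s => ?_
          exact lintegral_add_right_eq_self (fun x => ENNReal.ofReal |fderiv ℝ g x v|) (s • v)
      _ = _ := by
          rw [setLIntegral_const, Real.volume_Ioc, sub_zero, mul_comm]
  have hi0 := diff_integrable hgi (t • v)
  rw [← ofReal_integral_eq_lintegral_ofReal hi0 (Eventually.of_forall fun s => abs_nonneg _),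
    ← ofReal_integral_eq_lintegral_ofReal hki (Eventually.of_forall fun s => abs_nonneg _),
    ← ENNReal.ofReal_mul ht.le] at hmain
  exact (ENNReal.ofReal_le_ofReal_iff
    (mul_nonneg ht.le (integral_nonneg fun x => abs_nonneg _))).1 hmain

theorem c1_isBV {g : V → ℝ} (hg : ContDiff ℝ 1 g) (hgs : HasCompactSupport g) : IsBV g := by
  have hgi : Integrable g := hg.continuous.integrable_of_hasCompactSupport hgs
  have hN : Integrable fun x => ‖fderiv ℝ g x‖ :=
    ((hg.continuous_fderiv (by simp)).integrable_of_hasCompactSupport (hgs.fderiv ℝ)).norm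
  refine ⟨hgi, ∫ x, ‖fderiv ℝ g x‖, fun v => ?_⟩
  have h1 := c1_diff_le hg hgs v one_pos
  rw [one_smul, one_mul] at h1
  refine h1.trans ?_
  rw [mul_comm, ← integral_const_mul]
  refine integral_mono (k_integrable hg hgs v) (hN.const_mul _) fun x => ?_
  show |fderiv ℝ g x v| ≤ ‖v‖ * ‖fderiv ℝ g x‖
  rw [← Real.norm_eq_abs, mul_comm]
  exact (fderiv ℝ g x).le_opNorm v

theorem c1_dirVar {g : V → ℝ} (hg : ContDiff ℝ 1 g) (hgs : HasCompactSupport g) (v : V) :
    dirVar g v = ∫ x, |fderiv ℝ g x v| := by
  have hgi : Integrable g := hg.continuous.integrable_of_hasCompactSupport hgs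
  have hBV := c1_isBV hg hgs
  apply le_antisymm
  · exact dirVar_le_of fun t ht => c1_diff_le hg hgs v ht
  · have h := grad_le hg (v := v) (D := dirVar g v) hgi fun t ht => hBV.le_dirVar ht v
    have e : ∀ x, |fderiv ℝ g x v| = |inner ℝ v (gr g x)| := fun x => by
      rw [real_inner_comm, inner_gr]
    rw [integral_congr_ae (ae_of_all _ e)]
    exact h

/-! ### The directional variation is a seminorm -/

theorem IsBV.dirVar_smul {f : V → ℝ} (hf : IsBV f) {s : ℝ} (hs : 0 ≤ s) (v : V) :
    dirVar f (s • v) = s * dirVar f v := by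
  rcases hs.eq_or_lt with rfl | hs
  · rw [zero_smul, zero_mul]
    apply le_antisymm
    · refine dirVar_le_of fun t ht => ?_
      simp
    · exact dirVar_nonneg _ _
  · apply le_antisymm
    · refine dirVar_le_of fun t ht => ?_
      have h := hf.le_dirVar (mul_pos ht hs) v
      rw [smul_smul]
      linarith [mul_assoc t s (dirVar f v)]
    · have h : dirVar f v ≤ s⁻¹ * dirVar f (s • v) := by
        refine dirVar_le_of fun t ht => ?_
        have h := hf.le_dirVar (mul_pos ht (inv_pos.2 hs)) (s • v)
        rw [smul_smul, mul_assoc, inv_mul_cancel₀ hs.ne', mul_one] at h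
        linarith [mul_assoc t s⁻¹ (dirVar f (s • v))]
      rw [le_inv_mul_iff₀ hs] at h
      exact h

theorem IsBV.dirVar_add {f : V → ℝ} (hf : IsBV f) (v w : V) :
    dirVar f (v + w) ≤ dirVar f v + dirVar f w := by
  refine dirVar_le_of fun t ht => ?_
  have h1 : ∫ x, |f (x + t • (v + w)) - f x| ≤
      (∫ x, |f (x + t • w + t • v) - f (x + t • w)|) + ∫ x, |f (x + t • w) - f x| := by
    have hi : Integrable fun x => |f (x + t • w + t • v) - f (x + t • w)| :=
      (diff_integrable hf.1 (t • v)).comp_add_right (t • w)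
    rw [← integral_add hi (diff_integrable hf.1 _)]
    refine integral_mono (diff_integrable hf.1 _) (hi.add (diff_integrable hf.1 _)) fun x => ?_
    show |f (x + t • (v + w)) - f x| ≤ |f (x + t • w + t • v) - f (x + t • w)| +
      |f (x + t • w) - f x|
    have e : x + t • (v + w) = x + t • w + t • v := by
      rw [smul_add]
      abel
    rw [e]
    exact abs_sub_le _ _ _
  have h2 : ∫ x, |f (x + t • w + t • v) - f (x + t • w)| = ∫ x, |f (x + t • v) - f x| :=
    integral_add_right_eq_self (fun x => |f (x + t • v) - f x|) (t • w)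
  rw [h2] at h1
  have h3 := hf.le_dirVar ht v
  have h4 := hf.le_dirVar ht w
  linarith [mul_add t (dirVar f v) (dirVar f w)]

theorem IsBV.supp_fnProjBody {f : V → ℝ} (hf : IsBV f) (v : V) :
    supp (fnProjBody f) v = dirVar f v / 2 := by
  have h := wulff_supp (h := fun v => dirVar f v / 2)
    (fun t v ht => by
      show dirVar f (t • v) / 2 = t * (dirVar f v / 2)
      rw [hf.dirVar_smul ht]
      ring)
    (fun v w => by
      have := hf.dirVar_add v w
      show dirVar f (v + w) / 2 ≤ dirVar f v / 2 + dirVar f w / 2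
      linarith) v
  exact h

theorem IsBV.fnProjBody_compact {f : V → ℝ} (hf : IsBV f) : IsCompact (fnProjBody f) := by
  obtain ⟨C, hC⟩ := hf.dirVar_le
  exact wulff_compact (h := fun v => dirVar f v / 2) (C := C / 2) fun v => by linarith [hC v]

theorem fnProjBody_convex (f : V → ℝ) : Convex ℝ (fnProjBody f) := by
  intro x hx y hy a b ha hb hab v
  have h1 := hx v
  have h2 := hy v
  rw [inner_add_left, real_inner_smul_left, real_inner_smul_left]
  calc a * inner ℝ x v + b * inner ℝ y v ≤ a * (dirVar f v / 2) + b * (dirVar f v / 2) :=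
        add_le_add (mul_le_mul_of_nonneg_left h1 ha) (mul_le_mul_of_nonneg_left h2 hb)
    _ = dirVar f v / 2 := by rw [← add_mul, hab, one_mul]

end Vale.Agent.P237.H888
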