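import Vale.Agent.P237.H888.Lim

/-!
# P237: the projection body of the indicator function of a convex body
-/

set_option linter.unusedSectionVars false

open MeasureTheory Metric Set Module TopologicalSpace Filter Topology
open scoped Pointwise ENNReal NNReal

namespace Vale.Agent.P237.H888

variable {V : Type*} [NormedAddCommGroup V] [InnerProductSpace ℝ V] [FiniteDimensional ℝ V]
  [MeasurableSpace V] [BorelSpace V]

/-- the translate `E - v` -/
def sh (E : Set V) (v : V) : Set V := (fun x => x + v) ⁻¹' E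

theorem sh_meas {E : Set V} (hE : MeasurableSet E) (v : V) : MeasurableSet (sh E v) :=
  hE.preimage (measurable_add_const v)

theorem sh_volume (E : Set V) (v : V) : volume (sh E v) = volume E :=
  measure_preimage_add_right volume v E

theorem sh_diff_comm {E : Set V} (hE : MeasurableSet E) (hfin : volume E ≠ ⊤) (v : V) :
    volume (E \ sh E v) = volume (sh E v \ E) := by
  have h1 := measure_inter_add_sdiff (μ := (volume : Measure V)) E (sh_meas hE v)
  have h2 := measure_inter_add_sdiff (μ := (volume : Measure V)) (sh E v) hE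
  rw [sh_volume, inter_comm] at h2
  rw [← h1] at h2
  have h3 : volume (E ∩ sh E v) ≠ ⊤ := ne_top_of_le_ne_top hfin (measure_mono inter_subset_left)
  exact ((ENNReal.add_right_inj h3).1 h2).symm

theorem tv_indicator {E : Set V} (hE : MeasurableSet E) (hfin : volume E ≠ ⊤) (v : V) :
    ∫ x, |E.indicator (fun _ => (1 : ℝ)) (x + v) - E.indicator (fun _ => (1 : ℝ)) x| =
      2 * (volume (sh E v \ E)).toReal := by
  have e1 : ∀ x, |E.indicator (fun _ => (1 : ℝ)) (x + v) - E.indicator (fun _ => (1 : ℝ)) x| =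
      (sh E v \ E).indicator (fun _ => (1 : ℝ)) x + (E \ sh E v).indicator (fun _ => (1 : ℝ)) x := by
    intro x
    by_cases h1 : x + v ∈ E
    · have h1' : x ∈ sh E v := h1
      by_cases h2 : x ∈ E
      · rw [indicator_of_mem h1, indicator_of_mem h2,
          indicator_of_notMem (fun h => h.2 h2), indicator_of_notMem (fun h => h.2 h1')]
        simp
      · have h3 : x ∈ sh E v \ E := ⟨h1', h2⟩
        rw [indicator_of_mem h1, indicator_of_notMem h2,
          indicator_of_mem h3, indicator_of_notMem (fun h => h2 h.1)]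
        simp
    · have h1' : x ∉ sh E v := h1
      by_cases h2 : x ∈ E
      · have h3 : x ∈ E \ sh E v := ⟨h2, h1'⟩
        rw [indicator_of_notMem h1, indicator_of_mem h2,
          indicator_of_notMem (fun h => h.2 h2), indicator_of_mem h3]
        simp
      · rw [indicator_of_notMem h1, indicator_of_notMem h2,
          indicator_of_notMem (fun h => h1' h.1), indicator_of_notMem (fun h => h2 h.1)]
        simp
  have hm1 : MeasurableSet (sh E v \ E) := (sh_meas hE v).diff hE
  have hm2 : MeasurableSet (E \ sh E v) := hE.diff (sh_meas hE v)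
  have hf1 : volume (sh E v \ E) ≠ ⊤ := ne_top_of_le_ne_top
    (by rw [sh_volume]; exact hfin : volume (sh E v) ≠ ⊤) (measure_mono sdiff_subset)
  have hf2 : volume (E \ sh E v) ≠ ⊤ := ne_top_of_le_ne_top hfin (measure_mono sdiff_subset)
  have hi1 : Integrable ((sh E v \ E).indicator (fun _ => (1 : ℝ))) :=
    (integrable_indicator_iff hm1).2 (integrableOn_const hf1)
  have hi2 : Integrable ((E \ sh E v).indicator (fun _ => (1 : ℝ))) :=
    (integrable_indicator_iff hm2).2 (integrableOn_const hf2)
  rw [integral_congr_ae (ae_of_all _ e1), integral_add hi1 hi2, integral_indicator hm1,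
    integral_indicator hm2, setIntegral_const, setIntegral_const, smul_eq_mul, smul_eq_mul,
    mul_one, mul_one, measureReal_def, measureReal_def, sh_diff_comm hE hfin v]
  ring

theorem indicator_integrable {E : Set V} (hE : MeasurableSet E) (hfin : volume E ≠ ⊤) :
    Integrable (E.indicator (fun _ => (1 : ℝ))) :=
  (integrable_indicator_iff hE).2 (integrableOn_const hfin)

theorem sh_union_subset {K : Set V} (v : V) : K ∪ sh K v ⊆ K + segment ℝ 0 (-v) := by
  rintro x (hx | hx)
  · exact ⟨x, hx, 0, left_mem_segment ℝ _ _, add_zero x⟩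
  · exact ⟨x + v, hx, -v, right_mem_segment ℝ _ _, by simp⟩

theorem sh_diff_le {K : Set V} (hK : IsBody K) (v : V) :
    (volume (sh K v \ K)).toReal ≤ beta K v := by
  have hm : MeasurableSet K := hK.compact.measurableSet
  have hfin : volume K ≠ ⊤ := hK.compact.measure_lt_top.ne
  have h1 : IsCompact (K + segment ℝ 0 (-v)) := by
    refine hK.compact.add ?_
    rw [segment_eq_image_lineMap]
    exact isCompact_Icc.image AffineMap.lineMap_continuous
  have h2 := measure_mono (μ := (volume : Measure V)) (sh_union_subset (K := K) v)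
  have h3 : volume (K ∪ sh K v) = volume K + volume (sh K v \ K) := by
    rw [← union_sdiff_self, measure_union disjoint_sdiff_right ((sh_meas hm v).diff hm)]
  rw [h3] at h2
  have hf1 : volume (sh K v \ K) ≠ ⊤ := ne_top_of_le_ne_top
    (by rw [sh_volume]; exact hfin : volume (sh K v) ≠ ⊤) (measure_mono sdiff_subset)
  have h4 := ENNReal.toReal_mono h1.measure_lt_top.ne h2
  rw [ENNReal.toReal_add hfin hf1] at h4
  rw [← beta_neg K v]
  unfold beta vol
  linarith

theorem indicator_isBV {K : Set V} (hK : IsBody K) : IsBV (K.indicator (fun _ => (1 : ℝ))) := by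
  have hm : MeasurableSet K := hK.compact.measurableSet
  have hfin : volume K ≠ ⊤ := hK.compact.measure_lt_top.ne
  obtain ⟨C, hC0, hC⟩ := exists_beta_le hK.compact hK.convex
  refine ⟨indicator_integrable hm hfin, 2 * C, fun v => ?_⟩
  rw [tv_indicator hm hfin]
  have h1 := sh_diff_le hK v
  have h2 := hC v
  linarith

theorem dirVar_indicator_le {K : Set V} (hK : IsBody K) (v : V) :
    dirVar (K.indicator (fun _ => (1 : ℝ))) v ≤ 2 * beta K v := by
  have hm : MeasurableSet K := hK.compact.measurableSet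
  have hfin : volume K ≠ ⊤ := hK.compact.measure_lt_top.ne
  refine dirVar_le_of fun t ht => ?_
  rw [tv_indicator hm hfin]
  have h1 := sh_diff_le hK (t • v)
  rw [beta_hs hK.compact hK.convex t v ht.le] at h1
  linarith

/-- the union of the translates `K - i δ v`, `i ≤ j` -/
def un (K : Set V) (v : V) (δ : ℝ) (j : ℕ) : Set V := {x | ∃ i : ℕ, i ≤ j ∧ x + ((i : ℝ) * δ) • v ∈ K}

theorem un_le (K : Set V) (v : V) (δ : ℝ) (j : ℕ) :
    volume (un K v δ j) ≤ volume K + j * volume (sh K (δ • v) \ K) := by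
  induction j with
  | zero =>
    have : un K v δ 0 = K := by
      ext x
      constructor
      · rintro ⟨i, hi, hx⟩
        obtain rfl : i = 0 := by omega
        simpa using hx
      · intro hx
        exact ⟨0, le_rfl, by simpa using hx⟩
    rw [this]
    simp
  | succ j ih =>
    have hsub : un K v δ (j + 1) ⊆ un K v δ j ∪
        (fun x => x + ((j : ℝ) * δ) • v) ⁻¹' (sh K (δ • v) \ K) := by
      rintro x ⟨i, hi, hx⟩
      rcases Nat.lt_or_ge i (j + 1) with h | h
      · exact Or.inl ⟨i, by omega, hx⟩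
      · obtain rfl : i = j + 1 := by omega
        by_cases h2 : x + ((j : ℝ) * δ) • v ∈ K
        · exact Or.inl ⟨j, le_rfl, h2⟩
        · refine Or.inr ⟨?_, h2⟩
          show x + ((j : ℝ) * δ) • v + δ • v ∈ K
          have e : x + ((j : ℝ) * δ) • v + δ • v = x + (((j + 1 : ℕ) : ℝ) * δ) • v := by
            push_cast
            module
          rw [e]
          exact hx
    calc volume (un K v δ (j + 1)) ≤ volume (un K v δ j) +
          volume ((fun x => x + ((j : ℝ) * δ) • v) ⁻¹' (sh K (δ • v) \ K)) :=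
          (measure_mono hsub).trans (measure_union_le _ _)
      _ = volume (un K v δ j) + volume (sh K (δ • v) \ K) := by
          rw [measure_preimage_add_right]
      _ ≤ volume K + j * volume (sh K (δ • v) \ K) + volume (sh K (δ • v) \ K) := by gcongr
      _ = _ := by
          push_cast
          ring

theorem beta_le_dirVar {K : Set V} (hK : IsBody K) (v : V) :
    2 * beta K v ≤ dirVar (K.indicator (fun _ => (1 : ℝ))) v := by
  have hm : MeasurableSet K := hK.compact.measurableSet
  have hfin : volume K ≠ ⊤ := hK.compact.measure_lt_top.ne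
  have hBV := indicator_isBV hK
  set D := dirVar (K.indicator (fun _ => (1 : ℝ))) v with hD
  have hD0 : 0 ≤ D := dirVar_nonneg _ _
  set E : ℕ → Set V := fun k => un K v ((2 : ℝ) ^ k)⁻¹ (2 ^ k) with hE
  have hEle : ∀ k, volume (E k) ≤ volume K + ENNReal.ofReal (D / 2) := by
    intro k
    refine (un_le K v _ _).trans ?_
    gcongr
    have h2k : (0 : ℝ) < (2 : ℝ) ^ k := by positivity
    have h1 := hBV.le_dirVar (inv_pos.2 h2k) v
    rw [tv_indicator hm hfin, ← hD] at h1
    have hf1 : volume (sh K (((2 : ℝ) ^ k)⁻¹ • v) \ K) ≠ ⊤ := ne_top_of_le_ne_top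
      (by rw [sh_volume]; exact hfin : volume (sh K (((2 : ℝ) ^ k)⁻¹ • v)) ≠ ⊤)
      (measure_mono sdiff_subset)
    have h3 : (2 : ℝ) ^ k * (volume (sh K (((2 : ℝ) ^ k)⁻¹ • v) \ K)).toReal ≤ D / 2 := by
      rw [le_div_iff₀ two_pos]
      have h4 : (2 : ℝ) ^ k * (2 * (volume (sh K (((2 : ℝ) ^ k)⁻¹ • v) \ K)).toReal) ≤
          (2 : ℝ) ^ k * (((2 : ℝ) ^ k)⁻¹ * D) := mul_le_mul_of_nonneg_left h1 h2k.le
      rw [← mul_assoc ((2 : ℝ) ^ k) _ D, mul_inv_cancel₀ h2k.ne', one_mul] at h4
      linarith
    calc ((2 ^ k : ℕ) : ℝ≥0∞) * volume (sh K (((2 : ℝ) ^ k)⁻¹ • v) \ K)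
        = ENNReal.ofReal ((2 : ℝ) ^ k * (volume (sh K (((2 : ℝ) ^ k)⁻¹ • v) \ K)).toReal) := by
          rw [ENNReal.ofReal_mul h2k.le, ENNReal.ofReal_toReal hf1]
          congr 1
          rw [ENNReal.ofReal_pow two_pos.le]
          simp
      _ ≤ ENNReal.ofReal (D / 2) := ENNReal.ofReal_le_ofReal h3
  have hmono : Monotone E := by
    refine monotone_nat_of_le_succ fun k => ?_
    rintro x ⟨i, hi, hx⟩
    refine ⟨2 * i, by rw [pow_succ]; omega, ?_⟩
    have e : (((2 * i : ℕ) : ℝ) * ((2 : ℝ) ^ (k + 1))⁻¹) = (i : ℝ) * ((2 : ℝ) ^ k)⁻¹ := by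
      push_cast
      rw [pow_succ]
      field_simp
    rw [e]
    exact hx
  have hU : volume (⋃ k, E k) ≤ volume K + ENNReal.ofReal (D / 2) := by
    have h1 := tendsto_measure_iUnion_atTop (μ := (volume : Measure V)) hmono
    exact le_of_tendsto h1 (Eventually.of_forall hEle)
  -- the open set `int K + [0, -v]`
  set O := interior K + segment ℝ 0 (-v) with hO
  have hOsub : O ⊆ ⋃ k, E k := by
    rintro _ ⟨o, ho, _, ⟨a, s, ha, hs, has, rfl⟩, rfl⟩
    have hs1 : s ≤ 1 := by linarith
    rw [mem_iUnion]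
    have hcont : Tendsto (fun k : ℕ => o + (a • (0 : V) + s • (-v)) +
        (((⌊s * 2 ^ k⌋₊ : ℕ) : ℝ) * ((2 : ℝ) ^ k)⁻¹) • v) atTop (𝓝 o) := by
      have h1 : Tendsto (fun k : ℕ => ((⌊s * 2 ^ k⌋₊ : ℕ) : ℝ) * ((2 : ℝ) ^ k)⁻¹) atTop (𝓝 s) := by
        have h2 := (tendsto_nat_floor_mul_div_atTop hs).comp
          (tendsto_pow_atTop_atTop_of_one_lt (one_lt_two : (1 : ℝ) < 2))
        refine h2.congr fun k => ?_
        show ((⌊s * 2 ^ k⌋₊ : ℕ) : ℝ) / 2 ^ k = _
        rw [div_eq_mul_inv]
      have h3 : Tendsto (fun k : ℕ => o + (a • (0 : V) + s • (-v)) +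
        (((⌊s * 2 ^ k⌋₊ : ℕ) : ℝ) * ((2 : ℝ) ^ k)⁻¹) • v) atTop
        (𝓝 (o + (a • (0 : V) + s • (-v)) + s • v)) := tendsto_const_nhds.add (h1.smul_const v)
      have e : o + (a • (0 : V) + s • (-v)) + s • v = o := by
        rw [smul_zero, zero_add, smul_neg, neg_add_cancel_right]
      rwa [e] at h3
    have h4 : ∀ᶠ k : ℕ in atTop, o + (a • (0 : V) + s • (-v)) +
        (((⌊s * 2 ^ k⌋₊ : ℕ) : ℝ) * ((2 : ℝ) ^ k)⁻¹) • v ∈ K :=
      hcont.eventually_mem (mem_interior_iff_mem_nhds.1 ho)
    obtain ⟨k, hk⟩ := h4.exists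
    refine ⟨k, ⌊s * 2 ^ k⌋₊, ?_, hk⟩
    have h5 : s * 2 ^ k ≤ ((2 ^ k : ℕ) : ℝ) := by
      push_cast
      exact mul_le_of_le_one_left (by positivity) hs1
    exact (Nat.floor_le_floor h5).trans (by rw [Nat.floor_natCast])
  have hOconv : Convex ℝ O := hK.convex.interior.add (convex_segment _ _)
  have hcl : K + segment ℝ 0 (-v) ⊆ closure O := by
    rintro _ ⟨x, hx, z, hz, rfl⟩
    have hx' : x ∈ closure (interior K) := by
      rw [hK.convex.closure_interior_eq_closure_of_nonempty_interior hK.int]
      exact subset_closure hx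
    have hcz : Continuous fun y : V => y + z := continuous_id.add continuous_const
    exact map_mem_closure (f := fun y : V => y + z) hcz hx' fun y hy => Set.add_mem_add hy hz
  have hvolO : volume (closure O) ≤ volume O := by
    rw [closure_eq_self_union_frontier]
    refine (measure_union_le _ _).trans ?_
    rw [hOconv.addHaar_frontier volume, add_zero]
  have hfinal : volume (K + segment ℝ 0 (-v)) ≤ volume K + ENNReal.ofReal (D / 2) :=
    (measure_mono hcl).trans (hvolO.trans ((measure_mono hOsub).trans hU))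
  have h6 := ENNReal.toReal_mono (ENNReal.add_ne_top.2 ⟨hfin, ENNReal.ofReal_ne_top⟩) hfinal
  rw [ENNReal.toReal_add hfin ENNReal.ofReal_ne_top, ENNReal.toReal_ofReal (by positivity)] at h6
  have h7 : beta K v ≤ D / 2 := by
    rw [← beta_neg K v]
    unfold beta vol
    linarith
  linarith

theorem fnProjBody_indicator {K : Set V} (hK : IsBody K) :
    fnProjBody (K.indicator (fun _ => (1 : ℝ))) = projBody K := by
  rw [projBody_eq_wulff hK.compact hK.convex]
  have h : ∀ v, dirVar (K.indicator (fun _ => (1 : ℝ))) v / 2 = beta K v := by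
    intro v
    have h1 := dirVar_indicator_le hK v
    have h2 := beta_le_dirVar hK v
    linarith
  ext y
  constructor
  · intro hy v
    rw [← h]
    exact hy v
  · intro hy v
    rw [h]
    exact hy v

end Vale.Agent.P237.H888
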