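import Mathlib

/-!
# P237: functions of bounded variation and their projection bodies
-/

open MeasureTheory Set

namespace Vale.Agent.P237.H888

variable {V : Type*} [NormedAddCommGroup V] [InnerProductSpace ℝ V] [FiniteDimensional ℝ V]
  [MeasurableSpace V] [BorelSpace V]

/-- `f` is a function of bounded variation on `V`: it is integrable and
`∫ |f(x + v) - f(x)| dx ≤ C |v|` for all `v`, for some constant `C`. -/
def IsBV (f : V → ℝ) : Prop :=
  Integrable f ∧ ∃ C : ℝ, ∀ v : V, ∫ x, |f (x + v) - f x| ≤ C * ‖v‖

/-- The variation of `f` in the direction `v`: the supremum over `t > 0` of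
`(1/t) ∫ |f(x + t v) - f(x)| dx` (the total variation of the derivative of `f` along `v`, that is
`∫ |⟨∇f(x), v⟩| dx` for smooth `f`). -/
noncomputable def dirVar (f : V → ℝ) (v : V) : ℝ :=
  ⨆ t : Ioi (0 : ℝ), (∫ x, |f (x + (t : ℝ) • v) - f x|) / t

/-- The projection body of `f`: the convex body with support function `v ↦ dirVar f v / 2`. -/
def fnProjBody (f : V → ℝ) : Set V := {y | ∀ v : V, inner ℝ y v ≤ dirVar f v / 2}

end Vale.Agent.P237.H888
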