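import Vale.Agent.P237.H888.Seq
import Vale.Agent.P237.H888.C1

/-!
# P237: the extremal body in the equality case for sets of finite perimeter
-/

set_option linter.unusedSectionVars false

open MeasureTheory Metric Set Module TopologicalSpace Filter Topology
open scoped Pointwise ENNReal NNReal

namespace Vale.Agent.P237.H888

variable {V : Type*} [NormedAddCommGroup V] [InnerProductSpace ℝ V] [FiniteDimensional ℝ V]
  [MeasurableSpace V] [BorelSpace V]

theorem eq_case {m : ℕ} (hm : 1 ≤ m) (hd : finrank ℝ V = m + 1) {c : ℝ} (hc : 0 < c)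
    (hP : ∀ K : Set V, IsBody K → c * vol K ^ m ≤ vol (projBody K)) {S : Set V}
    (hS : MeasurableSet S) (hfin : volume S ≠ ⊤) (hpos : 0 < vol S)
    (hf : IsBV (S.indicator fun _ => (1 : ℝ)))
    (heq : vol (fnProjBody (S.indicator fun _ => (1 : ℝ))) ≤ c * vol S ^ m) :
    ∃ K₀ : Set V, IsSymBody K₀ ∧ vol (projBody K₀) = c * vol K₀ ^ m ∧ vol K₀ * vol S ^ m = 1 ∧
      LF (S.indicator fun _ => (1 : ℝ)) K₀ ≤ m + 1 := by
  set f : V → ℝ := S.indicator fun _ => (1 : ℝ) with hfd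
  have hmR : (0 : ℝ) < m := by exact_mod_cast hm
  have hm1 : (0 : ℝ) < (m : ℝ) + 1 := by positivity
  have hF := LF_addFun hf
  have hA : 0 < ((m : ℝ) + 1) ^ (m + 1) * vol S ^ m := by positivity
  obtain ⟨c₀, hc₀, hnd⟩ := nondegF hF (by omega : 2 ≤ m + 1) hd hA
    fun L hL nL _ hs => LF_sobolev hm hd hS hfin hpos hf hL nL hs
  obtain ⟨K₀, hK₀, hFK, hmax⟩ := exists_maxF hF hc₀ hnd (c := ((m + 1 : ℕ) : ℝ)) (by positivity)
  have nK : K₀.Nonempty := hK₀.int.mono interior_subset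
  have hv0 : 0 < vol K₀ := Main.vol_pos hK₀.toIsBody
  have hfv := first_varF hF (by omega : 0 < m + 1) hd hK₀ hFK hmax
  have h0K : (0 : V) ∈ K₀ := by
    obtain ⟨x, hx⟩ := nK
    have := hK₀.convex hx (hK₀.symm x hx) (a := 2⁻¹) (b := 2⁻¹) (by norm_num) (by norm_num)
      (by norm_num)
    simpa using this
  have hFK0 : 0 ≤ LF f K₀ := hF.nonneg hK₀.compact h0K
  have hFK' : LF f K₀ ≤ (m : ℝ) + 1 := by
    push_cast at hFK
    exact hFK
  have h4 : vol K₀ * vol S ^ m ≤ 1 := by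
    have h1 := LF_sobolev hm hd hS hfin hpos hf hK₀.compact nK hK₀.symm
    have h2 := h1.trans (pow_le_pow_left₀ hFK0 hFK' (m + 1))
    have h3 : ((m : ℝ) + 1) ^ (m + 1) * (vol K₀ * vol S ^ m) ≤ ((m : ℝ) + 1) ^ (m + 1) * 1 := by
      rw [mul_one]
      refine le_trans (le_of_eq ?_) h2
      ring
    exact le_of_mul_le_mul_left h3 (by positivity)
  have hsub : (vol K₀)⁻¹ • projBody K₀ ⊆ fnProjBody f := by
    rintro _ ⟨z, hz, rfl⟩ v
    rw [projBody_eq_wulff hK₀.compact hK₀.convex] at hz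
    have h6 : inner ℝ z v ≤ beta K₀ v := hz v
    show inner ℝ ((vol K₀)⁻¹ • z) v ≤ _
    rw [real_inner_smul_left, inv_mul_le_iff₀ hv0]
    refine h6.trans ((hfv v).trans (mul_le_mul_of_nonneg_left ?_ hv0.le))
    have := LF_sg hf v
    linarith
  have h8 := vol_mono hf.fnProjBody_compact hsub
  rw [vol_smul_set, abs_of_pos (inv_pos.2 hv0), hd] at h8
  have h9 := hP K₀ hK₀.toIsBody
  have h10 : vol (projBody K₀) ≤ c * vol S ^ m * vol K₀ ^ (m + 1) := by
    have h11 := h8.trans heq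
    rw [inv_pow, inv_mul_le_iff₀ (by positivity)] at h11
    linarith
  have h12 : 1 ≤ vol K₀ * vol S ^ m := by
    have h13 : c * vol K₀ ^ m * 1 ≤ c * vol K₀ ^ m * (vol K₀ * vol S ^ m) := by
      rw [mul_one]
      refine (h9.trans h10).trans (le_of_eq ?_)
      ring
    exact le_of_mul_le_mul_left h13 (by positivity)
  have h14 : vol K₀ * vol S ^ m = 1 := le_antisymm h4 h12
  refine ⟨K₀, hK₀, le_antisymm ?_ h9, h14, hFK'⟩
  refine h10.trans (le_of_eq ?_)
  calc c * vol S ^ m * vol K₀ ^ (m + 1) = c * vol K₀ ^ m * (vol K₀ * vol S ^ m) := by ring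
    _ = c * vol K₀ ^ m := by rw [h14, mul_one]

end Vale.Agent.P237.H888
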