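import Vale.Agent.P219.H817.R11

/-!
# P237: the equality case of the Euclidean isoperimetric inequality for sets of finite perimeter
-/

open MeasureTheory Matrix Set Metric Filter Topology
open scoped ENNReal ContDiff NNReal

namespace Vale.Agent.P237.H888

open Vale.Agent.P219.Co

variable {n : ℕ}

/-- the flat metric -/
noncomputable def flat (n : ℕ) : RiemMetric n where
  g := fun _ => 1
  smooth := fun _ _ => contDiff_const
  pos := fun _ => Matrix.PosDef.one

theorem pd_const (i : Fin n) (c : ℝ) (x : E n) : pd i (fun _ : E n => c) x = 0 := by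
  unfold pd lineDeriv
  simp

theorem flat_density (x : E n) : volDensity (flat n) x = 1 := by
  unfold volDensity flat
  simp

theorem flat_riemVol (S : Set (E n)) : riemVol (flat n) S = volume S := by
  unfold riemVol
  simp [flat_density, leb]

theorem flat_christoffel (k i j : Fin n) : christoffel (flat n) k i j = fun _ => 0 := by
  funext x
  unfold christoffel flat
  simp [pd_const]

theorem flat_riem (i j k m : Fin n) (x : E n) : riem (flat n) i j k m x = 0 := by
  unfold riem
  simp [flat_christoffel, pd_const]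

theorem flat_secLE : SecLE (flat n) 0 := by
  intro x u v
  simp [flat_riem]

theorem flat_complete : GeodesicallyComplete (flat n) := by
  intro x v
  refine ⟨fun t => x + t • v, fun _ => v, by simp, rfl, fun t k => ⟨?_, ?_⟩⟩
  · have h := ((hasDerivAt_id t).mul_const (v k)).const_add (x k)
    simpa using h
  · simp only [flat_christoffel, zero_mul, Finset.sum_const_zero, neg_zero]
    exact hasDerivAt_const _ _

theorem flat_divg (X : E n → Fin n → ℝ) (x : E n) :
    divg (flat n) X x = ∑ i, pd i (fun y => X y i) x := by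
  unfold divg
  simp [flat_density]

theorem modelVol_flat (hn : 1 ≤ n) (r : ℝ) : modelVol n 0 r = omega n * r ^ n := by
  unfold modelVol
  have e : ∀ t : ℝ, sn √(-0) t = t := fun t => by simp [sn]
  simp_rw [e]
  rw [integral_pow]
  obtain ⟨m, rfl⟩ : ∃ m, n = m + 1 := ⟨n - 1, by omega⟩
  simp only [Nat.add_sub_cancel]
  have : ((m : ℝ) + 1) ≠ 0 := by positivity
  push_cast
  field_simp
  simp

theorem modelArea_flat (r : ℝ) : modelArea n 0 r = n * omega n * r ^ (n - 1) := by
  unfold modelArea
  simp [sn]

theorem sumsq_set (R : ℝ) (hR : 0 ≤ R) : {x : E n | ∑ i, x i ^ 2 < R ^ 2} = ball 0 R := by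
  rw [EuclideanSpace.ball_zero_eq R hR]

theorem vol_closedBall_E (p : E n) {R : ℝ} (hR : 0 ≤ R) :
    volume (closedBall p R) = ENNReal.ofReal (omega n * R ^ n) := by
  rw [Measure.addHaar_closedBall _ _ hR, finrank_euclideanSpace_fin]
  have e : volume (ball (0 : E n) 1) = ENNReal.ofReal (omega n) := by
    unfold omega leb
    have h := sumsq_set (n := n) 1 zero_le_one
    rw [one_pow] at h
    rw [h, ENNReal.ofReal_toReal measure_ball_lt_top.ne]
  rw [e, ← ENNReal.ofReal_mul (by positivity), mul_comm]

theorem iso_ball {D : SmoothDomain n} {r : ℝ} (hr : 0 < r)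
    (h : IsometricToBallK (flat n) 0 D r) : ∃ p : E n, D.carrier ⊆ closedBall p r := by
  obtain ⟨φ, h1, -, h3, h4⟩ := h
  have e : ∀ t : ℝ, sn √(-0) t = t := fun t => by simp [sn]
  simp only [e] at h1 h3 h4
  rw [sumsq_set r hr.le] at h1 h3
  have h4' : ∀ y ∈ ball (0 : E n) r, ∀ i j,
      ∑ k, pd i (fun z => φ z k) y * pd j (fun z => φ z k) y = if i = j then 1 else 0 := by
    intro y hy i j
    rw [← sumsq_set r hr.le] at hy
    have := h4 y hy i j
    simp only [flat, Matrix.one_apply, ite_mul, one_mul, zero_mul, Finset.sum_ite_eq,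
      Finset.mem_univ, if_true, zero_div, add_zero] at this
    exact this
  have hd : ∀ y ∈ ball (0 : E n) r, DifferentiableAt ℝ φ y := by
    intro y hy
    rw [differentiableAt_euclidean]
    intro k
    exact ((h1 k).differentiableOn (by simp)).differentiableAt (isOpen_ball.mem_nhds hy)
  have hb : ∀ y ∈ ball (0 : E n) r, ‖fderiv ℝ φ y‖ ≤ 1 := by
    intro y hy
    refine ContinuousLinearMap.opNorm_le_bound _ zero_le_one fun v => ?_
    rw [one_mul]
    have hk : ∀ k, (fderiv ℝ φ y v) k = ∑ i, v i * pd i (fun z => φ z k) y := by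
      intro k
      have hdk : DifferentiableAt ℝ (fun z => φ z k) y := (differentiableAt_euclidean.1 (hd y hy)) k
      have e1 : (fderiv ℝ φ y v) k = fderiv ℝ (fun z => φ z k) y v := by
        have := (EuclideanSpace.proj (𝕜 := ℝ) k).hasFDerivAt.comp y (hd y hy).hasFDerivAt
        have e2 := this.fderiv
        have e3 : (fun z => φ z k) = (EuclideanSpace.proj (𝕜 := ℝ) k) ∘ φ := rfl
        rw [e3, e2]
        rfl
      rw [e1]
      have hv : v = ∑ i, v i • EuclideanSpace.single i (1 : ℝ) := by
        ext l
        simp [Finset.sum_apply, Pi.single_apply]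
      conv_lhs => rw [hv]
      rw [map_sum]
      refine Finset.sum_congr rfl fun i _ => ?_
      rw [map_smul, smul_eq_mul]
      unfold pd
      rw [hdk.lineDeriv_eq_fderiv]
    have h5 : ‖fderiv ℝ φ y v‖ ^ 2 = ‖v‖ ^ 2 := by
      rw [EuclideanSpace.norm_sq_eq, EuclideanSpace.norm_sq_eq]
      simp only [Real.norm_eq_abs, sq_abs, hk]
      calc ∑ k, (∑ i, v i * pd i (fun z => φ z k) y) ^ 2
          = ∑ k, ∑ i, ∑ j, v i * v j * (pd i (fun z => φ z k) y * pd j (fun z => φ z k) y) := by
            refine Finset.sum_congr rfl fun k _ => ?_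
            rw [sq, Finset.sum_mul_sum]
            refine Finset.sum_congr rfl fun i _ => Finset.sum_congr rfl fun j _ => ?_
            ring
        _ = ∑ i, ∑ j, v i * v j * ∑ k, pd i (fun z => φ z k) y * pd j (fun z => φ z k) y := by
            rw [Finset.sum_comm]
            refine Finset.sum_congr rfl fun i _ => ?_
            rw [Finset.sum_comm]
            refine Finset.sum_congr rfl fun j _ => ?_
            rw [Finset.mul_sum]
        _ = ∑ i, v i ^ 2 := by
            refine Finset.sum_congr rfl fun i _ => ?_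
            simp only [h4' y hy]
            simp [sq]
    have h6 := sq_le_sq.1 h5.le
    rwa [abs_norm, abs_norm] at h6
  refine ⟨φ 0, ?_⟩
  rw [← h3]
  rintro _ ⟨y, hy, rfl⟩
  have h7 := (convex_ball (0 : E n) r).norm_image_sub_le_of_norm_fderiv_le hd hb
    (mem_ball_self hr) hy
  rw [mem_closedBall, dist_eq_norm]
  rw [one_mul, sub_zero] at h7
  exact h7.trans (mem_ball_zero_iff.1 hy).le

/-- **The equality case of the isoperimetric inequality in `ℝⁿ`** for measurable sets. -/
theorem flat_rigid (hn : 2 ≤ n) {S : Set (E n)} (hS : MeasurableSet S) {R : ℝ} (hR : 0 < R)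
    (hvol : volume S = ENNReal.ofReal (omega n * R ^ n))
    (hper : ∀ X : E n → Fin n → ℝ, (∀ i, ContDiff ℝ ∞ fun x => X x i) → HasCompactSupport X →
      (∀ x, ∑ i, X x i ^ 2 ≤ 1) →
      ∫ x in S, ∑ i, pd i (fun y => X y i) x ≤ n * omega n * R ^ (n - 1)) :
    ∃ p : E n, S =ᵐ[volume] closedBall p R := by
  have hω : 0 < omega n := omega_co_pos n
  obtain ⟨r, hr, hV, hP, hiff⟩ := isop_rigid hn le_rfl (flat n) flat_complete flat_secLE hS
    (by rw [flat_riemVol, hvol]; exact ENNReal.ofReal_ne_top)
  rw [flat_riemVol, hvol, modelVol_flat (by omega)] at hV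
  have hrR : r = R := by
    rw [ENNReal.ofReal_eq_ofReal_iff (by positivity) (by positivity)] at hV
    have h1 : R ^ n = r ^ n := mul_left_cancel₀ hω.ne' hV
    exact ((pow_left_inj₀ hr hR.le (by omega)).1 h1.symm)
  subst hrR
  have hle : perimeter (flat n) S ≤ ENNReal.ofReal (modelArea n 0 r) := by
    refine iSup₂_le fun X hX => ?_
    rw [modelArea_flat]
    refine ENNReal.ofReal_le_ofReal ?_
    have e : ∀ x, divg (flat n) X x * volDensity (flat n) x = ∑ i, pd i (fun y => X y i) x :=
      fun x => by rw [flat_density, mul_one, flat_divg]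
    simp_rw [e]
    refine hper X (fun i => hX.smooth i) hX.compact fun x => ?_
    have := hX.le_one x
    simp only [flat, Matrix.one_mulVec, dotProduct] at this
    simpa [sq] using this
  obtain ⟨D, hD, hI⟩ := hiff.1 (le_antisymm hle hP)
  obtain ⟨p, hp⟩ := iso_ball hR hI
  have hD : S =ᵐ[volume] D.carrier := hD
  refine ⟨p, hD.trans ?_⟩
  have hDm : MeasurableSet D.carrier :=
    (isOpen_lt D.smooth.continuous continuous_const).measurableSet
  have hDv : volume D.carrier = ENNReal.ofReal (omega n * r ^ n) := by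
    rw [← hvol]
    exact (measure_congr hD).symm
  refine ae_eq_of_subset_of_measure_ge hp ?_ hDm.nullMeasurableSet measure_closedBall_lt_top.ne
  rw [vol_closedBall_E p hR.le, hDv]

end Vale.Agent.P237.H888
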