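import Vale.Agent.P237.H888.Split

/-!
# P237: extremal functions of bounded variation are multiples of indicator functions
-/

set_option linter.unusedSectionVars false

open MeasureTheory Metric Set Module Filter Topology
open scoped ENNReal NNReal Pointwise

namespace Vale.Agent.P237.H888

variable {V : Type*} [NormedAddCommGroup V] [InnerProductSpace ℝ V] [FiniteDimensional ℝ V]
  [MeasurableSpace V] [BorelSpace V]

theorem sgn_real (a b : ℝ) :
    |max a 0 - max b 0| + |(-max (-a) 0) - (-max (-b) 0)| ≤ |a - b| := by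
  rcases le_total a 0 with ha | ha <;> rcases le_total b 0 with hb | hb
  · rw [max_eq_right ha, max_eq_right hb, max_eq_left (neg_nonneg.2 ha),
      max_eq_left (neg_nonneg.2 hb)]
    simp
  · rw [max_eq_right ha, max_eq_left hb, max_eq_left (neg_nonneg.2 ha),
      max_eq_right (neg_nonpos.2 hb), abs_of_nonpos (by linarith), abs_of_nonpos (by linarith),
      abs_of_nonpos (by linarith)]
    linarith
  · rw [max_eq_left ha, max_eq_right hb, max_eq_right (neg_nonpos.2 ha),
      max_eq_left (neg_nonneg.2 hb), abs_of_nonneg (by linarith), abs_of_nonneg (by linarith),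
      abs_of_nonneg (by linarith)]
    linarith
  · rw [max_eq_left ha, max_eq_left hb, max_eq_right (neg_nonpos.2 ha),
      max_eq_right (neg_nonpos.2 hb)]
    simp

theorem trunc_real (a b s : ℝ) :
    |min a s - min b s| + |max (a - s) 0 - max (b - s) 0| ≤ |a - b| := by
  rcases le_total a s with ha | ha <;> rcases le_total b s with hb | hb
  · rw [min_eq_left ha, min_eq_left hb, max_eq_right (by linarith), max_eq_right (by linarith)]
    simp
  · rw [min_eq_left ha, min_eq_right hb, max_eq_right (by linarith), max_eq_left (by linarith),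
      abs_of_nonpos (by linarith), abs_of_nonpos (by linarith), abs_of_nonpos (by linarith)]
    linarith
  · rw [min_eq_right ha, min_eq_left hb, max_eq_left (by linarith), max_eq_right (by linarith),
      abs_of_nonneg (by linarith), abs_of_nonneg (by linarith), abs_of_nonneg (by linarith)]
    linarith
  · rw [min_eq_right ha, min_eq_right hb, max_eq_left (by linarith), max_eq_left (by linarith)]
    have e : a - s - (b - s) = a - b := by ring
    rw [e, sub_self, abs_zero, zero_add]

theorem ae_zero_of_int {g : V → ℝ} {p : ℝ} (hp : 0 < p) (hi : Integrable fun x => |g x| ^ p)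
    (h : ∫ x, |g x| ^ p = 0) : ∀ᵐ x, g x = 0 := by
  have h1 := (integral_eq_zero_iff_of_nonneg (fun x => Real.rpow_nonneg (abs_nonneg _) _) hi).1 h
  filter_upwards [h1] with x hx
  have h2 : |g x| ^ p = 0 := hx
  rw [Real.rpow_eq_zero (abs_nonneg _) hp.ne'] at h2
  exact abs_eq_zero.1 h2

section

variable {m : ℕ} {c : ℝ} {f : V → ℝ}

/-- the sign of an extremal function is constant -/
theorem sign_split (hm : 1 ≤ m) (hd : finrank ℝ V = m + 1) (hc : 0 < c)
    (hBV : ∀ f : V → ℝ, IsBV f → (Integrable fun x => |f x| ^ (((m : ℝ) + 1) / m)) ∧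
      c * (∫ x, |f x| ^ (((m : ℝ) + 1) / m)) ^ m ≤ vol (fnProjBody f))
    (hf : IsBV f)
    (heq : vol (fnProjBody f) ≤ c * (∫ x, |f x| ^ (((m : ℝ) + 1) / m)) ^ m) :
    (∀ᵐ x, 0 ≤ f x) ∨ ∀ᵐ x, f x ≤ 0 := by
  have hmR : (0 : ℝ) < m := by exact_mod_cast hm
  set p : ℝ := ((m : ℝ) + 1) / m with hp
  have hp0 : 0 < p := by positivity
  set g : V → ℝ := fun x => max (f x) 0 with hg
  set h : V → ℝ := fun x => -max (-f x) 0 with hh
  have hgB : IsBV g := isBV_of_le hf hf.1.pos_part fun x y => by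
    have := sgn_real (f x) (f y)
    have := abs_nonneg ((-max (-f x) 0) - (-max (-f y) 0))
    show |max (f x) 0 - max (f y) 0| ≤ |f x - f y|
    linarith
  have hhB : IsBV h := isBV_of_le hf hf.1.neg.pos_part.neg fun x y => by
    have := sgn_real (f x) (f y)
    have := abs_nonneg (max (f x) 0 - max (f y) 0)
    show |(-max (-f x) 0) - (-max (-f y) 0)| ≤ |f x - f y|
    linarith
  have h1 := split_norm hd hc (I := fun q => ∫ x, |q x| ^ p)
    (fun q => integral_nonneg fun x => Real.rpow_nonneg (abs_nonneg _) _)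
    (fun q hq => (hBV q hq).2) hf hgB hhB (fun x y => sgn_real _ _) heq
  have h2 : ∫ x, |f x| ^ p = (∫ x, |g x| ^ p) + ∫ x, |h x| ^ p := by
    rw [← integral_add (hBV g hgB).1 (hBV h hhB).1]
    refine integral_congr_ae (ae_of_all _ fun x => ?_)
    show |f x| ^ p = |max (f x) 0| ^ p + |-max (-f x) 0| ^ p
    rcases le_total (f x) 0 with hx | hx
    · rw [max_eq_right hx, max_eq_left (neg_nonneg.2 hx), neg_neg, abs_zero,
        Real.zero_rpow hp0.ne', zero_add]
    · rw [max_eq_left hx, max_eq_right (neg_nonpos.2 hx), neg_zero, abs_zero,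
        Real.zero_rpow hp0.ne', add_zero]
  rw [h2] at h1
  have hθ : (m : ℝ) / (m + 1) < 1 := by
    rw [div_lt_one (by positivity)]
    linarith
  have ha0 : 0 ≤ ∫ x, |g x| ^ p := integral_nonneg fun x => Real.rpow_nonneg (abs_nonneg _) _
  have hb0 : 0 ≤ ∫ x, |h x| ^ p := integral_nonneg fun x => Real.rpow_nonneg (abs_nonneg _) _
  rcases ha0.eq_or_lt with ha | ha
  · right
    filter_upwards [ae_zero_of_int hp0 (hBV g hgB).1 ha.symm] with x hx
    have : max (f x) 0 = 0 := hx
    exact max_eq_right_iff.1 this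
  · rcases hb0.eq_or_lt with hb | hb
    · left
      filter_upwards [ae_zero_of_int hp0 (hBV h hhB).1 hb.symm] with x hx
      have h3 : -max (-f x) 0 = 0 := hx
      have h4 : max (-f x) 0 = 0 := by linarith
      have := max_eq_right_iff.1 h4
      linarith
    · exact absurd h1 (not_le.2 (strict_sub hθ ha hb))

/-- truncation of an extremal function -/
theorem trunc_split (hm : 1 ≤ m) (hd : finrank ℝ V = m + 1) (hc : 0 < c)
    (hBV : ∀ f : V → ℝ, IsBV f → (Integrable fun x => |f x| ^ (((m : ℝ) + 1) / m)) ∧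
      c * (∫ x, |f x| ^ (((m : ℝ) + 1) / m)) ^ m ≤ vol (fnProjBody f))
    (hf : IsBV f) (hfm : Measurable f) (hf0 : ∀ x, 0 ≤ f x)
    (heq : vol (fnProjBody f) ≤ c * (∫ x, |f x| ^ (((m : ℝ) + 1) / m)) ^ m) {s : ℝ} (hs : 0 < s) :
    volume {x | s < f x} = 0 ∨ volume {x | 0 < f x ∧ f x ≤ s} = 0 := by
  have hmR : (0 : ℝ) < m := by exact_mod_cast hm
  set p : ℝ := ((m : ℝ) + 1) / m with hp
  have hp0 : 0 < p := by positivity
  have hp1 : 1 < p := by
    rw [hp, lt_div_iff₀ hmR]
    linarith
  have hθ : (m : ℝ) / (m + 1) = 1 / p := by rw [hp]; field_simp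
  set g : V → ℝ := fun x => min (f x) s with hg
  set h : V → ℝ := fun x => max (f x - s) 0 with hh
  have hg0 : ∀ x, 0 ≤ g x := fun x => le_min (hf0 x) hs.le
  have hh0 : ∀ x, 0 ≤ h x := fun x => le_max_right _ _
  have hgm : Measurable g := hfm.min measurable_const
  have hhm : Measurable h := (hfm.sub_const s).max measurable_const
  have hgi : Integrable g := by
    refine Integrable.mono' hf.1 hgm.aestronglyMeasurable (ae_of_all _ fun x => ?_)
    rw [Real.norm_of_nonneg (hg0 x)]
    exact min_le_left _ _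
  have hhi : Integrable h := by
    refine Integrable.mono' hf.1 hhm.aestronglyMeasurable (ae_of_all _ fun x => ?_)
    rw [Real.norm_of_nonneg (hh0 x)]
    exact max_le (by linarith) (hf0 x)
  have hgB : IsBV g := isBV_of_le hf hgi fun x y => by
    have := trunc_real (f x) (f y) s
    have := abs_nonneg (max (f x - s) 0 - max (f y - s) 0)
    show |min (f x) s - min (f y) s| ≤ |f x - f y|
    linarith
  have hhB : IsBV h := isBV_of_le hf hhi fun x y => by
    have := trunc_real (f x) (f y) s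
    have := abs_nonneg (min (f x) s - min (f y) s)
    show |max (f x - s) 0 - max (f y - s) 0| ≤ |f x - f y|
    linarith
  have h1 := split_norm hd hc (I := fun q => ∫ x, |q x| ^ p)
    (fun q => integral_nonneg fun x => Real.rpow_nonneg (abs_nonneg _) _)
    (fun q hq => (hBV q hq).2) hf hgB hhB (fun x y => trunc_real _ _ _) heq
  simp only [hθ] at h1
  have habs : ∀ {q : V → ℝ}, (∀ x, 0 ≤ q x) → (fun x => |q x| ^ p) = fun x => q x ^ p := by
    intro q hq
    funext x
    rw [abs_of_nonneg (hq x)]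
  have hfi' := (hBV f hf).1
  have hgi' := (hBV g hgB).1
  have hhi' := (hBV h hhB).1
  rw [habs hf0] at hfi'
  rw [habs hg0] at hgi'
  rw [habs hh0] at hhi'
  rw [habs hf0, habs hg0, habs hh0] at h1
  set B : Set V := {x | s < f x} with hB
  have hBm : MeasurableSet B := measurableSet_lt measurable_const hfm
  set α := ∫ x in Bᶜ, f x ^ p with hα
  set τ := ∫ x in B, g x ^ p with hτ
  set γ := ∫ x in B, h x ^ p with hγ
  set φ := ∫ x in B, f x ^ p with hφ
  have hα0 : 0 ≤ α := integral_nonneg fun x => Real.rpow_nonneg (hf0 x) _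
  have hτ0 : 0 ≤ τ := integral_nonneg fun x => Real.rpow_nonneg (hg0 x) _
  have hγ0 : 0 ≤ γ := integral_nonneg fun x => Real.rpow_nonneg (hh0 x) _
  have hφ0 : 0 ≤ φ := integral_nonneg fun x => Real.rpow_nonneg (hf0 x) _
  have ef : ∫ x, f x ^ p = α + φ := by
    rw [← integral_add_compl hBm hfi']
    ring
  have eg : ∫ x, g x ^ p = α + τ := by
    rw [← integral_add_compl hBm hgi', add_comm]
    congr 1
    refine setIntegral_congr_fun hBm.compl fun x hx => ?_
    have hx' : f x ≤ s := not_lt.1 hx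
    show min (f x) s ^ p = f x ^ p
    rw [min_eq_left hx']
  have eh : ∫ x, h x ^ p = γ := by
    rw [← integral_add_compl hBm hhi']
    have : ∫ x in Bᶜ, h x ^ p = 0 := by
      rw [setIntegral_eq_zero_of_forall_eq_zero]
      intro x hx
      have hx' : f x ≤ s := not_lt.1 hx
      show max (f x - s) 0 ^ p = 0
      rw [max_eq_right (by linarith), Real.zero_rpow hp0.ne']
    rw [this, add_zero]
  rw [ef, eg, eh] at h1
  -- Minkowski on `B`
  have hM : φ ^ (1 / p) ≤ τ ^ (1 / p) + γ ^ (1 / p) := by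
    have k1 := ENNReal.lintegral_Lp_add_le (μ := volume.restrict B)
      (f := fun x => ENNReal.ofReal (g x)) (g := fun x => ENNReal.ofReal (h x))
      hgm.ennreal_ofReal.aemeasurable hhm.ennreal_ofReal.aemeasurable hp1.le
    have conv : ∀ q : V → ℝ, (∀ x, 0 ≤ q x) → Measurable q → (Integrable fun x => q x ^ p) →
        ∫⁻ x in B, ENNReal.ofReal (q x) ^ p = ENNReal.ofReal (∫ x in B, q x ^ p) := by
      intro q hq hqm hqi
      rw [ofReal_integral_eq_lintegral_ofReal hqi.integrableOn
        (ae_of_all _ fun x => Real.rpow_nonneg (hq x) _)]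
      refine lintegral_congr fun x => ?_
      rw [ENNReal.ofReal_rpow_of_nonneg (hq x) hp0.le]
    have k2 : ∫⁻ x in B, ((fun x => ENNReal.ofReal (g x)) + fun x => ENNReal.ofReal (h x)) x ^ p =
        ENNReal.ofReal φ := by
      rw [hφ, ← conv f hf0 hfm hfi']
      refine lintegral_congr fun x => ?_
      show (ENNReal.ofReal (g x) + ENNReal.ofReal (h x)) ^ p = ENNReal.ofReal (f x) ^ p
      rw [← ENNReal.ofReal_add (hg0 x) (hh0 x)]
      congr 2
      show min (f x) s + max (f x - s) 0 = f x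
      rcases le_total (f x) s with hx | hx
      · rw [min_eq_left hx, max_eq_right (by linarith), add_zero]
      · rw [min_eq_right hx, max_eq_left (by linarith)]
        ring
    rw [k2, conv g hg0 hgm hgi', conv h hh0 hhm hhi', ← hτ, ← hγ,
      ENNReal.ofReal_rpow_of_nonneg hφ0 (by positivity),
      ENNReal.ofReal_rpow_of_nonneg hτ0 (by positivity),
      ENNReal.ofReal_rpow_of_nonneg hγ0 (by positivity),
      ← ENNReal.ofReal_add (Real.rpow_nonneg hτ0 _) (Real.rpow_nonneg hγ0 _)] at k1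
    exact (ENNReal.ofReal_le_ofReal_iff (add_nonneg (Real.rpow_nonneg hτ0 _)
      (Real.rpow_nonneg hγ0 _))).1 k1
  have hpp : ∀ x : ℝ, 0 ≤ x → (x ^ (1 / p)) ^ p = x := by
    intro x hx
    rw [← Real.rpow_mul hx, one_div_mul_cancel hp0.ne', Real.rpow_one]
  set σ := τ ^ (1 / p) with hσd
  set β := γ ^ (1 / p) with hβd
  set u := (α + τ) ^ (1 / p) with hud
  have hσ0 : 0 ≤ σ := Real.rpow_nonneg hτ0 _
  have hβ0 : 0 ≤ β := Real.rpow_nonneg hγ0 _
  have hu0 : 0 ≤ u := Real.rpow_nonneg (by linarith) _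
  have q1 : (u + β) ^ p ≤ α + φ := by
    have := Real.rpow_le_rpow (by positivity) h1 hp0.le
    rwa [hpp _ (by linarith)] at this
  have q2 : φ ≤ (σ + β) ^ p := by
    have := Real.rpow_le_rpow (Real.rpow_nonneg hφ0 _) hM hp0.le
    rwa [hpp _ hφ0] at this
  have q3 : u ^ p = α + τ := hpp _ (by linarith)
  have q4 : σ ^ p = τ := hpp _ hτ0
  have hor : α = 0 ∨ γ = 0 := by
    by_contra hcon
    rw [not_or] at hcon
    have hαp : 0 < α := lt_of_le_of_ne hα0 (Ne.symm hcon.1)
    have hγp : 0 < γ := lt_of_le_of_ne hγ0 (Ne.symm hcon.2)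
    have hβp : 0 < β := Real.rpow_pos_of_pos hγp _
    have hσu : σ < u := Real.rpow_lt_rpow hτ0 (by linarith) (by positivity)
    have := strict_diff hp1 hσ0 hσu hβp
    linarith
  rcases hor with h0 | h0
  · right
    have k1 := (setIntegral_eq_zero_iff_of_nonneg_ae
      (ae_of_all _ fun x => Real.rpow_nonneg (hf0 x) p) hfi'.integrableOn).1 h0
    rw [Filter.EventuallyEq, ae_restrict_iff' hBm.compl] at k1
    refine measure_mono_null (fun x hx => ?_) k1
    intro hx'
    have h2 : f x ^ p = 0 := hx' (not_lt.2 hx.2)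
    rw [Real.rpow_eq_zero (hf0 x) hp0.ne'] at h2
    linarith [hx.1]
  · left
    have k1 := (setIntegral_eq_zero_iff_of_nonneg_ae
      (ae_of_all _ fun x => Real.rpow_nonneg (hh0 x) p) hhi'.integrableOn).1 h0
    rw [Filter.EventuallyEq, ae_restrict_iff' hBm] at k1
    refine measure_mono_null (fun x hx => ?_) k1
    intro hx'
    have h2 : h x ^ p = 0 := hx' hx
    rw [Real.rpow_eq_zero (hh0 x) hp0.ne'] at h2
    have h3 : max (f x - s) 0 = 0 := h2
    have h4 := max_eq_right_iff.1 h3
    have h5 : s < f x := hx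
    linarith

/-- a nonnegative function all of whose truncations are trivial is a multiple of an indicator -/
theorem ind_of_trunc (hf0 : ∀ x, 0 ≤ f x)
    (hne : ¬ ∀ᵐ x, f x = 0)
    (h : ∀ s : ℝ, 0 < s → volume {x | s < f x} = 0 ∨ volume {x | 0 < f x ∧ f x ≤ s} = 0) :
    ∃ a : ℝ, 0 < a ∧ f =ᵐ[volume] {x | 0 < f x}.indicator fun _ => a := by
  set T : Set ℝ := {s | 0 < s ∧ volume {x | s < f x} = 0} with hT
  have hTne : T.Nonempty := by
    by_contra hcon
    rw [not_nonempty_iff_eq_empty] at hcon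
    apply hne
    have h1 : ∀ k : ℕ, volume {x | 0 < f x ∧ f x ≤ (k : ℝ) + 1} = 0 := by
      intro k
      rcases h ((k : ℝ) + 1) (by positivity) with h2 | h2
      · have : (k : ℝ) + 1 ∈ T := ⟨by positivity, h2⟩
        rw [hcon] at this
        exact absurd this (notMem_empty _)
      · exact h2
    have h3 : volume (⋃ k : ℕ, {x | 0 < f x ∧ f x ≤ (k : ℝ) + 1}) = 0 := measure_iUnion_null h1
    refine measure_mono_null (fun x hx => ?_) h3
    have hx' : f x ≠ 0 := hx
    obtain ⟨k, hk⟩ := exists_nat_ge (f x)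
    exact mem_iUnion.2 ⟨k, lt_of_le_of_ne (hf0 x) (Ne.symm hx'), by linarith⟩
  have hs0 : ∃ s₀ : ℝ, 0 < s₀ ∧ volume {x | s₀ < f x} ≠ 0 := by
    by_contra hcon
    push Not at hcon
    apply hne
    have h3 : volume (⋃ k : ℕ, {x | 1 / ((k : ℝ) + 1) < f x}) = 0 :=
      measure_iUnion_null fun k => hcon _ (by positivity)
    refine measure_mono_null (fun x hx => ?_) h3
    have hx' : f x ≠ 0 := hx
    obtain ⟨k, hk⟩ := exists_nat_one_div_lt (lt_of_le_of_ne (hf0 x) (Ne.symm hx'))
    exact mem_iUnion.2 ⟨k, hk⟩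
  obtain ⟨s₀, hs₀, hs₀'⟩ := hs0
  have hlb : ∀ t ∈ T, s₀ ≤ t := by
    intro t ht
    by_contra hlt
    push Not at hlt
    exact hs₀' (measure_mono_null (fun x (hx : s₀ < f x) => lt_trans hlt hx) ht.2)
  set a := sInf T with ha
  have haT : s₀ ≤ a := le_csInf hTne hlb
  have ha0 : 0 < a := lt_of_lt_of_le hs₀ haT
  refine ⟨a, ha0, ?_⟩
  have n1 : volume (⋃ k : ℕ, {x | a + 1 / ((k : ℝ) + 1) < f x}) = 0 := by
    refine measure_iUnion_null fun k => ?_
    have hlt : sInf T < a + 1 / ((k : ℝ) + 1) := by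
      have : (0 : ℝ) < 1 / ((k : ℝ) + 1) := by positivity
      linarith
    obtain ⟨t, ht, hta⟩ := exists_lt_of_csInf_lt hTne hlt
    exact measure_mono_null (fun x (hx : a + 1 / ((k : ℝ) + 1) < f x) => lt_trans hta hx) ht.2
  have n2 : volume (⋃ k : ℕ, {x | 0 < f x ∧ f x ≤ a - a / ((k : ℝ) + 2)}) = 0 := by
    refine measure_iUnion_null fun k => ?_
    have h1 : (0 : ℝ) < a / ((k : ℝ) + 2) := by positivity
    have h2 : a / ((k : ℝ) + 2) < a := by
      rw [div_lt_iff₀ (by positivity)]
      have : (0 : ℝ) ≤ k := Nat.cast_nonneg k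
      nlinarith
    rcases h (a - a / ((k : ℝ) + 2)) (by linarith) with h3 | h3
    · have : a - a / ((k : ℝ) + 2) ∈ T := ⟨by linarith, h3⟩
      have := csInf_le ⟨s₀, hlb⟩ this
      linarith
    · exact h3
  filter_upwards [compl_mem_ae_iff.2 n1, compl_mem_ae_iff.2 n2] with x hx1 hx2
  simp only [mem_compl_iff, mem_iUnion, not_exists, mem_ofPred_eq, not_lt] at hx1 hx2
  by_cases hx : 0 < f x
  · rw [indicator_of_mem (show x ∈ {x | 0 < f x} from hx)]
    apply le_antisymm
    · refine le_of_forall_pos_le_add fun ε hε => ?_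
      obtain ⟨k, hk⟩ := exists_nat_one_div_lt hε
      have := hx1 k
      linarith
    · by_contra hlt
      push Not at hlt
      obtain ⟨k, hk⟩ := exists_nat_one_div_lt (div_pos (sub_pos.2 hlt) ha0)
      apply hx2 k
      refine ⟨hx, ?_⟩
      have h1 : a / ((k : ℝ) + 2) ≤ a * (1 / ((k : ℝ) + 1)) := by
        rw [div_eq_mul_one_div]
        gcongr
        linarith
      have h2 : a * (1 / ((k : ℝ) + 1)) < a * ((a - f x) / a) := mul_lt_mul_of_pos_left hk ha0
      rw [mul_div_cancel₀ _ ha0.ne'] at h2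
      linarith
  · rw [indicator_of_notMem (show x ∉ {x | 0 < f x} from hx)]
    exact le_antisymm (not_lt.1 hx) (hf0 x)

end

end Vale.Agent.P237.H888
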