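import Vale.Agent.P237.H888.Rig
import Vale.Agent.P237.H888.Trunc
import Vale.Agent.P237.H888.Conv

/-!
# P237: the equality case of Petty's inequality for functions of bounded variation
-/

set_option linter.unusedSectionVars false

open MeasureTheory Metric Set Module Filter Topology
open scoped ENNReal NNReal Pointwise

namespace Vale.Agent.P237.H888

section congr

variable {V : Type*} [NormedAddCommGroup V] [InnerProductSpace ℝ V] [FiniteDimensional ℝ V]
  [MeasurableSpace V] [BorelSpace V]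

theorem Om_congr {f g : V → ℝ} (h : f =ᵐ[volume] g) (a : V) :
    ∫ x, |f (x + a) - f x| = ∫ x, |g (x + a) - g x| := by
  refine integral_congr_ae ?_
  have h1 := (measurePreserving_add_right (volume : Measure V) a).quasiMeasurePreserving.ae_eq_comp h
  filter_upwards [h, h1] with x hx hx1
  have hx2 : f (x + a) = g (x + a) := hx1
  show |f (x + a) - f x| = |g (x + a) - g x|
  rw [hx, hx2]

theorem dirVar_congr {f g : V → ℝ} (h : f =ᵐ[volume] g) (v : V) : dirVar f v = dirVar g v := by
  unfold dirVar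
  simp_rw [Om_congr h]

theorem IsBV.congr {f g : V → ℝ} (hf : IsBV f) (h : f =ᵐ[volume] g) : IsBV g := by
  obtain ⟨C, hC⟩ := hf.2
  refine ⟨hf.1.congr h, C, fun v => ?_⟩
  rw [← Om_congr h]
  exact hC v

theorem fnProjBody_congr {f g : V → ℝ} (h : f =ᵐ[volume] g) : fnProjBody f = fnProjBody g := by
  unfold fnProjBody
  simp_rw [dirVar_congr h]

theorem Om_mul (a : ℝ) (f : V → ℝ) (v : V) :
    ∫ x, |a * f (x + v) - a * f x| = |a| * ∫ x, |f (x + v) - f x| := by
  rw [← integral_const_mul]
  refine integral_congr_ae (ae_of_all _ fun x => ?_)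
  show |a * f (x + v) - a * f x| = |a| * |f (x + v) - f x|
  rw [← abs_mul, mul_sub]

theorem IsBV.const_mul {f : V → ℝ} (hf : IsBV f) (a : ℝ) : IsBV fun x => a * f x := by
  obtain ⟨C, hC⟩ := hf.2
  refine ⟨hf.1.const_mul a, |a| * C, fun v => ?_⟩
  rw [Om_mul, mul_assoc]
  exact mul_le_mul_of_nonneg_left (hC v) (abs_nonneg a)

theorem dirVar_mul {f : V → ℝ} (hf : IsBV f) {a : ℝ} (ha : a ≠ 0) (v : V) :
    dirVar (fun x => a * f x) v = |a| * dirVar f v := by
  have ha' : 0 < |a| := abs_pos.2 ha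
  apply le_antisymm
  · refine dirVar_le_of fun t ht => ?_
    rw [Om_mul]
    have := mul_le_mul_of_nonneg_left (hf.le_dirVar ht v) ha'.le
    linarith [mul_left_comm |a| t (dirVar f v)]
  · have h : dirVar f v ≤ |a|⁻¹ * dirVar (fun x => a * f x) v := by
      refine dirVar_le_of fun t ht => ?_
      have h1 := (hf.const_mul a).le_dirVar ht v
      rw [Om_mul] at h1
      have h2 : ∫ x, |f (x + t • v) - f x| ≤ |a|⁻¹ * (t * dirVar (fun x => a * f x) v) := by
        rw [le_inv_mul_iff₀ ha']
        exact h1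
      linarith [mul_left_comm |a|⁻¹ t (dirVar (fun x => a * f x) v)]
    rw [le_inv_mul_iff₀ ha'] at h
    exact h

theorem fnProjBody_mul {f : V → ℝ} (hf : IsBV f) {a : ℝ} (ha : a ≠ 0) :
    fnProjBody (fun x => a * f x) = |a| • fnProjBody f := by
  have ha' : 0 < |a| := abs_pos.2 ha
  ext y
  rw [mem_smul_set_iff_inv_smul_mem₀ ha'.ne']
  constructor
  · intro hy v
    have h1 := hy v
    rw [dirVar_mul hf ha] at h1
    rw [real_inner_smul_left, inv_mul_le_iff₀ ha']
    linarith [mul_div_assoc |a| (dirVar f v) 2]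
  · intro hy v
    have h1 := hy v
    rw [real_inner_smul_left, inv_mul_le_iff₀ ha'] at h1
    rw [dirVar_mul hf ha]
    linarith [mul_div_assoc |a| (dirVar f v) 2]

/-- scaling of both sides -/
theorem scal {m : ℕ} (hm : 1 ≤ m) (hd : finrank ℝ V = m + 1) {S : Set V} (hS : MeasurableSet S)
    (hf : IsBV (S.indicator fun _ => (1 : ℝ))) {a : ℝ} (ha : a ≠ 0) {f : V → ℝ}
    (h : f =ᵐ[volume] S.indicator fun _ => a) :
    vol (fnProjBody f) = |a| ^ (m + 1) * vol (fnProjBody (S.indicator fun _ => (1 : ℝ))) ∧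
    (∫ x, |f x| ^ (((m : ℝ) + 1) / m)) ^ m = |a| ^ (m + 1) * vol S ^ m := by
  have hmR : (0 : ℝ) < m := by exact_mod_cast hm
  set p : ℝ := ((m : ℝ) + 1) / m with hp
  have hp0 : 0 < p := by positivity
  have e : (S.indicator fun _ => a) = fun x => a * S.indicator (fun _ => (1 : ℝ)) x := by
    funext x
    by_cases hx : x ∈ S <;> simp [hx]
  constructor
  · rw [fnProjBody_congr h, e, fnProjBody_mul hf ha, vol_smul_set, abs_abs, hd]
  · have h1 : ∫ x, |f x| ^ p = |a| ^ p * vol S := by
      have h2 : ∫ x, |f x| ^ p = ∫ x, S.indicator (fun _ => |a| ^ p) x := by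
        refine integral_congr_ae ?_
        filter_upwards [h] with x hx
        rw [hx]
        by_cases hxS : x ∈ S
        · simp [hxS]
        · simp [hxS, Real.zero_rpow hp0.ne']
      rw [h2, integral_indicator hS, setIntegral_const, smul_eq_mul, mul_comm]
      rfl
    rw [h1, mul_pow, ← Real.rpow_natCast (|a| ^ p), ← Real.rpow_mul (abs_nonneg a), hp,
      div_mul_cancel₀ _ hmR.ne']
    congr 1
    rw [← Real.rpow_natCast]
    push_cast
    rfl

end congr

variable {V : Type} [NormedAddCommGroup V] [InnerProductSpace ℝ V] [FiniteDimensional ℝ V]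
  [MeasurableSpace V] [BorelSpace V]

theorem ell_isBody {Q : Set V} (h : Statement.IsEllipsoid Q) : IsBody Q := by
  obtain ⟨a, T, rfl⟩ := (Statement.isEllipsoid_iff Q).1 h
  have hB : IsBody (closedBall (0 : V) 1) :=
    ⟨convex_closedBall _ _, B_compact, ⟨0, by simp [interior_closedBall]⟩⟩
  have e : (fun x => a + T x) '' closedBall (0 : V) 1 =
      (fun x => a + x) '' (T '' closedBall 0 1) := by
    rw [image_image]
  rw [e]
  exact (hB.image T).translate a

/-- **The equality case of Petty's inequality for functions of bounded variation.** -/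
theorem bv_equality {m : ℕ} (hm : 1 ≤ m) (hd : finrank ℝ V = m + 1) {c : ℝ} (hc : 0 < c)
    (hP : ∀ K : Set V, IsBody K → c * vol K ^ m ≤ vol (projBody K))
    (hPe : ∀ K : Set V, IsBody K → (vol (projBody K) = c * vol K ^ m ↔ Statement.IsEllipsoid K))
    {f : V → ℝ} (hf : IsBV f) (hne : ¬ ∀ᵐ x, f x = 0) :
    vol (fnProjBody f) = c * (∫ x, |f x| ^ (((m : ℝ) + 1) / m)) ^ m ↔
      ∃ (a : ℝ) (Q : Set V), a ≠ 0 ∧ Statement.IsEllipsoid Q ∧
        f =ᵐ[volume] Q.indicator fun _ => a := by
  have hmR : (0 : ℝ) < m := by exact_mod_cast hm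
  set p : ℝ := ((m : ℝ) + 1) / m with hp
  have hp0 : 0 < p := by positivity
  have hBV : ∀ f : V → ℝ, IsBV f → (Integrable fun x => |f x| ^ p) ∧
      c * (∫ x, |f x| ^ p) ^ m ≤ vol (fnProjBody f) := fun f hf => bv_petty hm hd hc hP hf
  constructor
  · intro heq
    -- reduction to a nonnegative measurable function
    obtain ⟨ε, hε, f', hf'm, hf'0, hff'⟩ : ∃ ε : ℝ, |ε| = 1 ∧ ∃ f' : V → ℝ, Measurable f' ∧
        (∀ x, 0 ≤ f' x) ∧ f =ᵐ[volume] fun x => ε * f' x := by
      have hmk := hf.1.1.ae_eq_mk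
      have hmkm : Measurable (hf.1.1.mk f) := hf.1.1.stronglyMeasurable_mk.measurable
      rcases sign_split hm hd hc hBV hf heq.le with h | h
      · refine ⟨1, by simp, fun x => |hf.1.1.mk f x|, hmkm.abs, fun x => abs_nonneg _, ?_⟩
        filter_upwards [h, hmk] with x hx hx1
        rw [one_mul, ← hx1, abs_of_nonneg hx]
      · refine ⟨-1, by simp, fun x => |hf.1.1.mk f x|, hmkm.abs, fun x => abs_nonneg _, ?_⟩
        filter_upwards [h, hmk] with x hx hx1
        rw [← hx1, abs_of_nonpos hx]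
        ring
    have hε0 : ε ≠ 0 := by
      rintro rfl
      simp at hε
    have hf'f : f' =ᵐ[volume] fun x => ε⁻¹ * f x := by
      filter_upwards [hff'] with x hx
      rw [hx, ← mul_assoc, inv_mul_cancel₀ hε0, one_mul]
    have hf'B : IsBV f' := (hf.const_mul ε⁻¹).congr hf'f.symm
    have hε' : |ε⁻¹| = 1 := by rw [abs_inv, hε, inv_one]
    have e1 : fnProjBody f' = fnProjBody f := by
      rw [fnProjBody_congr hf'f, fnProjBody_mul hf (inv_ne_zero hε0), hε', one_smul]
    have e2 : ∫ x, |f' x| ^ p = ∫ x, |f x| ^ p := by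
      refine integral_congr_ae ?_
      filter_upwards [hff'] with x hx
      rw [hx, abs_mul, hε, one_mul]
    have heq' : vol (fnProjBody f') ≤ c * (∫ x, |f' x| ^ p) ^ m := by
      rw [e1, e2]
      exact heq.le
    have hne' : ¬ ∀ᵐ x, f' x = 0 := by
      intro hcon
      apply hne
      filter_upwards [hff', hcon] with x hx hx1
      rw [hx, hx1, mul_zero]
    obtain ⟨a, ha, hfa⟩ := ind_of_trunc hf'0 hne' fun s hs =>
      trunc_split hm hd hc hBV hf'B hf'm hf'0 heq' hs
    set S : Set V := {x | 0 < f' x} with hS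
    have hSm : MeasurableSet S := measurableSet_lt measurable_const hf'm
    have hai : Integrable (S.indicator fun _ => a) := hf'B.1.congr hfa
    have hfin : volume S ≠ ⊤ := by
      rw [integrable_indicator_iff hSm, integrableOn_const_iff] at hai
      rcases hai with h | h
      · exact absurd (enorm_eq_zero.1 h) ha.ne'
      · exact h.ne
    have hSB : IsBV (S.indicator fun _ => (1 : ℝ)) := by
      have h1 := (hf'B.congr hfa).const_mul a⁻¹
      have e : (fun x => a⁻¹ * S.indicator (fun _ => a) x) = S.indicator fun _ => (1 : ℝ) := by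
        funext x
        by_cases hx : x ∈ S <;> simp [hx, ha.ne']
      rwa [e] at h1
    have hpos : 0 < vol S := by
      refine ENNReal.toReal_pos (fun h0 => hne' ?_) hfin
      have h1 : ∀ᵐ x, x ∉ S := measure_eq_zero_iff_ae_notMem.1 h0
      filter_upwards [h1] with x hx
      exact le_antisymm (not_lt.1 hx) (hf'0 x)
    obtain ⟨s1, s2⟩ := scal hm hd hSm hSB ha.ne' hfa
    have hle : vol (fnProjBody (S.indicator fun _ => (1 : ℝ))) ≤ c * vol S ^ m := by
      have ha' : 0 < |a| ^ (m + 1) := pow_pos (abs_pos.2 ha.ne') _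
      have h1 : |a| ^ (m + 1) * vol (fnProjBody (S.indicator fun _ => (1 : ℝ))) ≤
          |a| ^ (m + 1) * (c * vol S ^ m) := by
        rw [← s1]
        refine heq'.trans (le_of_eq ?_)
        rw [s2]
        ring
      exact le_of_mul_le_mul_left h1 ha'
    obtain ⟨K₀, hK₀, hKe, h1, hF⟩ := eq_case hm hd hc hP hSm hfin hpos hSB hle
    obtain ⟨Q, hQ, hSQ⟩ := set_rigid hm hd hSm hfin hpos hSB hK₀
      ((hPe K₀ hK₀.toIsBody).1 hKe) h1 hF
    refine ⟨ε * a, Q, mul_ne_zero hε0 ha.ne', hQ, ?_⟩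
    have h2 := indicator_ae_eq_of_ae_eq_set (f := fun _ => a) hSQ
    filter_upwards [hff', hfa, h2] with x hx hx1 hx2
    rw [hx, hx1, hx2]
    by_cases hxQ : x ∈ Q <;> simp [hxQ]
  · rintro ⟨a, Q, ha, hQ, h⟩
    have hQb := ell_isBody hQ
    obtain ⟨s1, s2⟩ := scal hm hd hQb.compact.measurableSet (indicator_isBV hQb) ha h
    rw [s1, s2, fnProjBody_indicator hQb, (hPe Q hQb).2 hQ]
    ring

end Vale.Agent.P237.H888
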