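import Vale.Agent.P237.H888.Ani

/-!
# P237: the dual functional `F(K) = ∫ h_K(w)` and its extremal bodies
-/

set_option linter.unusedSectionVars false

open MeasureTheory Metric Set Module TopologicalSpace Filter Topology
open scoped Pointwise ENNReal NNReal

namespace Vale.Agent.P237.H888

variable {V : Type*} [NormedAddCommGroup V] [InnerProductSpace ℝ V] [FiniteDimensional ℝ V]
  [MeasurableSpace V] [BorelSpace V]

/-- `∫ h_K(w(x)) dx`. -/
noncomputable def Fn (w : V → V) (K : Set V) : ℝ := ∫ x, supp K (w x)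

theorem supp_zero' {K : Set V} (nK : K.Nonempty) : supp K (0 : V) = 0 := by
  unfold supp
  have : (fun x : V => inner ℝ x (0 : V)) '' K = {0} := by
    ext z
    simp only [inner_zero_right, mem_image, mem_singleton_iff]
    constructor
    · rintro ⟨x, -, rfl⟩
      rfl
    · rintro rfl
      obtain ⟨x, hx⟩ := nK
      exact ⟨x, hx, rfl⟩
  rw [this, csSup_singleton]

theorem abs_supp_le {K : Set V} (hK : IsCompact K) (nK : K.Nonempty) {R : ℝ}
    (hR : ∀ x ∈ K, ‖x‖ ≤ R) (v : V) : |supp K v| ≤ R * ‖v‖ := by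
  rw [abs_le]
  constructor
  · have h := supp_le_add hK nK hR 0 v
    rw [supp_zero' nK, zero_sub, norm_neg] at h
    linarith
  · have h := supp_le_add hK nK hR v 0
    rw [supp_zero' nK, sub_zero] at h
    linarith

theorem supp_w_integrable {w : V → V} (hw : Integrable w) {K : Set V} (hK : IsCompact K)
    (nK : K.Nonempty) : Integrable fun x => supp K (w x) := by
  obtain ⟨R, hR0, hR⟩ := exists_norm_le hK
  refine Integrable.mono' (hw.norm.const_mul R)
    ((supp_continuous hK nK).comp_aestronglyMeasurable hw.1) (ae_of_all _ fun x => ?_)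
  rw [Real.norm_eq_abs]
  exact abs_supp_le hK nK hR _

theorem supp_add' {K L : Set V} (hK : IsCompact K) (nK : K.Nonempty) (hL : IsCompact L)
    (nL : L.Nonempty) (v : V) : supp (K + L) v = supp K v + supp L v := by
  apply le_antisymm
  · refine supp_le' (nK.add nL) ?_
    rintro _ ⟨x, hx, y, hy, rfl⟩
    rw [inner_add_left]
    exact add_le_add (le_supp hK v hx) (le_supp hL v hy)
  · obtain ⟨x, hx, hx'⟩ := exists_supp hK nK v
    obtain ⟨y, hy, hy'⟩ := exists_supp hL nL v
    rw [← hx', ← hy', ← inner_add_left]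
    exact le_supp (hK.add hL) v (add_mem_add hx hy)

theorem supp_smul_set' {K : Set V} {μ : ℝ} (hμ0 : 0 ≤ μ) (u : V) :
    supp (μ • K) u = μ * supp K u := by
  unfold supp
  have h4 : (fun x : V => inner ℝ x u) '' (μ • K) = μ • ((fun x : V => inner ℝ x u) '' K) := by
    rw [← Set.image_smul, ← Set.image_smul, image_image, image_image]
    simp only [real_inner_smul_left, smul_eq_mul]
  rw [h4, Real.sSup_smul_of_nonneg hμ0, smul_eq_mul]

theorem Fn_add {w : V → V} (hw : Integrable w) {K L : Set V} (hK : IsCompact K)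
    (nK : K.Nonempty) (hL : IsCompact L) (nL : L.Nonempty) :
    Fn w (K + L) = Fn w K + Fn w L := by
  unfold Fn
  rw [← integral_add (supp_w_integrable hw hK nK) (supp_w_integrable hw hL nL)]
  exact integral_congr_ae (ae_of_all _ fun x => supp_add' hK nK hL nL _)

theorem Fn_smul {w : V → V} {K : Set V} {t : ℝ} (ht : 0 ≤ t) :
    Fn w (t • K) = t * Fn w K := by
  unfold Fn
  rw [← integral_const_mul]
  exact integral_congr_ae (ae_of_all _ fun x => supp_smul_set' ht _)

theorem Fn_mono {w : V → V} (hw : Integrable w) {K L : Set V} (hK : IsCompact K)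
    (nK : K.Nonempty) (hL : IsCompact L) (h : K ⊆ L) : Fn w K ≤ Fn w L := by
  refine integral_mono (supp_w_integrable hw hK nK) (supp_w_integrable hw hL (nK.mono h))
    fun x => supp_le' nK fun y hy => le_supp hL _ (h hy)

/-- the symmetric segment with direction `v` -/
def sg (v : V) : Set V := segment ℝ (-v) v

theorem sg_compact (v : V) : IsCompact (sg v) := by
  unfold sg
  rw [segment_eq_image_lineMap]
  exact isCompact_Icc.image (AffineMap.lineMap_continuous)

theorem sg_nonempty (v : V) : (sg v).Nonempty := ⟨v, right_mem_segment ℝ _ _⟩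

theorem sg_convex (v : V) : Convex ℝ (sg v) := convex_segment _ _

theorem sg_symm (v : V) : ∀ x ∈ sg v, -x ∈ sg v := by
  rintro x ⟨a, b, ha, hb, hab, rfl⟩
  exact ⟨b, a, hb, ha, by rw [add_comm, hab], by module⟩

theorem supp_sg (v u : V) : supp (sg v) u = |inner ℝ v u| := by
  apply le_antisymm
  · refine supp_le' (sg_nonempty v) ?_
    rintro x ⟨a, b, ha, hb, hab, rfl⟩
    have e : inner ℝ (a • -v + b • v) u = (b - a) * inner ℝ v u := by
      rw [inner_add_left, real_inner_smul_left, real_inner_smul_left, inner_neg_left]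
      ring
    rw [e]
    refine (le_abs_self _).trans ?_
    rw [abs_mul]
    have : |b - a| ≤ 1 := by
      rw [abs_le]
      constructor <;> linarith
    calc |b - a| * |inner ℝ v u| ≤ 1 * |inner ℝ v u| :=
          mul_le_mul_of_nonneg_right this (abs_nonneg _)
      _ = _ := one_mul _
  · rw [abs_le']
    constructor
    · exact le_supp (sg_compact v) u (right_mem_segment ℝ _ _)
    · rw [← inner_neg_left]
      exact le_supp (sg_compact v) u (left_mem_segment ℝ _ _)

theorem Fn_sg (w : V → V) (v : V) : Fn w (sg v) = ∫ x, |inner ℝ v (w x)| := by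
  unfold Fn
  exact integral_congr_ae (ae_of_all _ fun x => supp_sg v _)

theorem sg_subset {K : Set V} (hc : Convex ℝ K) (hs : ∀ x ∈ K, -x ∈ K) {x : V} (hx : x ∈ K) :
    sg x ⊆ K := hc.segment_subset (hs x hx) hx

/-- support functions and the Hausdorff distance -/
theorem supp_near {K L : NonemptyCompacts V} {r : ℝ} (h : dist K L < r) (v : V) :
    supp (K : Set V) v ≤ supp (L : Set V) v + r * ‖v‖ := by
  have hfin : hausdorffEDist (K : Set V) L ≠ ⊤ :=
    hausdorffEDist_ne_top_of_nonempty_of_bounded K.nonempty L.nonempty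
      K.isCompact.isBounded L.isCompact.isBounded
  rw [NonemptyCompacts.dist_eq] at h
  refine supp_le' K.nonempty fun x hx => ?_
  obtain ⟨y, hy, hxy⟩ := exists_dist_lt_of_hausdorffDist_lt hx h hfin
  have e : inner ℝ x v = inner ℝ y v + inner ℝ (x - y) v := by
    rw [inner_sub_left]
    ring
  rw [e]
  refine add_le_add (le_supp L.isCompact v hy) ((real_inner_le_norm _ _).trans ?_)
  rw [dist_eq_norm] at hxy
  exact mul_le_mul_of_nonneg_right hxy.le (norm_nonneg _)

theorem Fn_continuous {w : V → V} (hw : Integrable w) :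
    Continuous fun K : NonemptyCompacts V => Fn w (K : Set V) := by
  have key : ∀ K L : NonemptyCompacts V,
      Fn w (K : Set V) ≤ Fn w (L : Set V) + (∫ x, ‖w x‖) * dist K L := by
    intro K L
    refine le_of_forall_pos_le_add fun δ hδ => ?_
    set W := ∫ x, ‖w x‖ with hW
    have hW0 : 0 ≤ W := integral_nonneg fun x => norm_nonneg _
    have hr : dist K L < dist K L + δ / (W + 1) := by
      have : 0 < δ / (W + 1) := by positivity
      linarith
    have h1 : Fn w (K : Set V) ≤ ∫ x, (supp (L : Set V) (w x) +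
        (dist K L + δ / (W + 1)) * ‖w x‖) := by
      refine integral_mono (supp_w_integrable hw K.isCompact K.nonempty)
        ((supp_w_integrable hw L.isCompact L.nonempty).add (hw.norm.const_mul _)) fun x => ?_
      exact supp_near hr _
    rw [integral_add (supp_w_integrable hw L.isCompact L.nonempty) (hw.norm.const_mul _),
      integral_const_mul] at h1
    have h2 : δ / (W + 1) * W ≤ δ := by
      rw [div_mul_eq_mul_div, div_le_iff₀ (by positivity)]
      nlinarith
    have h3 : Fn w (L : Set V) = ∫ x, supp (L : Set V) (w x) := rfl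
    rw [h3]
    have h4 : (dist K L + δ / (W + 1)) * W = W * dist K L + δ / (W + 1) * W := by ring
    linarith
  have hW0 : 0 ≤ ∫ x, ‖w x‖ := integral_nonneg fun x => norm_nonneg _
  refine (LipschitzWith.of_dist_le_mul (K := (∫ x, ‖w x‖).toNNReal) fun K L => ?_).continuous
  rw [Real.coe_toNNReal _ hW0, Real.dist_eq, abs_le]
  have h1 := key K L
  have h2 := key L K
  rw [dist_comm L K] at h2
  constructor <;> linarith

theorem vol_usc : UpperSemicontinuous fun K : NonemptyCompacts V => vol (K : Set V) := by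
  intro K y hy
  have hKc : IsCompact (K : Set V) := K.isCompact
  have ht := (tendsto_measure_cthickening_of_isCompact (μ := (volume : Measure V)) hKc)
  have ht2 : Tendsto (fun r => vol (cthickening r (K : Set V))) (𝓝 0) (𝓝 (vol (K : Set V))) :=
    (ENNReal.tendsto_toReal hKc.measure_lt_top.ne).comp ht
  have h1 : ∀ᶠ r in 𝓝[>] (0 : ℝ), vol (cthickening r (K : Set V)) < y :=
    (ht2.mono_left nhdsWithin_le_nhds).eventually_lt_const hy
  obtain ⟨r, hr, hr0⟩ := (h1.and self_mem_nhdsWithin).exists
  have hr0 : 0 < r := hr0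
  filter_upwards [Metric.ball_mem_nhds K hr0] with L hL
  have hL' : dist L K < r := hL
  refine lt_of_le_of_lt (vol_mono hKc.cthickening fun x hx => ?_) hr
  have hfin : hausdorffEDist (L : Set V) K ≠ ⊤ :=
    hausdorffEDist_ne_top_of_nonempty_of_bounded L.nonempty K.nonempty
      L.isCompact.isBounded K.isCompact.isBounded
  rw [NonemptyCompacts.dist_eq] at hL'
  obtain ⟨z, hz, hxz⟩ := exists_dist_lt_of_hausdorffDist_lt hx hL' hfin
  exact mem_cthickening_of_dist_le x z r _ hz hxz.le

/-- the class of admissible bodies -/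
def cls (w : V → V) (c : ℝ) : Set (NonemptyCompacts V) :=
  {K | Convex ℝ (K : Set V) ∧ (∀ x ∈ (K : Set V), -x ∈ (K : Set V)) ∧ Fn w (K : Set V) ≤ c}

theorem near {K L : NonemptyCompacts V} {ε : ℝ} (h : dist K L < ε) {x : V}
    (hx : x ∈ (K : Set V)) : ∃ y ∈ (L : Set V), dist x y < ε := by
  have hfin : hausdorffEDist (K : Set V) L ≠ ⊤ :=
    hausdorffEDist_ne_top_of_nonempty_of_bounded K.nonempty L.nonempty
      K.isCompact.isBounded L.isCompact.isBounded
  rw [NonemptyCompacts.dist_eq] at h
  exact exists_dist_lt_of_hausdorffDist_lt hx h hfin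

theorem mem_of_forall (K : NonemptyCompacts V) (x : V)
    (h : ∀ ε > 0, ∃ y ∈ (K : Set V), dist x y < ε) : x ∈ (K : Set V) := by
  have : x ∈ closure (K : Set V) := Metric.mem_closure_iff.2 h
  rwa [K.isCompact.isClosed.closure_eq] at this

theorem cls_isCompact {w : V → V} (hw : Integrable w) {c₀ : ℝ} (hc₀ : 0 < c₀)
    (hnd : ∀ v : V, c₀ * ‖v‖ ≤ ∫ x, |inner ℝ v (w x)|) (c : ℝ) : IsCompact (cls w c) := by
  have hc : IsCompact {K : NonemptyCompacts V | (K : Set V) ⊆ closedBall (0 : V) (c / c₀)} :=
    NonemptyCompacts.isCompact_subsets_of_isCompact (isCompact_closedBall 0 _)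
  refine hc.of_isClosed_subset ?_ ?_
  · refine isClosed_of_closure_subset fun K hK => ?_
    have hK3 : Fn w (K : Set V) ≤ c := by
      have hcl : IsClosed {K : NonemptyCompacts V | Fn w (K : Set V) ≤ c} :=
        isClosed_le (Fn_continuous hw) continuous_const
      exact hcl.closure_subset_iff.2 (fun L hL => hL.2.2) hK
    rw [Metric.mem_closure_iff] at hK
    refine ⟨?_, ?_, hK3⟩
    · intro x hx y hy a b ha hb hab
      refine mem_of_forall K _ fun ε hε => ?_
      obtain ⟨L, hL, hKL⟩ := hK (ε / 3) (by positivity)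
      obtain ⟨x', hx', hxx⟩ := near hKL hx
      obtain ⟨y', hy', hyy⟩ := near hKL hy
      obtain ⟨z, hz, hzz⟩ := near (by rwa [dist_comm]) (hL.1 hx' hy' ha hb hab)
      refine ⟨z, hz, ?_⟩
      have h1 : dist (a • x + b • y) (a • x' + b • y') ≤ ε / 3 + ε / 3 := by
        refine (dist_add_add_le _ _ _ _).trans (add_le_add ?_ ?_)
        · rw [dist_smul₀, Real.norm_of_nonneg ha]
          have : a * dist x x' ≤ 1 * dist x x' := by
            gcongr
            linarith
          linarith
        · rw [dist_smul₀, Real.norm_of_nonneg hb]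
          have : b * dist y y' ≤ 1 * dist y y' := by
            gcongr
            linarith
          linarith
      have := dist_triangle (a • x + b • y) (a • x' + b • y') z
      linarith
    · intro x hx
      refine mem_of_forall K _ fun ε hε => ?_
      obtain ⟨L, hL, hKL⟩ := hK (ε / 2) (by positivity)
      obtain ⟨x', hx', hxx⟩ := near hKL hx
      obtain ⟨z, hz, hzz⟩ := near (by rwa [dist_comm]) (hL.2.1 x' hx')
      refine ⟨z, hz, ?_⟩
      have := dist_triangle (-x) (-x') z
      rw [dist_neg_neg] at this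
      linarith
  · intro K hK x hx
    rw [mem_closedBall_zero_iff, le_div_iff₀ hc₀, mul_comm]
    have h1 := Fn_mono hw (sg_compact x) (sg_nonempty x) K.isCompact (sg_subset hK.1 hK.2.1 hx)
    rw [Fn_sg] at h1
    exact (hnd x).trans (h1.trans hK.2.2)

/-- Existence of the extremal body. -/
theorem exists_max {w : V → V} (hw : Integrable w) {c₀ : ℝ} (hc₀ : 0 < c₀)
    (hnd : ∀ v : V, c₀ * ‖v‖ ≤ ∫ x, |inner ℝ v (w x)|) {c : ℝ} (hc : 0 < c) :
    ∃ K₀ : Set V, IsSymBody K₀ ∧ Fn w K₀ ≤ c ∧
      ∀ K : Set V, IsCompact K → Convex ℝ K → (∀ x ∈ K, -x ∈ K) → K.Nonempty →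
        Fn w K ≤ c → vol K ≤ vol K₀ := by
  set W := ∫ x, ‖w x‖ with hW
  have hW0 : 0 ≤ W := integral_nonneg fun x => norm_nonneg _
  set r : ℝ := c / (W + 1) with hr
  have hr0 : 0 < r := by positivity
  have hball : Fn w (closedBall (0 : V) r) ≤ c := by
    have hne : (closedBall (0 : V) r).Nonempty := ⟨0, by simp [hr0.le]⟩
    have h1 : Fn w (closedBall (0 : V) r) ≤ ∫ x, r * ‖w x‖ := by
      refine integral_mono (supp_w_integrable hw (isCompact_closedBall _ _) hne)
        (hw.norm.const_mul _) fun x => ?_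
      exact (le_abs_self _).trans (abs_supp_le (isCompact_closedBall _ _) hne
        (fun y hy => mem_closedBall_zero_iff.1 hy) _)
    rw [integral_const_mul] at h1
    refine h1.trans ?_
    rw [← hW, hr, div_mul_eq_mul_div, div_le_iff₀ (by positivity)]
    nlinarith
  set B : NonemptyCompacts V := ⟨⟨closedBall (0 : V) r, isCompact_closedBall 0 r⟩,
    ⟨0, by simp [hr0.le]⟩⟩ with hB
  have hBmem : B ∈ cls w c := by
    refine ⟨convex_closedBall 0 r, ?_, hball⟩
    intro x hx
    have hx' : x ∈ closedBall (0 : V) r := hx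
    change -x ∈ closedBall (0 : V) r
    rw [mem_closedBall_zero_iff] at hx' ⊢
    rwa [norm_neg]
  obtain ⟨K₀, hK₀, hmax⟩ := (vol_usc.upperSemicontinuousOn (cls w c)).exists_isMaxOn
    ⟨B, hBmem⟩ (cls_isCompact hw hc₀ hnd c)
  have hmax' : ∀ K : Set V, IsCompact K → Convex ℝ K → (∀ x ∈ K, -x ∈ K) → K.Nonempty →
        Fn w K ≤ c → vol K ≤ vol (K₀ : Set V) := by
    intro K h1 h2 h3 h4 h5
    exact hmax (a := ⟨⟨K, h1⟩, h4⟩) ⟨h2, h3, h5⟩
  refine ⟨K₀, ⟨⟨hK₀.1, K₀.isCompact, ?_⟩, hK₀.2.1⟩, hK₀.2.2, hmax'⟩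
  by_contra hi
  have h0 : vol (K₀ : Set V) = 0 := by
    unfold vol
    have h1 : volume (frontier (K₀ : Set V)) = 0 := hK₀.1.addHaar_frontier volume
    have h2 : (K₀ : Set V) ⊆ frontier (K₀ : Set V) := by
      rw [not_nonempty_iff_eq_empty] at hi
      rw [frontier, hi, K₀.isCompact.isClosed.closure_eq, sdiff_empty]
    rw [measure_mono_null h2 h1, ENNReal.toReal_zero]
  have h1 : vol (closedBall (0 : V) r) ≤ vol (K₀ : Set V) :=
    hmax (a := B) hBmem
  have h2 : 0 < vol (closedBall (0 : V) r) := by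
    refine ENNReal.toReal_pos (measure_closedBall_pos volume 0 hr0).ne' measure_closedBall_lt_top.ne
  linarith

end Vale.Agent.P237.H888
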