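import Vale.Agent.P237.H888.BV

/-!
# P237: Petty's inequality for functions of bounded variation, the approximation argument
-/

set_option linter.unusedSectionVars false

open MeasureTheory Metric Set Module TopologicalSpace Filter Topology ContinuousLinearMap
open scoped Pointwise ENNReal NNReal Convolution

namespace Vale.Agent.P237.H888

variable {V : Type*} [NormedAddCommGroup V] [InnerProductSpace ℝ V] [FiniteDimensional ℝ V]
  [MeasurableSpace V] [BorelSpace V]

/-- The limit argument. -/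
theorem limit_lemma {m : ℕ} (hm : 1 ≤ m) {c p : ℝ} (hc : 0 < c) (hp : 0 < p) {f : V → ℝ}
    {F : ℕ → V → ℝ} (hf0 : ∀ x, 0 ≤ f x) (hF0 : ∀ j x, 0 ≤ F j x)
    (hfm : AEStronglyMeasurable f) (hFm : ∀ j, AEStronglyMeasurable (F j))
    (hlim : ∀ᵐ x, Tendsto (fun j => F j x) atTop (𝓝 (f x))) {h : V → ℝ} {C : ℝ}
    (hC : ∀ v, h v ≤ C * ‖v‖) {η : ℕ → ℝ} (hη0 : ∀ j, 0 ≤ η j) (hη : Antitone η)
    (hηlim : Tendsto η atTop (𝓝 0)) (hint : ∀ j, Integrable fun x => F j x ^ p)
    (hineq : ∀ j, c * (∫ x, F j x ^ p) ^ m ≤ vol (wulff fun v : V => h v + η j * ‖v‖)) :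
    (Integrable fun x => f x ^ p) ∧ c * (∫ x, f x ^ p) ^ m ≤ vol (wulff h) := by
  have hmR : (0 : ℝ) < m := by exact_mod_cast hm
  set s : ℕ → Set V := fun j => wulff fun v : V => h v + η j * ‖v‖ with hs
  have hsc : ∀ j, IsCompact (s j) := fun j =>
    wulff_compact (C := C + η j) fun v => by
      have := hC v
      show h v + η j * ‖v‖ ≤ (C + η j) * ‖v‖
      rw [add_mul]
      linarith
  have hanti : Antitone s := by
    intro i j hij y hy v
    have h1 := hy v
    have h2 : η j * ‖v‖ ≤ η i * ‖v‖ := mul_le_mul_of_nonneg_right (hη hij) (norm_nonneg v)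
    have h3 : inner ℝ y v ≤ h v + η j * ‖v‖ := h1
    show inner ℝ y v ≤ h v + η i * ‖v‖
    linarith
  have hInter : ⋂ j, s j = wulff h := by
    ext y
    simp only [mem_iInter]
    constructor
    · intro hy v
      have h1 : Tendsto (fun j => h v + η j * ‖v‖) atTop (𝓝 (h v + 0 * ‖v‖)) :=
        tendsto_const_nhds.add (hηlim.mul_const _)
      rw [zero_mul, add_zero] at h1
      exact ge_of_tendsto h1 (Eventually.of_forall fun j => hy j v)
    · intro hy j v
      have h1 := hy v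
      have h2 : 0 ≤ η j * ‖v‖ := mul_nonneg (hη0 j) (norm_nonneg v)
      show inner ℝ y v ≤ h v + η j * ‖v‖
      linarith
  have hwc : IsCompact (wulff h) := wulff_compact hC
  have hvol : Tendsto (fun j => vol (s j)) atTop (𝓝 (vol (wulff h))) := by
    have h1 := tendsto_measure_iInter_atTop (μ := (volume : Measure V))
      (fun j => (hsc j).measurableSet.nullMeasurableSet) hanti ⟨0, (hsc 0).measure_lt_top.ne⟩
    rw [hInter] at h1
    exact (ENNReal.tendsto_toReal hwc.measure_lt_top.ne).comp h1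
  -- the bound for the integrals
  have hS0 : ∀ j, 0 ≤ ∫ x, F j x ^ p := fun j =>
    integral_nonneg fun x => Real.rpow_nonneg (hF0 j x) _
  have hb : ∀ j, ∫ x, F j x ^ p ≤ (vol (s j) / c) ^ ((1 : ℝ) / m) := by
    intro j
    have h1 : (∫ x, F j x ^ p) ^ m ≤ vol (s j) / c := by
      rw [le_div_iff₀ hc, mul_comm]
      exact hineq j
    have h2 := Real.rpow_le_rpow (pow_nonneg (hS0 j) m) h1 (by positivity : (0 : ℝ) ≤ 1 / m)
    rwa [← Real.rpow_natCast, ← Real.rpow_mul (hS0 j), mul_one_div_cancel hmR.ne',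
      Real.rpow_one] at h2
  have hBlim : Tendsto (fun j => ENNReal.ofReal ((vol (s j) / c) ^ ((1 : ℝ) / m))) atTop
      (𝓝 (ENNReal.ofReal ((vol (wulff h) / c) ^ ((1 : ℝ) / m)))) := by
    refine ENNReal.tendsto_ofReal ?_
    exact (hvol.div_const c).rpow_const (Or.inr (by positivity))
  have hfp0 : ∀ x, 0 ≤ f x ^ p := fun x => Real.rpow_nonneg (hf0 x) _
  have hfpm : AEStronglyMeasurable (fun x => f x ^ p) :=
    (hfm.aemeasurable.pow_const p).aestronglyMeasurable
  have hkey : ∫⁻ x, ENNReal.ofReal (f x ^ p) ≤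
      ENNReal.ofReal ((vol (wulff h) / c) ^ ((1 : ℝ) / m)) := by
    have e1 : ∫⁻ x, ENNReal.ofReal (f x ^ p) =
        ∫⁻ x, liminf (fun j => ENNReal.ofReal (F j x ^ p)) atTop := by
      refine lintegral_congr_ae ?_
      filter_upwards [hlim] with x hx
      exact ((ENNReal.tendsto_ofReal (hx.rpow_const (Or.inr hp.le))).liminf_eq).symm
    rw [e1]
    refine (lintegral_liminf_le' (u := atTop) fun j =>
      ((hFm j).aemeasurable.pow_const p).ennreal_ofReal).trans ?_
    have h3 : ∀ j, ∫⁻ x, ENNReal.ofReal (F j x ^ p) ≤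
        ENNReal.ofReal ((vol (s j) / c) ^ ((1 : ℝ) / m)) := by
      intro j
      rw [← ofReal_integral_eq_lintegral_ofReal (hint j)
        (Eventually.of_forall fun x => Real.rpow_nonneg (hF0 j x) _)]
      exact ENNReal.ofReal_le_ofReal (hb j)
    calc liminf (fun j => ∫⁻ x, ENNReal.ofReal (F j x ^ p)) atTop
        ≤ liminf (fun j => ENNReal.ofReal ((vol (s j) / c) ^ ((1 : ℝ) / m))) atTop :=
          liminf_le_liminf (Eventually.of_forall h3)
      _ = _ := hBlim.liminf_eq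
  have hfi : Integrable fun x => f x ^ p := by
    refine ⟨hfpm, ?_⟩
    rw [hasFiniteIntegral_iff_ofReal (Eventually.of_forall hfp0)]
    exact hkey.trans_lt ENNReal.ofReal_lt_top
  refine ⟨hfi, ?_⟩
  have hA0 : 0 ≤ vol (wulff h) / c := div_nonneg (vol_nonneg _) hc.le
  have h4 : ∫ x, f x ^ p ≤ (vol (wulff h) / c) ^ ((1 : ℝ) / m) := by
    rw [← ofReal_integral_eq_lintegral_ofReal hfi (Eventually.of_forall hfp0)] at hkey
    exact (ENNReal.ofReal_le_ofReal_iff (Real.rpow_nonneg hA0 _)).1 hkey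
  have h5 := pow_le_pow_left₀ (integral_nonneg hfp0) h4 m
  have e2 : ((vol (wulff h) / c) ^ ((1 : ℝ) / m)) ^ m = vol (wulff h) / c := by
    rw [← Real.rpow_natCast, ← Real.rpow_mul hA0, one_div_mul_cancel hmR.ne', Real.rpow_one]
  rw [e2, le_div_iff₀ hc, mul_comm] at h5
  exact h5

/-- step 1: functions of compact support -/
theorem bv_compact {m : ℕ} (hm : 1 ≤ m) (hd : finrank ℝ V = m + 1) {c : ℝ} (hc : 0 < c)
    (hP : ∀ K : Set V, IsBody K → c * vol K ^ m ≤ vol (projBody K)) {f : V → ℝ}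
    (hf : IsBV f) (hfs : HasCompactSupport f) (hf0 : ∀ x, 0 ≤ f x) :
    (Integrable fun x => f x ^ (((m : ℝ) + 1) / m)) ∧
      c * (∫ x, f x ^ (((m : ℝ) + 1) / m)) ^ m ≤ vol (wulff fun v : V => dirVar f v / 2) := by
  have hmR : (0 : ℝ) < m := by exact_mod_cast hm
  set φ : ℕ → ContDiffBump (0 : V) := fun j =>
    ⟨1 / ((j : ℝ) + 1) / 2, 1 / ((j : ℝ) + 1), by positivity, by
      have : (0 : ℝ) < 1 / ((j : ℝ) + 1) := by positivity
      linarith⟩ with hφ
  have hφlim : Tendsto (fun j => (φ j).rOut) atTop (𝓝 0) :=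
    tendsto_one_div_add_atTop_nhds_zero_nat (𝕜 := ℝ)
  have hlim : ∀ᵐ x, Tendsto (fun j => moll (φ j) f x) atTop (𝓝 (f x)) := by
    refine ContDiffBump.ae_convolution_tendsto_right_of_locallyIntegrable (K := 2) hφlim
      (Eventually.of_forall fun j => ?_) hf.1.locallyIntegrable
    show 1 / ((j : ℝ) + 1) ≤ 2 * (1 / ((j : ℝ) + 1) / 2)
    linarith
  obtain ⟨C, hC⟩ := hf.dirVar_le
  have hcs : ∀ j, HasCompactSupport (moll (φ j) f) := fun j =>
    (φ j).hasCompactSupport_normed.convolution (lsmul ℝ ℝ) hfs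
  have hcd : ∀ j, ContDiff ℝ 1 (moll (φ j) f) := fun j => moll_contDiff (φ j) hf.1
  have hm0 : ∀ j x, 0 ≤ moll (φ j) f x := fun j x => moll_nonneg (φ j) hf0 x
  refine limit_lemma hm hc (p := ((m : ℝ) + 1) / m) (by positivity)
    (F := fun j => moll (φ j) f) (η := fun _ => 0) (C := C / 2) hf0 hm0
    hf.1.1 (fun j => (moll_integrable (φ j) hf.1).1) hlim (fun v => by linarith [hC v])
    (fun _ => le_rfl) antitone_const tendsto_const_nhds ?_ ?_
  · intro j
    refine Continuous.integrable_of_hasCompactSupport ?_ ?_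
    · exact (hcd j).continuous.rpow_const fun x => Or.inr (by positivity)
    · refine HasCompactSupport.intro (hcs j).isCompact fun x hx => ?_
      show moll (φ j) f x ^ (((m : ℝ) + 1) / m) = 0
      rw [image_eq_zero_of_notMem_tsupport hx, Real.zero_rpow (by positivity)]
  · intro j
    refine (smooth_case hm hd hc.le hP (hcd j) (hcs j) (hm0 j)).trans ?_
    refine vol_mono (wulff_compact (C := C / 2) fun v => ?_) ?_
    · have := hC v
      linarith
    · intro y hy v
      have h1 : inner ℝ y v ≤ (∫ x, |inner ℝ v (gr (moll (φ j) f) x)|) / 2 := hy v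
      have h2 := grad_le (hcd j) (v := v) (D := dirVar f v) (moll_integrable (φ j) hf.1)
        fun t ht => (moll_diff_le (φ j) hf.1 (t • v)).trans (hf.le_dirVar ht v)
      show inner ℝ y v ≤ dirVar f v / 2 + 0 * ‖v‖
      linarith

/-- the cutoff functions -/
noncomputable def cut (j : ℕ) (x : V) : ℝ := max 0 (min 1 (2 - ‖x‖ / ((j : ℝ) + 1)))

theorem cut_nonneg (j : ℕ) (x : V) : 0 ≤ cut j x := le_max_left _ _

theorem cut_le_one (j : ℕ) (x : V) : cut j x ≤ 1 := max_le zero_le_one (min_le_left _ _)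

theorem cut_continuous (j : ℕ) : Continuous (cut j : V → ℝ) :=
  continuous_const.max (continuous_const.min (continuous_const.sub
    (continuous_norm.div_const _)))

theorem cut_eq_one {j : ℕ} {x : V} (hx : ‖x‖ ≤ (j : ℝ) + 1) : cut j x = 1 := by
  have h1 : ‖x‖ / ((j : ℝ) + 1) ≤ 1 := by
    rw [div_le_one (by positivity)]
    exact hx
  unfold cut
  rw [min_eq_left (by linarith), max_eq_right zero_le_one]

theorem cut_eq_zero {j : ℕ} {x : V} (hx : 2 * ((j : ℝ) + 1) ≤ ‖x‖) : cut j x = 0 := by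
  have h1 : 2 ≤ ‖x‖ / ((j : ℝ) + 1) := by
    rw [le_div_iff₀ (by positivity)]
    exact hx
  unfold cut
  rw [max_eq_left]
  exact (min_le_right _ _).trans (by linarith)

theorem cut_lip (j : ℕ) (x v : V) : |cut j (x + v) - cut j x| ≤ ‖v‖ / ((j : ℝ) + 1) := by
  unfold cut
  refine (abs_max_sub_max_le_max 0 _ 0 _).trans ?_
  rw [sub_self, abs_zero]
  refine max_le (by positivity) ?_
  refine (abs_min_sub_min_le_max 1 _ 1 _).trans ?_
  rw [sub_self, abs_zero]
  refine max_le (by positivity) ?_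
  have e : 2 - ‖x + v‖ / ((j : ℝ) + 1) - (2 - ‖x‖ / ((j : ℝ) + 1)) =
      (‖x‖ - ‖x + v‖) / ((j : ℝ) + 1) := by ring
  rw [e, abs_div, abs_of_pos (by positivity : (0 : ℝ) < (j : ℝ) + 1)]
  gcongr
  have h := abs_norm_sub_norm_le x (x + v)
  simpa using h

theorem cut_integrable (j : ℕ) {f : V → ℝ} (hf : Integrable f) :
    Integrable fun x => cut j x * f x := by
  refine Integrable.mono' hf.norm ((cut_continuous j).aestronglyMeasurable.mul hf.1)
    (ae_of_all _ fun x => ?_)
  rw [norm_mul, Real.norm_of_nonneg (cut_nonneg j x)]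
  exact mul_le_of_le_one_left (norm_nonneg _) (cut_le_one j x)

theorem cut_diff_le (j : ℕ) {f : V → ℝ} (hf : Integrable f) (v : V) :
    ∫ x, |cut j (x + v) * f (x + v) - cut j x * f x| ≤
      (∫ x, |f (x + v) - f x|) + ‖v‖ / ((j : ℝ) + 1) * ∫ x, |f x| := by
  rw [← integral_const_mul, ← integral_add (diff_integrable hf v) (hf.abs.const_mul _)]
  refine integral_mono (diff_integrable (cut_integrable j hf) v)
    ((diff_integrable hf v).add (hf.abs.const_mul _)) fun x => ?_
  show |cut j (x + v) * f (x + v) - cut j x * f x| ≤ |f (x + v) - f x| +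
    ‖v‖ / ((j : ℝ) + 1) * |f x|
  have e : cut j (x + v) * f (x + v) - cut j x * f x =
      cut j (x + v) * (f (x + v) - f x) + (cut j (x + v) - cut j x) * f x := by ring
  rw [e]
  refine (abs_add_le _ _).trans (add_le_add ?_ ?_)
  · rw [abs_mul, abs_of_nonneg (cut_nonneg j _)]
    exact mul_le_of_le_one_left (abs_nonneg _) (cut_le_one j _)
  · rw [abs_mul]
    exact mul_le_mul_of_nonneg_right (cut_lip j x v) (abs_nonneg _)

theorem cut_isBV (j : ℕ) {f : V → ℝ} (hf : IsBV f) : IsBV fun x => cut j x * f x := by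
  obtain ⟨C, hC⟩ := hf.2
  refine ⟨cut_integrable j hf.1, C + (∫ x, |f x|) / ((j : ℝ) + 1), fun v => ?_⟩
  refine (cut_diff_le j hf.1 v).trans ?_
  have h1 := hC v
  have e : (C + (∫ x, |f x|) / ((j : ℝ) + 1)) * ‖v‖ =
      C * ‖v‖ + ‖v‖ / ((j : ℝ) + 1) * ∫ x, |f x| := by ring
  rw [e]
  linarith

/-- step 2: nonnegative functions -/
theorem bv_nonneg {m : ℕ} (hm : 1 ≤ m) (hd : finrank ℝ V = m + 1) {c : ℝ} (hc : 0 < c)
    (hP : ∀ K : Set V, IsBody K → c * vol K ^ m ≤ vol (projBody K)) {f : V → ℝ}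
    (hf : IsBV f) (hf0 : ∀ x, 0 ≤ f x) :
    (Integrable fun x => f x ^ (((m : ℝ) + 1) / m)) ∧
      c * (∫ x, f x ^ (((m : ℝ) + 1) / m)) ^ m ≤ vol (wulff fun v : V => dirVar f v / 2) := by
  obtain ⟨C, hC⟩ := hf.dirVar_le
  have hcs : ∀ j : ℕ, HasCompactSupport fun x : V => cut j x * f x := by
    intro j
    refine HasCompactSupport.intro (isCompact_closedBall (0 : V) (2 * ((j : ℝ) + 1)))
      fun x hx => ?_
    rw [mem_closedBall_zero_iff, not_le] at hx
    rw [cut_eq_zero hx.le, zero_mul]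
  have hstep := fun j : ℕ => bv_compact hm hd hc hP (cut_isBV j hf) (hcs j)
    (fun x => mul_nonneg (cut_nonneg j x) (hf0 x))
  set N := ∫ x, |f x| with hN
  have hN0 : 0 ≤ N := integral_nonneg fun x => abs_nonneg _
  have hdv : ∀ (j : ℕ) (v : V), dirVar (fun x => cut j x * f x) v ≤
      dirVar f v + ‖v‖ / ((j : ℝ) + 1) * N := by
    intro j v
    refine dirVar_le_of fun t ht => (cut_diff_le j hf.1 (t • v)).trans ?_
    have h1 := hf.le_dirVar ht v
    rw [norm_smul, Real.norm_of_nonneg ht.le]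
    have e : t * (dirVar f v + ‖v‖ / ((j : ℝ) + 1) * N) =
      t * dirVar f v + t * ‖v‖ / ((j : ℝ) + 1) * N := by ring
    rw [e]
    linarith
  refine limit_lemma hm hc (p := ((m : ℝ) + 1) / m) (by positivity)
    (F := fun j x => cut j x * f x) (η := fun j => N / 2 * (1 / ((j : ℝ) + 1))) (C := C / 2) hf0
    (fun j x => mul_nonneg (cut_nonneg j x) (hf0 x))
    hf.1.1 (fun j => (cut_integrable j hf.1).1) ?_ (fun v => by linarith [hC v])
    (fun _ => by positivity) ?_ ?_ (fun j => (hstep j).1) ?_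
  · refine ae_of_all _ fun x => ?_
    refine tendsto_const_nhds.congr' ?_
    obtain ⟨J, hJ⟩ := exists_nat_ge ‖x‖
    filter_upwards [eventually_ge_atTop J] with j hj
    have : (J : ℝ) ≤ j := by exact_mod_cast hj
    rw [cut_eq_one (by linarith), one_mul]
  · intro i j hij
    have : (i : ℝ) ≤ j := by exact_mod_cast hij
    show N / 2 * (1 / ((j : ℝ) + 1)) ≤ N / 2 * (1 / ((i : ℝ) + 1))
    gcongr
  · have h1 := (tendsto_one_div_add_atTop_nhds_zero_nat (𝕜 := ℝ)).const_mul (N / 2)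
    rwa [mul_zero] at h1
  · intro j
    refine (hstep j).2.trans (vol_mono (wulff_compact (C := C / 2 + N / 2 * (1 / ((j : ℝ) + 1)))
      fun v => ?_) ?_)
    · have := hC v
      show dirVar f v / 2 + N / 2 * (1 / ((j : ℝ) + 1)) * ‖v‖ ≤
        (C / 2 + N / 2 * (1 / ((j : ℝ) + 1))) * ‖v‖
      rw [add_mul]
      linarith
    · intro y hy v
      have h1 : inner ℝ y v ≤ dirVar (fun x => cut j x * f x) v / 2 := hy v
      have h2 := hdv j v
      show inner ℝ y v ≤ dirVar f v / 2 + N / 2 * (1 / ((j : ℝ) + 1)) * ‖v‖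
      have e : N / 2 * (1 / ((j : ℝ) + 1)) * ‖v‖ = ‖v‖ / ((j : ℝ) + 1) * N / 2 := by ring
      rw [e]
      linarith

/-- **Petty's inequality for functions of bounded variation.** -/
theorem bv_petty {m : ℕ} (hm : 1 ≤ m) (hd : finrank ℝ V = m + 1) {c : ℝ} (hc : 0 < c)
    (hP : ∀ K : Set V, IsBody K → c * vol K ^ m ≤ vol (projBody K)) {f : V → ℝ}
    (hf : IsBV f) :
    (Integrable fun x => |f x| ^ (((m : ℝ) + 1) / m)) ∧
      c * (∫ x, |f x| ^ (((m : ℝ) + 1) / m)) ^ m ≤ vol (fnProjBody f) := by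
  obtain ⟨h1, h2⟩ := bv_nonneg hm hd hc hP hf.abs fun x => abs_nonneg _
  refine ⟨h1, h2.trans ?_⟩
  obtain ⟨C, hC⟩ := hf.dirVar_le
  refine vol_mono (wulff_compact (h := fun v => dirVar f v / 2) (C := C / 2)
    fun v => by linarith [hC v]) ?_
  intro y hy v
  have h3 : inner ℝ y v ≤ dirVar (fun x => |f x|) v / 2 := hy v
  have h4 := hf.dirVar_abs_le v
  linarith

end Vale.Agent.P237.H888
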