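import Mathlib

/-!
# P237: an inequality for the distribution function
-/

open MeasureTheory Set
open scoped ENNReal NNReal

namespace Vale.Agent.P237.H888

variable {α : Type*} [MeasurableSpace α] {μ : Measure α} [SFinite μ]

/-- `‖g‖_p ≤ ∫ μ{g ≥ t}^{1/p} dt`, before division. -/
theorem maz {p q : ℝ} (hpq : p.HolderConjugate q) {g : α → ℝ} (hg : Measurable g)
    (h0 : ∀ x, 0 ≤ g x) :
    ∫⁻ x, ENNReal.ofReal (g x) ^ p ∂μ ≤
      (∫⁻ t in Ioi (0 : ℝ), μ {x | t ≤ g x} ^ (1 / p)) *
        (∫⁻ x, ENNReal.ofReal (g x) ^ p ∂μ) ^ (1 / q) := by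
  have hp1 : 1 < p := hpq.lt
  have hp0 : 0 < p := by linarith
  have hq0 : 0 < q := hpq.symm.pos
  have hG : Measurable fun x => ENNReal.ofReal (g x) := hg.ennreal_ofReal
  have hq1 : (p - 1) * q = p := by
    have := hpq.sub_one_mul_conj
    linarith
  -- the integrand on the product
  have hmeas : Measurable (fun z : α × ℝ =>
      ({z : α × ℝ | z.2 ≤ g z.1}.indicator (fun _ => (1 : ℝ≥0∞)) z) *
        ENNReal.ofReal (g z.1) ^ (p - 1)) := by
    refine Measurable.mul ?_ ((hG.comp measurable_fst).pow_const _)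
    exact measurable_const.indicator (measurableSet_le measurable_snd (hg.comp measurable_fst))
  have e1 : ∀ x, ENNReal.ofReal (g x) ^ p =
      ∫⁻ t in Ioi (0 : ℝ), ({z : α × ℝ | z.2 ≤ g z.1}.indicator (fun _ => (1 : ℝ≥0∞)) (x, t)) *
        ENNReal.ofReal (g x) ^ (p - 1) := by
    intro x
    rw [lintegral_mul_const'' _ (by
      refine Measurable.aemeasurable ?_
      exact (measurable_const.indicator (measurableSet_le measurable_snd
        (hg.comp measurable_fst))).comp measurable_prodMk_left)]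
    have e2 : ∫⁻ t in Ioi (0 : ℝ), ({z : α × ℝ | z.2 ≤ g z.1}.indicator
        (fun _ => (1 : ℝ≥0∞)) (x, t)) = ENNReal.ofReal (g x) := by
      have e3 : (fun t : ℝ => ({z : α × ℝ | z.2 ≤ g z.1}.indicator
        (fun _ => (1 : ℝ≥0∞)) (x, t))) = (Iic (g x)).indicator (fun _ => (1 : ℝ≥0∞)) := by
        funext t
        simp [indicator]
      rw [e3, lintegral_indicator measurableSet_Iic, Measure.restrict_restrict measurableSet_Iic]
      simp only [lintegral_const, MeasurableSet.univ, Measure.restrict_apply, univ_inter, one_mul]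
      have e4 : Iic (g x) ∩ Ioi 0 = Ioc 0 (g x) := by
        ext t
        simp [and_comm]
      rw [e4, Real.volume_Ioc, sub_zero]
    rw [e2]
    rcases (h0 x).eq_or_lt with h | h
    · rw [← h]
      simp [ENNReal.zero_rpow_of_pos hp0]
    · have : ENNReal.ofReal (g x) ^ p = ENNReal.ofReal (g x) ^ (1 + (p - 1)) := by
        congr 1
        ring
      rw [this, ENNReal.rpow_add _ _ (by simpa using h) ENNReal.ofReal_ne_top, ENNReal.rpow_one]
  calc ∫⁻ x, ENNReal.ofReal (g x) ^ p ∂μ
      = ∫⁻ x, (∫⁻ t in Ioi (0 : ℝ), ({z : α × ℝ | z.2 ≤ g z.1}.indicator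
          (fun _ => (1 : ℝ≥0∞)) (x, t)) * ENNReal.ofReal (g x) ^ (p - 1)) ∂μ :=
        lintegral_congr e1
    _ = ∫⁻ t in Ioi (0 : ℝ), (∫⁻ x, ({z : α × ℝ | z.2 ≤ g z.1}.indicator
          (fun _ => (1 : ℝ≥0∞)) (x, t)) * ENNReal.ofReal (g x) ^ (p - 1) ∂μ) := by
        rw [lintegral_lintegral_swap]
        exact hmeas.aemeasurable
    _ ≤ ∫⁻ t in Ioi (0 : ℝ), μ {x | t ≤ g x} ^ (1 / p) *
          (∫⁻ x, ENNReal.ofReal (g x) ^ p ∂μ) ^ (1 / q) := by
        refine lintegral_mono fun t => ?_
        have hA : MeasurableSet {x | t ≤ g x} := measurableSet_le measurable_const hg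
        have hH := ENNReal.lintegral_mul_le_Lp_mul_Lq μ hpq
          (f := {x | t ≤ g x}.indicator (fun _ => (1 : ℝ≥0∞)))
          (g := fun x => ENNReal.ofReal (g x) ^ (p - 1))
          (measurable_const.indicator hA).aemeasurable (hG.pow_const _).aemeasurable
        have e5 : ∫⁻ x, ({x | t ≤ g x}.indicator (fun _ => (1 : ℝ≥0∞)) x) ^ p ∂μ =
            μ {x | t ≤ g x} := by
          have e6 : (fun x => ({x | t ≤ g x}.indicator (fun _ => (1 : ℝ≥0∞)) x) ^ p) =
              {x | t ≤ g x}.indicator (fun _ => (1 : ℝ≥0∞)) := by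
            funext x
            by_cases hx : x ∈ {x | t ≤ g x}
            · rw [indicator_of_mem hx, ENNReal.one_rpow]
            · rw [indicator_of_notMem hx, ENNReal.zero_rpow_of_pos hp0]
          rw [e6, lintegral_indicator hA]
          simp
        have e7 : ∫⁻ x, (ENNReal.ofReal (g x) ^ (p - 1)) ^ q ∂μ =
            ∫⁻ x, ENNReal.ofReal (g x) ^ p ∂μ := by
          refine lintegral_congr fun x => ?_
          rw [← ENNReal.rpow_mul, hq1]
        rw [e5, e7] at hH
        exact hH
    _ = _ := by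
        rw [lintegral_mul_const'']
        have hanti : Antitone fun t : ℝ => μ {x | t ≤ g x} ^ (1 / p) := by
          intro s t hst
          refine ENNReal.rpow_le_rpow (measure_mono fun x hx => ?_) (by positivity)
          exact hst.trans hx
        exact hanti.measurable.aemeasurable

end Vale.Agent.P237.H888
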