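import Vale.Agent.P237.H888.Tr
import Vale.Agent.P237.H888.Eqc

/-!
# P237: rigidity for sets of finite perimeter
-/

set_option linter.unusedSectionVars false

open MeasureTheory Metric Set Module Filter Topology
open scoped ENNReal NNReal Pointwise

namespace Vale.Agent.P237.H888

variable {V : Type} [NormedAddCommGroup V] [InnerProductSpace ℝ V] [FiniteDimensional ℝ V]
  [MeasurableSpace V] [BorelSpace V]

theorem omega_eq_kappa (n : ℕ) : Vale.Agent.P219.Co.omega n = Statement.kappa n := by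
  have h := vol_closedBall_E (n := n) 0 zero_le_one
  rw [one_pow, mul_one] at h
  have h0 : 0 < Vale.Agent.P219.Co.omega n := Vale.Agent.P219.Co.omega_co_pos n
  show _ = (volume (closedBall (0 : EuclideanSpace ℝ (Fin n)) 1)).toReal
  rw [h, ENNReal.toReal_ofReal h0.le]

theorem integral_comp_equiv (T : V ≃ₗ[ℝ] V) (h : V → ℝ) :
    ∫ x, h (T x) = |LinearMap.det (T : V →ₗ[ℝ] V)|⁻¹ * ∫ x, h x := by
  have hdet : LinearMap.det (T : V →ₗ[ℝ] V) ≠ 0 := T.isUnit_det'.ne_zero
  have hm : MeasurableEmbedding T :=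
    T.toContinuousLinearEquiv.toHomeomorph.measurableEmbedding
  have h1 := hm.integral_map (μ := (volume : Measure V)) h
  have h2 : Measure.map T (volume : Measure V) =
      ENNReal.ofReal |(LinearMap.det (T : V →ₗ[ℝ] V))⁻¹| • volume :=
    Measure.map_linearMap_addHaar_eq_smul_addHaar (volume : Measure V) hdet
  rw [← h1, h2, integral_smul_measure, ENNReal.toReal_ofReal (abs_nonneg _), smul_eq_mul, abs_inv]

theorem set_rigid {m : ℕ} (hm : 1 ≤ m) (hd : finrank ℝ V = m + 1) {S : Set V}
    (hS : MeasurableSet S) (hfin : volume S ≠ ⊤) (hpos : 0 < vol S)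
    (hf : IsBV (S.indicator fun _ => (1 : ℝ))) {K₀ : Set V} (hK₀ : IsSymBody K₀)
    (hell : Statement.IsEllipsoid K₀) (h1 : vol K₀ * vol S ^ m = 1)
    (hF : LF (S.indicator fun _ => (1 : ℝ)) K₀ ≤ m + 1) :
    ∃ Q : Set V, Statement.IsEllipsoid Q ∧ S =ᵐ[volume] Q := by
  obtain ⟨a, T, hT, hb, rfl⟩ := hell
  set T' : V ≃ₗ[ℝ] V := LinearEquiv.ofBijective (IsLinearMap.mk' T hT) hb with hT'
  have hTT : ∀ x, T' x = T x := fun x => rfl
  set ι := ((stdOrthonormalBasis ℝ V).reindex (finCongr hd)).repr with hι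
  set A : EuclideanSpace ℝ (Fin (m + 1)) ≃L[ℝ] V :=
    ι.symm.toContinuousLinearEquiv.trans T'.toContinuousLinearEquiv with hAdef
  have hAx : ∀ x, A x = T (ι.symm x) := fun x => rfl
  have hdet : LinearMap.det (T' : V →ₗ[ℝ] V) ≠ 0 := T'.isUnit_det'.ne_zero
  have hdet' : LinearMap.det (T'.symm : V →ₗ[ℝ] V) ≠ 0 := T'.symm.isUnit_det'.ne_zero
  set δ : ℝ := |LinearMap.det (T' : V →ₗ[ℝ] V)| with hδd
  have hδ : 0 < δ := abs_pos.2 hdet
  have nK : ((fun x => a + T x) '' closedBall (0 : V) 1).Nonempty :=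
    hK₀.int.mono interior_subset
  have hA : ∀ h : V → ℝ, ∫ x, h (A x) = δ⁻¹ * ∫ x, h x := by
    intro h
    rw [hδd, ← integral_comp_equiv T' h]
    exact ι.symm.measurePreserving.integral_comp ι.symm.toHomeomorph.measurableEmbedding
      (fun x => h (T' x))
  have hAq : Measure.QuasiMeasurePreserving A volume volume :=
    (Measure.LinearMap.quasiMeasurePreserving volume (T' : V →ₗ[ℝ] V) hdet).comp
      ι.symm.measurePreserving.quasiMeasurePreserving
  have hAq' : Measure.QuasiMeasurePreserving A.symm volume volume :=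
    ι.measurePreserving.quasiMeasurePreserving.comp
      (Measure.LinearMap.quasiMeasurePreserving volume (T'.symm : V →ₗ[ℝ] V) hdet')
  have hAv : volume (A ⁻¹' S) = ENNReal.ofReal δ⁻¹ * volume S := by
    have e1 : A ⁻¹' S = ι.symm ⁻¹' ((T' : V →ₗ[ℝ] V) ⁻¹' S) := rfl
    have hms : MeasurableSet ((T' : V →ₗ[ℝ] V) ⁻¹' S) :=
      T'.toContinuousLinearEquiv.continuous.measurable hS
    rw [e1, ι.symm.measurePreserving.measure_preimage hms.nullMeasurableSet,
      Measure.addHaar_preimage_linearMap volume hdet, abs_inv]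
  have hvK : vol ((fun x => a + T x) '' closedBall (0 : V) 1) =
      δ * Vale.Agent.P219.Co.omega (m + 1) := by
    have e1 : (fun x => a + T x) '' closedBall (0 : V) 1 =
        (fun x => a + x) '' (T' '' closedBall (0 : V) 1) := by
      rw [image_image]
      rfl
    rw [e1, vol_image_add_left, vol_image_linearEquiv, AllN.vol_unitBall hd, omega_eq_kappa]
  have hKA : ∀ z : EuclideanSpace ℝ (Fin (m + 1)), ‖z‖ ≤ 1 → ∀ w : V,
      inner ℝ w (A z) ≤ supp ((fun x => a + T x) '' closedBall (0 : V) 1) w := by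
    intro z hz w
    set x := ι.symm z with hx
    have hxn : ‖x‖ ≤ 1 := by
      rw [hx, LinearIsometryEquiv.norm_map]
      exact hz
    have m1 : a + T x ∈ (fun x => a + T x) '' closedBall (0 : V) 1 :=
      ⟨x, mem_closedBall_zero_iff.2 hxn, rfl⟩
    have m2 : a + T (-x) ∈ (fun x => a + T x) '' closedBall (0 : V) 1 :=
      ⟨-x, mem_closedBall_zero_iff.2 (by rwa [norm_neg]), rfl⟩
    have m3 := hK₀.symm _ m2
    have i1 := le_supp hK₀.compact w m1
    have i2 := le_supp hK₀.compact w m3
    rw [hT.map_neg] at i2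
    rw [inner_add_left] at i1
    rw [inner_neg_left, inner_add_left, inner_neg_left] at i2
    rw [hAx, real_inner_comm, ← hx]
    linarith
  obtain ⟨p, hp⟩ := tr_rigid hm hS hpos hfin hf A hK₀.compact nK hKA hδ hA hAq hAv
    (by rw [← hvK]; exact h1) hF
  set R := vol S with hR
  refine ⟨(fun x => A p + R • T x) '' closedBall 0 1, ⟨A p, fun x => R • T x, ?_, ?_, rfl⟩, ?_⟩
  · exact ⟨fun x y => by rw [hT.map_add, smul_add], fun c x => by
      rw [hT.map_smul, smul_comm]⟩
  · refine ⟨fun x y h => hb.1 (smul_right_injective V hpos.ne' h), fun y => ?_⟩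
    obtain ⟨x, hx⟩ := hb.2 (R⁻¹ • y)
    refine ⟨x, ?_⟩
    show R • T x = y
    rw [hx, smul_smul, mul_inv_cancel₀ hpos.ne', one_smul]
  · have h3 := hAq'.preimage_ae_eq hp
    have e1 : A.symm ⁻¹' (A ⁻¹' S) = S := by
      ext z
      simp
    have e2 : A.symm ⁻¹' closedBall p R = (fun x => A p + R • T x) '' closedBall 0 1 := by
      ext z
      rw [mem_preimage, mem_closedBall, dist_eq_norm]
      constructor
      · intro hz
        refine ⟨ι.symm (R⁻¹ • (A.symm z - p)), ?_, ?_⟩
        · rw [mem_closedBall_zero_iff, LinearIsometryEquiv.norm_map, norm_smul, norm_inv,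
            Real.norm_of_nonneg hpos.le, inv_mul_le_iff₀ hpos, mul_one]
          exact hz
        · show A p + R • T (ι.symm (R⁻¹ • (A.symm z - p))) = z
          rw [← hAx, map_smul, smul_smul, mul_inv_cancel₀ hpos.ne', one_smul, map_sub,
            A.apply_symm_apply]
          abel
      · rintro ⟨x, hx, rfl⟩
        show ‖A.symm (A p + R • T x) - p‖ ≤ R
        have e3 : T x = A (ι x) := by rw [hAx, ι.symm_apply_apply]
        rw [e3, ← map_smul, ← map_add, A.symm_apply_apply, add_sub_cancel_left, norm_smul,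
          Real.norm_of_nonneg hpos.le, LinearIsometryEquiv.norm_map]
        exact mul_le_of_le_one_right hpos.le (mem_closedBall_zero_iff.1 hx)
    rw [e1, e2] at h3
    exact h3

end Vale.Agent.P237.H888
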