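import Vale.Agent.P237.H888.Abs
import Vale.Agent.P237.H888.Lim

/-!
# P237: smooth approximations of a set of finite perimeter and the limit functional
-/

set_option linter.unusedSectionVars false

open MeasureTheory Metric Set Module TopologicalSpace Filter Topology ContinuousLinearMap
open scoped Pointwise ENNReal NNReal Convolution

namespace Vale.Agent.P237.H888

variable {V : Type*} [NormedAddCommGroup V] [InnerProductSpace ℝ V] [FiniteDimensional ℝ V]
  [MeasurableSpace V] [BorelSpace V]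

/-- the bump functions -/
noncomputable def bmp (j : ℕ) : ContDiffBump (0 : V) :=
  ⟨1 / ((j : ℝ) + 1) / 2, 1 / ((j : ℝ) + 1), by positivity, by
    have : (0 : ℝ) < 1 / ((j : ℝ) + 1) := by positivity
    linarith⟩

/-- the approximations -/
noncomputable def ap (f : V → ℝ) (j : ℕ) : V → ℝ := moll (bmp j) fun x => cut j x * f x

variable {f : V → ℝ}

theorem cf_hcs (j : ℕ) : HasCompactSupport fun x : V => cut j x * f x := by
  refine HasCompactSupport.intro (isCompact_closedBall (0 : V) (2 * ((j : ℝ) + 1)))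
    fun x hx => ?_
  rw [mem_closedBall_zero_iff, not_le] at hx
  rw [cut_eq_zero hx.le, zero_mul]

theorem ap_contDiff (hf : IsBV f) (j : ℕ) : ContDiff ℝ 1 (ap f j) :=
  moll_contDiff _ (cut_isBV j hf).1

theorem moll_hcs (φ : ContDiffBump (0 : V)) {g : V → ℝ} (hg : HasCompactSupport g) :
    HasCompactSupport (moll φ g) :=
  φ.hasCompactSupport_normed.convolution (lsmul ℝ ℝ) hg

theorem ap_hcs (j : ℕ) : HasCompactSupport (ap f j) := moll_hcs _ (cf_hcs j)

theorem ap_nonneg (hf0 : ∀ x, 0 ≤ f x) (j : ℕ) (x : V) : 0 ≤ ap f j x :=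
  moll_nonneg _ (fun x => mul_nonneg (cut_nonneg j x) (hf0 x)) x

theorem ap_le_one (hf : IsBV f) (hf0 : ∀ x, 0 ≤ f x) (hf1 : ∀ x, f x ≤ 1) (j : ℕ) (x : V) :
    ap f j x ≤ 1 := by
  unfold ap
  rw [moll_apply, ← (bmp (V := V) j).integral_normed (μ := volume)]
  refine integral_mono (moll_exists _ (cut_isBV j hf).1 x) (normed_integrable _) fun t => ?_
  refine mul_le_of_le_one_right ((bmp j).nonneg_normed t) ?_
  exact mul_le_one₀ (cut_le_one _ _) (hf0 _) (hf1 _)

theorem ap_tendsto (hf : IsBV f) : ∀ᵐ x, Tendsto (fun j => ap f j x) atTop (𝓝 (f x)) := by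
  have hφlim : Tendsto (fun j => (bmp (V := V) j).rOut) atTop (𝓝 0) :=
    tendsto_one_div_add_atTop_nhds_zero_nat (𝕜 := ℝ)
  have hlim : ∀ᵐ x, Tendsto (fun j => moll (bmp j) f x) atTop (𝓝 (f x)) := by
    refine ContDiffBump.ae_convolution_tendsto_right_of_locallyIntegrable (K := 2) hφlim
      (Eventually.of_forall fun j => ?_) hf.1.locallyIntegrable
    show 1 / ((j : ℝ) + 1) ≤ 2 * (1 / ((j : ℝ) + 1) / 2)
    linarith
  filter_upwards [hlim] with x hx
  refine hx.congr' ?_
  obtain ⟨J, hJ⟩ := exists_nat_ge ‖x‖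
  filter_upwards [eventually_ge_atTop J] with j hj
  have hj' : (J : ℝ) ≤ j := by exact_mod_cast hj
  unfold ap
  rw [moll_apply, moll_apply]
  refine integral_congr_ae (ae_of_all _ fun t => ?_)
  show (bmp j).normed volume t * f (x - t) = (bmp j).normed volume t * (cut j (x - t) * f (x - t))
  by_cases ht : t ∈ Function.support ((bmp (V := V) j).normed volume)
  · rw [(bmp j).support_normed_eq] at ht
    have h1 : ‖t‖ < 1 / ((j : ℝ) + 1) := mem_ball_zero_iff.1 ht
    have h2 : 1 / ((j : ℝ) + 1) ≤ 1 := by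
      rw [div_le_one (by positivity)]
      have : (0 : ℝ) ≤ j := Nat.cast_nonneg j
      linarith
    have h3 : ‖x - t‖ ≤ (j : ℝ) + 1 := by
      have := norm_sub_le x t
      linarith
    rw [cut_eq_one h3, one_mul]
  · rw [Function.notMem_support.1 ht, zero_mul, zero_mul]

theorem ap_grad (hf : IsBV f) (j : ℕ) (v : V) :
    ∫ x, |inner ℝ v (gr (ap f j) x)| ≤ dirVar f v + ‖v‖ / ((j : ℝ) + 1) * ∫ x, |f x| := by
  refine grad_le (ap_contDiff hf j) (moll_integrable _ (cut_isBV j hf).1) fun t ht => ?_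
  refine (moll_diff_le _ (cut_isBV j hf).1 (t • v)).trans
    ((cut_diff_le j hf.1 (t • v)).trans ?_)
  have h1 := hf.le_dirVar ht v
  rw [norm_smul, Real.norm_of_nonneg ht.le]
  have e : t * (dirVar f v + ‖v‖ / ((j : ℝ) + 1) * ∫ x, |f x|) =
    t * dirVar f v + t * ‖v‖ / ((j : ℝ) + 1) * ∫ x, |f x| := by ring
  rw [e]
  linarith

theorem ap_gr_integrable (hf : IsBV f) (j : ℕ) : Integrable (gr (ap f j)) :=
  (gr_continuous (ap_contDiff hf j)).integrable_of_hasCompactSupport
    (gr_hasCompactSupport (ap_hcs j))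

theorem ap_norm_bdd (hf : IsBV f) : ∃ M : ℝ, 0 ≤ M ∧ ∀ j, ∫ x, ‖gr (ap f j) x‖ ≤ M := by
  set b := stdOrthonormalBasis ℝ V with hb
  set N := ∫ x, |f x| with hN
  have hN0 : 0 ≤ N := integral_nonneg fun x => abs_nonneg _
  refine ⟨∑ i, (dirVar f (b i) + N), Finset.sum_nonneg fun i _ =>
    add_nonneg (dirVar_nonneg _ _) hN0, fun j => ?_⟩
  have h1 : ∀ w : V, ‖w‖ ≤ ∑ i, |inner ℝ (b i) w| := by
    intro w
    conv_lhs => rw [← b.sum_repr' w]
    refine (norm_sum_le _ _).trans (Finset.sum_le_sum fun i _ => ?_)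
    rw [norm_smul, b.norm_eq_one, mul_one, Real.norm_eq_abs]
  calc ∫ x, ‖gr (ap f j) x‖ ≤ ∫ x, ∑ i, |inner ℝ (b i) (gr (ap f j) x)| :=
        integral_mono (ap_gr_integrable hf j).norm
          (integrable_finsetSum _ fun i _ => abs_inner_integrable (ap_gr_integrable hf j) _)
          fun x => h1 _
    _ = ∑ i, ∫ x, |inner ℝ (b i) (gr (ap f j) x)| :=
        integral_finsetSum _ fun i _ => abs_inner_integrable (ap_gr_integrable hf j) _
    _ ≤ ∑ i, (dirVar f (b i) + N) := by
        refine Finset.sum_le_sum fun i _ => (ap_grad hf j (b i)).trans ?_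
        rw [b.norm_eq_one, ← hN]
        have h2 : 1 / ((j : ℝ) + 1) ≤ 1 := by
          rw [div_le_one (by positivity)]
          have : (0 : ℝ) ≤ j := Nat.cast_nonneg j
          linarith
        have := mul_le_mul_of_nonneg_right h2 hN0
        linarith

/-- the ultrafilter used for the limits -/
noncomputable def UU : Filter ℕ := (hyperfilter ℕ : Filter ℕ)

instance : NeBot UU := by
  unfold UU
  infer_instance

theorem UU_le : UU ≤ atTop := by
  unfold UU
  exact Nat.hyperfilter_le_atTop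

theorem exists_ulim {a : ℕ → ℝ} {C : ℝ} (h : ∀ j, |a j| ≤ C) : ∃ l, Tendsto a UU (𝓝 l) := by
  have h1 : ((Ultrafilter.map a (hyperfilter ℕ) : Ultrafilter ℝ) : Filter ℝ) ≤
      𝓟 (Icc (-C) C) := by
    rw [Ultrafilter.coe_map, Filter.map_le_iff_le_comap, comap_principal]
    intro s hs
    exact mem_of_superset univ_mem fun j _ => hs (abs_le.1 (h j))
  obtain ⟨l, -, hl⟩ := isCompact_Icc.ultrafilter_le_nhds _ h1
  exact ⟨l, hl⟩

/-- the limit functional -/
noncomputable def LF (f : V → ℝ) (K : Set V) : ℝ := limUnder UU fun j => Fn (gr (ap f j)) K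

theorem LF_tendsto (hf : IsBV f) {K : Set V} (hK : IsCompact K) (nK : K.Nonempty) :
    Tendsto (fun j => Fn (gr (ap f j)) K) UU (𝓝 (LF f K)) := by
  obtain ⟨M, hM0, hM⟩ := ap_norm_bdd hf
  obtain ⟨R, hR0, hR⟩ := exists_norm_le hK
  refine tendsto_nhds_limUnder (exists_ulim (C := R * M) fun j => ?_)
  unfold Fn
  rw [← Real.norm_eq_abs]
  refine (norm_integral_le_integral_norm _).trans ?_
  have h1 : ∫ x, ‖supp K (gr (ap f j) x)‖ ≤ ∫ x, R * ‖gr (ap f j) x‖ := by
    refine integral_mono (supp_w_integrable (ap_gr_integrable hf j) hK nK).norm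
      ((ap_gr_integrable hf j).norm.const_mul R) fun x => ?_
    rw [Real.norm_eq_abs]
    exact abs_supp_le hK nK hR _
  rw [integral_const_mul] at h1
  exact h1.trans (mul_le_mul_of_nonneg_left (hM j) hR0.le)

theorem LF_addFun (hf : IsBV f) : AddFun (LF f) where
  add K L hK nK hL nL := by
    refine tendsto_nhds_unique (LF_tendsto hf (hK.add hL) (nK.add nL)) ?_
    refine ((LF_tendsto hf hK nK).add (LF_tendsto hf hL nL)).congr fun j => ?_
    exact (Fn_add (ap_gr_integrable hf j) hK nK hL nL).symm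
  smul t K ht hK nK := by
    refine tendsto_nhds_unique (LF_tendsto hf (hK.smul t) nK.smul_set) ?_
    refine ((LF_tendsto hf hK nK).const_mul t).congr fun j => ?_
    exact (Fn_smul ht).symm
  mono K L hK nK hL h := by
    refine le_of_tendsto_of_tendsto' (LF_tendsto hf hK nK) (LF_tendsto hf hL (nK.mono h))
      fun j => Fn_mono (ap_gr_integrable hf j) hK nK hL h

theorem LF_sg (hf : IsBV f) (v : V) : LF f (sg v) ≤ dirVar f v := by
  have h1 : Tendsto (fun j : ℕ => dirVar f v + ‖v‖ * (1 / ((j : ℝ) + 1)) * ∫ x, |f x|) UU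
      (𝓝 (dirVar f v + ‖v‖ * 0 * ∫ x, |f x|)) :=
    tendsto_const_nhds.add (((tendsto_one_div_add_atTop_nhds_zero_nat (𝕜 := ℝ)).mono_left
      UU_le).const_mul _ |>.mul_const _)
  rw [mul_zero, zero_mul, add_zero] at h1
  refine le_of_tendsto_of_tendsto' (LF_tendsto hf (sg_compact v) (sg_nonempty v)) h1 fun j => ?_
  rw [Fn_sg]
  refine (ap_grad hf j v).trans (le_of_eq ?_)
  rw [div_eq_mul_one_div]

/-- Sobolev for the limit functional. -/
theorem LF_sobolev {m : ℕ} (hm : 1 ≤ m) (hd : finrank ℝ V = m + 1) {S : Set V}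
    (hS : MeasurableSet S) (hfin : volume S ≠ ⊤) (hpos : 0 < vol S)
    (hf : IsBV (S.indicator fun _ => (1 : ℝ))) {L : Set V} (hL : IsCompact L) (nL : L.Nonempty)
    (hs : ∀ x ∈ L, -x ∈ L) :
    ((m : ℝ) + 1) ^ (m + 1) * vol S ^ m * vol L ≤ LF (S.indicator fun _ => (1 : ℝ)) L ^ (m + 1) := by
  set f : V → ℝ := S.indicator fun _ => (1 : ℝ) with hfd
  have hmR : (0 : ℝ) < m := by exact_mod_cast hm
  have hm1 : (0 : ℝ) < (m : ℝ) + 1 := by positivity
  have hf0 : ∀ x, 0 ≤ f x := fun x => indicator_nonneg (fun _ _ => zero_le_one) x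
  set p : ℝ := ((m : ℝ) + 1) / m with hp
  have hp0 : 0 < p := by positivity
  have hI0 : ∀ j, 0 ≤ ∫ x, ap f j x ^ p := fun j =>
    integral_nonneg fun x => Real.rpow_nonneg (ap_nonneg hf0 j x) _
  have hLv := vol_nonneg L
  have hint : ∀ j, Integrable fun x => ap f j x ^ p := by
    intro j
    refine Continuous.integrable_of_hasCompactSupport ?_ ?_
    · exact (ap_contDiff hf j).continuous.rpow_const fun x => Or.inr hp0.le
    · refine HasCompactSupport.intro (ap_hcs (f := f) j).isCompact fun x hx => ?_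
      show ap f j x ^ p = 0
      rw [image_eq_zero_of_notMem_tsupport hx, Real.zero_rpow hp0.ne']
  have hj : ∀ j, ((m : ℝ) + 1) ^ (m + 1) * (∫ x, ap f j x ^ p) ^ m * vol L ≤
      Fn (gr (ap f j)) L ^ (m + 1) := by
    intro j
    have h1 := sobolev hm hd hL nL hs (ap_contDiff hf j) (ap_hcs j) (ap_nonneg hf0 j)
    have h2 := pow_le_pow_left₀ (by
      have := Real.rpow_nonneg hLv ((1 : ℝ) / (m + 1))
      have := Real.rpow_nonneg (hI0 j) ((m : ℝ) / (m + 1))
      positivity) h1 (m + 1)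
    have e1 : (vol L ^ ((1 : ℝ) / (m + 1))) ^ (m + 1) = vol L := by
      rw [← Real.rpow_natCast, ← Real.rpow_mul hLv]
      push_cast
      rw [one_div_mul_cancel hm1.ne', Real.rpow_one]
    have e2 : ((∫ x, ap f j x ^ p) ^ ((m : ℝ) / (m + 1))) ^ (m + 1) =
        (∫ x, ap f j x ^ p) ^ m := by
      rw [← Real.rpow_natCast, ← Real.rpow_mul (hI0 j)]
      push_cast
      rw [div_mul_cancel₀ _ hm1.ne', Real.rpow_natCast]
    rw [mul_pow, mul_pow, e1, e2] at h2
    refine le_trans (le_of_eq ?_) h2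
    ring
  have hfat : ∀ a : ℝ, a < vol S → ∀ᶠ j in atTop, a < ∫ x, ap f j x ^ p := by
    intro a ha
    have e0 : ∫⁻ x, ENNReal.ofReal (f x ^ p) = volume S := by
      have : (fun x => ENNReal.ofReal (f x ^ p)) = S.indicator 1 := by
        funext x
        by_cases hx : x ∈ S
        · simp [hfd, hx]
        · simp [hfd, hx, Real.zero_rpow hp0.ne']
      rw [this, lintegral_indicator_one hS]
    have h1 : volume S ≤ liminf (fun j => ∫⁻ x, ENNReal.ofReal (ap f j x ^ p)) atTop := by
      rw [← e0]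
      have e1 : ∫⁻ x, ENNReal.ofReal (f x ^ p) =
          ∫⁻ x, liminf (fun j => ENNReal.ofReal (ap f j x ^ p)) atTop := by
        refine lintegral_congr_ae ?_
        filter_upwards [ap_tendsto hf] with x hx
        exact ((ENNReal.tendsto_ofReal (hx.rpow_const (Or.inr hp0.le))).liminf_eq).symm
      rw [e1]
      exact lintegral_liminf_le' (u := atTop) fun j =>
        (((ap_contDiff hf j).continuous.rpow_const fun x =>
          Or.inr hp0.le).measurable.ennreal_ofReal).aemeasurable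
    have h2 : ENNReal.ofReal a < volume S := by
      rcases lt_or_ge a 0 with h | h
      · rw [ENNReal.ofReal_of_nonpos h.le]
        exact pos_iff_ne_zero.2 fun h0 => by
          rw [vol, h0] at hpos
          simp at hpos
      · rw [← ENNReal.ofReal_toReal hfin]
        exact (ENNReal.ofReal_lt_ofReal_iff hpos).2 ha
    have h3 := eventually_lt_of_lt_liminf (lt_of_lt_of_le h2 h1)
    filter_upwards [h3] with j hj
    rw [← ofReal_integral_eq_lintegral_ofReal (hint j)
      (Eventually.of_forall fun x => Real.rpow_nonneg (ap_nonneg hf0 j x) _)] at hj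
    exact lt_of_not_ge fun h => absurd hj (not_lt.2 (ENNReal.ofReal_le_ofReal h))
  have hlim : ∀ a : ℝ, 0 ≤ a → a < vol S →
      ((m : ℝ) + 1) ^ (m + 1) * a ^ m * vol L ≤ LF f L ^ (m + 1) := by
    intro a ha0 ha
    refine ge_of_tendsto ((LF_tendsto hf hL nL).pow (m + 1)) ?_
    filter_upwards [UU_le (hfat a ha)] with j hj'
    refine le_trans ?_ (hj j)
    gcongr
  have hcont : Tendsto (fun a : ℝ => ((m : ℝ) + 1) ^ (m + 1) * a ^ m * vol L) (𝓝[<] (vol S))
      (𝓝 (((m : ℝ) + 1) ^ (m + 1) * vol S ^ m * vol L)) := by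
    have : Continuous fun a : ℝ => ((m : ℝ) + 1) ^ (m + 1) * a ^ m * vol L := by fun_prop
    exact this.continuousAt.tendsto.mono_left nhdsWithin_le_nhds
  refine le_of_tendsto hcont ?_
  filter_upwards [Ioo_mem_nhdsLT hpos] with a ha
  exact hlim a ha.1.le ha.2

end Vale.Agent.P237.H888
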