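import Vale.Agent.P237.Bd3.B1
import Vale.Agent.P237.H888.Maz

/-!
# P237: the sharp anisotropic Sobolev inequality
-/

open MeasureTheory Metric Set Module
open scoped Pointwise ENNReal NNReal

namespace Vale.Agent.P237.H888

theorem pow_add_ge {a b : ℝ} (ha : 0 ≤ a) (hb : 0 ≤ b) (m : ℕ) :
    a ^ (m + 1) + (m + 1) * a ^ m * b ≤ (a + b) ^ (m + 1) := by
  induction m with
  | zero => simp
  | succ m ih =>
    have e0 : (a + b) ^ (m + 1 + 1) = (a + b) * (a + b) ^ (m + 1) := by ring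
    rw [e0]
    have h1 : (a + b) * (a ^ (m + 1) + (m + 1) * a ^ m * b) ≤ (a + b) * (a + b) ^ (m + 1) :=
      mul_le_mul_of_nonneg_left ih (by positivity)
    refine le_trans ?_ h1
    have h2 : (a + b) * (a ^ (m + 1) + (m + 1) * a ^ m * b) =
        a ^ (m + 1 + 1) + ((m : ℝ) + 1 + 1) * a ^ (m + 1) * b + (m + 1) * a ^ m * b * b := by ring
    rw [h2]
    have h3 : 0 ≤ ((m : ℝ) + 1) * a ^ m * b * b := by positivity
    push_cast
    linarith

variable {V : Type*} [NormedAddCommGroup V] [InnerProductSpace ℝ V] [FiniteDimensional ℝ V]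
  [MeasurableSpace V] [BorelSpace V]

/-- Brunn-Minkowski, linearised. -/
theorem bm_lin {m : ℕ} (hd : finrank ℝ V = m + 1) {A L : Set V} (hA : IsCompact A)
    (hL : IsCompact L) (nA : A.Nonempty) (nL : L.Nonempty) {ε : ℝ} (hε : 0 ≤ ε) :
    vol A + (m + 1) * (ε * vol L ^ ((1 : ℝ) / (m + 1))) * vol A ^ ((m : ℝ) / (m + 1)) ≤
      vol (A + ε • L) := by
  have hd0 : 0 < finrank ℝ V := by omega
  have hm : (0 : ℝ) < m + 1 := by positivity
  have hc : ((finrank ℝ V : ℕ) : ℝ) = m + 1 := by rw [hd]; push_cast; rfl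
  have h := brunn_minkowski hA (hL.smul ε) nA (nL.smul_set) hd0
  rw [hc, vol_smul_set, abs_of_nonneg hε, hd] at h
  have hA0 := vol_nonneg A
  have hL0 := vol_nonneg L
  have hAL0 := vol_nonneg (A + ε • L)
  have e1 : (ε ^ (m + 1) * vol L) ^ ((1 : ℝ) / (m + 1)) = ε * vol L ^ ((1 : ℝ) / (m + 1)) := by
    rw [Real.mul_rpow (by positivity) hL0, ← Real.rpow_natCast ε (m + 1), ← Real.rpow_mul hε]
    push_cast
    rw [mul_one_div_cancel hm.ne', Real.rpow_one]
  rw [e1] at h
  set k := vol A ^ ((1 : ℝ) / (m + 1)) with hk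
  set l := ε * vol L ^ ((1 : ℝ) / (m + 1)) with hl
  have hk0 : 0 ≤ k := Real.rpow_nonneg hA0 _
  have hl0 : 0 ≤ l := mul_nonneg hε (Real.rpow_nonneg hL0 _)
  have h2 : (k + l) ^ (m + 1) ≤ vol (A + ε • L) := by
    calc (k + l) ^ (m + 1) ≤ (vol (A + ε • L) ^ ((1 : ℝ) / (m + 1))) ^ (m + 1) :=
          pow_le_pow_left₀ (by positivity) h _
      _ = vol (A + ε • L) := by
          rw [← Real.rpow_natCast, ← Real.rpow_mul hAL0]
          push_cast
          rw [one_div_mul_cancel hm.ne', Real.rpow_one]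
  have h3 := pow_add_ge hk0 hl0 m
  have e2 : k ^ (m + 1) = vol A := by
    rw [hk, ← Real.rpow_natCast, ← Real.rpow_mul hA0]
    push_cast
    rw [one_div_mul_cancel hm.ne', Real.rpow_one]
  have e3 : k ^ m = vol A ^ ((m : ℝ) / (m + 1)) := by
    rw [hk, ← Real.rpow_natCast, ← Real.rpow_mul hA0]
    congr 1
    ring
  rw [e2, e3] at h3
  calc vol A + (m + 1) * l * vol A ^ ((m : ℝ) / (m + 1))
      = vol A + (m + 1) * vol A ^ ((m : ℝ) / (m + 1)) * l := by ring
    _ ≤ (k + l) ^ (m + 1) := h3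
    _ ≤ _ := h2

/-- The basic step: a function `G` above the sup-convolution of `g`. -/
theorem sob_step {m : ℕ} (hm : 1 ≤ m) (hd : finrank ℝ V = m + 1) {L : Set V}
    (hL : IsCompact L) (nL : L.Nonempty) {ε : ℝ} (hε : 0 ≤ ε) {g G : V → ℝ}
    (hg : Continuous g) (hgs : HasCompactSupport g) (hg0 : ∀ x, 0 ≤ g x)
    (hG : Measurable G) (hG0 : ∀ x, 0 ≤ G x)
    (hGg : ∀ a, ∀ y ∈ L, g a ≤ G (a + ε • y)) :
    (∫⁻ x, ENNReal.ofReal (g x)) +
      ENNReal.ofReal ((m + 1) * (ε * vol L ^ ((1 : ℝ) / (m + 1)))) *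
        (∫⁻ x, ENNReal.ofReal (g x) ^ (((m : ℝ) + 1) / m)) ^ ((m : ℝ) / (m + 1)) ≤
      ∫⁻ x, ENNReal.ofReal (G x) := by
  have hmR : (0 : ℝ) < m := by exact_mod_cast hm
  have hm1 : (0 : ℝ) < m + 1 := by positivity
  set c : ℝ := (m + 1) * (ε * vol L ^ ((1 : ℝ) / (m + 1))) with hc
  have hc0 : 0 ≤ c := by
    have := Real.rpow_nonneg (vol_nonneg L) ((1 : ℝ) / (m + 1))
    positivity
  have hA : ∀ t : ℝ, 0 < t → IsCompact {x | t ≤ g x} := by
    intro t ht
    refine hgs.isCompact.of_isClosed_subset (isClosed_le continuous_const hg) ?_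
    intro x hx
    have hx' : t ≤ g x := hx
    exact subset_tsupport g (by
      rw [Function.mem_support]
      linarith)
  have hpw : ∀ t : ℝ, 0 < t → volume {x | t ≤ g x} + ENNReal.ofReal c *
      volume {x | t ≤ g x} ^ ((m : ℝ) / (m + 1)) ≤ volume {x | t ≤ G x} := by
    intro t ht
    rcases {x | t ≤ g x}.eq_empty_or_nonempty with he | hne
    · rw [he, measure_empty, ENNReal.zero_rpow_of_pos (by positivity), mul_zero, add_zero]
      exact zero_le
    · have hAt := hA t ht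
      have h1 := bm_lin hd hAt hL hne nL hε
      have h2 : {x | t ≤ g x} + ε • L ⊆ {x | t ≤ G x} := by
        rintro _ ⟨a, ha, _, ⟨y, hy, rfl⟩, rfl⟩
        exact le_trans ha (hGg a y hy)
      have hfin : volume {x | t ≤ g x} ≠ ⊤ := hAt.measure_lt_top.ne
      have hcp : IsCompact ({x | t ≤ g x} + ε • L) := hAt.add (hL.smul ε)
      have e1 : volume {x | t ≤ g x} = ENNReal.ofReal (vol {x | t ≤ g x}) := by
        rw [vol, ENNReal.ofReal_toReal hfin]
      have e2 : volume ({x | t ≤ g x} + ε • L) =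
          ENNReal.ofReal (vol ({x | t ≤ g x} + ε • L)) := by
        rw [vol, ENNReal.ofReal_toReal hcp.measure_lt_top.ne]
      refine le_trans ?_ (measure_mono h2)
      rw [e2, e1, ENNReal.ofReal_rpow_of_nonneg (vol_nonneg _) (by positivity),
        ← ENNReal.ofReal_mul hc0, ← ENNReal.ofReal_add (vol_nonneg _)
          (mul_nonneg hc0 (Real.rpow_nonneg (vol_nonneg _) _))]
      exact ENNReal.ofReal_le_ofReal h1
  have hlc1 := lintegral_eq_lintegral_meas_le volume (Filter.Eventually.of_forall hg0)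
    hg.measurable.aemeasurable
  have hlc2 := lintegral_eq_lintegral_meas_le volume (Filter.Eventually.of_forall hG0)
    hG.aemeasurable
  have hanti : Antitone fun t : ℝ => volume {x | t ≤ g x} ^ ((m : ℝ) / (m + 1)) := by
    intro s t hst
    refine ENNReal.rpow_le_rpow (measure_mono fun x hx => ?_) (by positivity)
    exact hst.trans hx
  have hanti' : Antitone fun t : ℝ => volume {x | t ≤ g x} := by
    intro s t hst
    refine measure_mono fun x hx => ?_
    exact hst.trans hx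
  have hmain : (∫⁻ x, ENNReal.ofReal (g x)) + ENNReal.ofReal c *
      (∫⁻ t in Ioi (0 : ℝ), volume {x | t ≤ g x} ^ ((m : ℝ) / (m + 1))) ≤
      ∫⁻ x, ENNReal.ofReal (G x) := by
    rw [hlc1, hlc2, ← lintegral_const_mul'' _ hanti.measurable.aemeasurable,
      ← lintegral_add_left' hanti'.measurable.aemeasurable]
    exact setLIntegral_mono' measurableSet_Ioi fun t ht => hpw t ht
  -- the inequality for the distribution function
  have hpq : (((m : ℝ) + 1) / m).HolderConjugate ((m : ℝ) + 1) := by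
    rw [Real.holderConjugate_iff]
    constructor
    · rw [lt_div_iff₀ hmR]
      linarith
    · field_simp
  have hmz := maz (μ := (volume : Measure V)) hpq hg.measurable hg0
  set I := ∫⁻ x, ENNReal.ofReal (g x) ^ (((m : ℝ) + 1) / m) with hI
  have hIfin : I ≠ ⊤ := by
    obtain ⟨M, hM⟩ := hgs.exists_bound_of_continuous hg
    have hb : ∀ x, ENNReal.ofReal (g x) ^ (((m : ℝ) + 1) / m) ≤
        (tsupport g).indicator (fun _ => ENNReal.ofReal M ^ (((m : ℝ) + 1) / m)) x := by
      intro x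
      by_cases hx : x ∈ tsupport g
      · rw [indicator_of_mem hx]
        refine ENNReal.rpow_le_rpow (ENNReal.ofReal_le_ofReal ?_) (by positivity)
        exact (le_abs_self _).trans (hM x)
      · rw [indicator_of_notMem hx, image_eq_zero_of_notMem_tsupport hx, ENNReal.ofReal_zero,
          ENNReal.zero_rpow_of_pos (by positivity)]
    refine ((lintegral_mono hb).trans_lt ?_).ne
    rw [lintegral_indicator (isClosed_tsupport g).measurableSet, setLIntegral_const]
    exact ENNReal.mul_lt_top (ENNReal.rpow_lt_top_of_nonneg (by positivity) ENNReal.ofReal_ne_top)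
      hgs.isCompact.measure_lt_top
  have hmz2 : I ^ ((m : ℝ) / (m + 1)) ≤
      ∫⁻ t in Ioi (0 : ℝ), volume {x | t ≤ g x} ^ ((m : ℝ) / (m + 1)) := by
    have e1 : 1 / (((m : ℝ) + 1) / m) = (m : ℝ) / (m + 1) := by field_simp
    rw [e1] at hmz
    rcases eq_or_ne I 0 with h0 | h0
    · rw [h0, ENNReal.zero_rpow_of_pos (by positivity)]
      exact zero_le
    · have hq0 : I ^ (1 / ((m : ℝ) + 1)) ≠ 0 := by
        rw [Ne, ENNReal.rpow_eq_zero_iff]
        rintro (⟨h, -⟩ | ⟨h, -⟩)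
        · exact h0 h
        · exact hIfin h
      have hqt : I ^ (1 / ((m : ℝ) + 1)) ≠ ⊤ := by
        refine (ENNReal.rpow_lt_top_of_nonneg (by positivity) hIfin).ne
      have e2 : I = I ^ ((m : ℝ) / (m + 1)) * I ^ (1 / ((m : ℝ) + 1)) := by
        rw [← ENNReal.rpow_add _ _ h0 hIfin]
        have : (m : ℝ) / (m + 1) + 1 / ((m : ℝ) + 1) = 1 := by field_simp
        rw [this, ENNReal.rpow_one]
      have h3 : I ^ ((m : ℝ) / (m + 1)) * I ^ (1 / ((m : ℝ) + 1)) ≤
          (∫⁻ t in Ioi (0 : ℝ), volume {x | t ≤ g x} ^ ((m : ℝ) / (m + 1))) *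
            I ^ (1 / ((m : ℝ) + 1)) := by
        rw [← e2]
        exact hmz
      exact (ENNReal.mul_le_mul_iff_left hq0 hqt).1 h3
  refine le_trans ?_ hmain
  gcongr

end Vale.Agent.P237.H888
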