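import Vale.Agent.P237.H888.Eqc

/-!
# P237: splitting a function of bounded variation
-/

set_option linter.unusedSectionVars false

open MeasureTheory Metric Set Module Filter Topology
open scoped ENNReal NNReal Pointwise

namespace Vale.Agent.P237.H888

variable {V : Type*} [NormedAddCommGroup V] [InnerProductSpace ℝ V] [FiniteDimensional ℝ V]
  [MeasurableSpace V] [BorelSpace V]

theorem isBV_of_le {f g : V → ℝ} (hf : IsBV f) (hg : Integrable g)
    (h : ∀ x y, |g x - g y| ≤ |f x - f y|) : IsBV g := by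
  obtain ⟨C, hC⟩ := hf.2
  exact ⟨hg, C, fun v => (integral_mono (diff_integrable hg v) (diff_integrable hf.1 v)
    fun x => h _ _).trans (hC v)⟩

theorem Om_add {f : V → ℝ} (hf : Integrable f) (a b : V) :
    ∫ x, |f (x + (a + b)) - f x| ≤ (∫ x, |f (x + a) - f x|) + ∫ x, |f (x + b) - f x| := by
  have hi : Integrable fun x => |f (x + b + a) - f (x + b)| :=
    (diff_integrable hf a).comp_add_right b
  have h1 : ∫ x, |f (x + (a + b)) - f x| ≤
      (∫ x, |f (x + b + a) - f (x + b)|) + ∫ x, |f (x + b) - f x| := by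
    rw [← integral_add hi (diff_integrable hf _)]
    refine integral_mono (diff_integrable hf _) (hi.add (diff_integrable hf _)) fun x => ?_
    show |f (x + (a + b)) - f x| ≤ |f (x + b + a) - f (x + b)| + |f (x + b) - f x|
    have e : x + (a + b) = x + b + a := by abel
    rw [e]
    exact abs_sub_le _ _ _
  have h2 : ∫ x, |f (x + b + a) - f (x + b)| = ∫ x, |f (x + a) - f x| :=
    integral_add_right_eq_self (fun x => |f (x + a) - f x|) b
  rwa [h2] at h1

theorem Om_nsmul {f : V → ℝ} (hf : Integrable f) (a : V) (k : ℕ) :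
    ∫ x, |f (x + k • a) - f x| ≤ k * ∫ x, |f (x + a) - f x| := by
  induction k with
  | zero => simp
  | succ k ih =>
    rw [succ_nsmul]
    refine (Om_add hf _ _).trans ?_
    push_cast
    linarith

theorem Om_small {f : V → ℝ} (hf : Integrable f) {C : ℝ}
    (hC : ∀ v : V, ∫ x, |f (x + v) - f x| ≤ C * ‖v‖) (hC0 : 0 ≤ C) {s t : ℝ} (hs : 0 < s)
    (ht : 0 < t) (v : V) :
    (∫ x, |f (x + s • v) - f x|) / s ≤ (∫ x, |f (x + t • v) - f x|) / t + C * ‖v‖ * t / s := by
  set k := ⌊s / t⌋₊ with hk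
  set r := s - k * t with hr
  have hkt : (k : ℝ) * t ≤ s := by
    have := Nat.floor_le (div_pos hs ht).le
    rwa [le_div_iff₀ ht] at this
  have hr0 : 0 ≤ r := by linarith
  have hrt : r ≤ t := by
    have := Nat.lt_floor_add_one (s / t)
    rw [div_lt_iff₀ ht, add_mul, one_mul] at this
    linarith
  have e : s • v = k • (t • v) + r • v := by
    rw [← Nat.cast_smul_eq_nsmul ℝ, smul_smul, ← add_smul, hr]
    congr 1
    ring
  have h0 : 0 ≤ ∫ x, |f (x + t • v) - f x| := integral_nonneg fun x => abs_nonneg _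
  have h1 : ∫ x, |f (x + s • v) - f x| ≤ s / t * (∫ x, |f (x + t • v) - f x|) + C * ‖v‖ * t := by
    rw [e]
    refine (Om_add hf _ _).trans (add_le_add ((Om_nsmul hf _ k).trans ?_) ((hC _).trans ?_))
    · refine mul_le_mul_of_nonneg_right ?_ h0
      rw [le_div_iff₀ ht]
      exact hkt
    · rw [norm_smul, Real.norm_of_nonneg hr0]
      have : r * ‖v‖ ≤ t * ‖v‖ := mul_le_mul_of_nonneg_right hrt (norm_nonneg v)
      have := mul_le_mul_of_nonneg_left this hC0
      linarith [mul_comm t ‖v‖, mul_assoc C ‖v‖ t]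
  rw [div_le_iff₀ hs]
  refine h1.trans (le_of_eq ?_)
  field_simp

/-- The variation splits. -/
theorem split_le {f g h : V → ℝ} (hf : IsBV f) (hg : IsBV g) (hh : IsBV h)
    (hs : ∀ x y, |g x - g y| + |h x - h y| ≤ |f x - f y|) (v : V) :
    dirVar g v + dirVar h v ≤ dirVar f v := by
  obtain ⟨C₁, hC₁⟩ := hg.2
  obtain ⟨C₂, hC₂⟩ := hh.2
  have hC₁' : ∀ v : V, ∫ x, |g (x + v) - g x| ≤ |C₁| * ‖v‖ := fun v =>
    (hC₁ v).trans (mul_le_mul_of_nonneg_right (le_abs_self _) (norm_nonneg _))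
  have hC₂' : ∀ v : V, ∫ x, |h (x + v) - h x| ≤ |C₂| * ‖v‖ := fun v =>
    (hC₂ v).trans (mul_le_mul_of_nonneg_right (le_abs_self _) (norm_nonneg _))
  have key : ∀ s₁ s₂ : ℝ, 0 < s₁ → 0 < s₂ → (∫ x, |g (x + s₁ • v) - g x|) / s₁ +
      (∫ x, |h (x + s₂ • v) - h x|) / s₂ ≤ dirVar f v := by
    intro s₁ s₂ h1 h2
    refine le_of_forall_pos_le_add fun ε hε => ?_
    set K : ℝ := |C₁| * ‖v‖ / s₁ + |C₂| * ‖v‖ / s₂ with hK
    have hK0 : 0 ≤ K := by positivity
    set t : ℝ := ε / (K + 1) with ht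
    have ht0 : 0 < t := by positivity
    have h3 := Om_small hg.1 hC₁' (abs_nonneg _) h1 ht0 v
    have h4 := Om_small hh.1 hC₂' (abs_nonneg _) h2 ht0 v
    have h5 : (∫ x, |g (x + t • v) - g x|) + (∫ x, |h (x + t • v) - h x|) ≤
        ∫ x, |f (x + t • v) - f x| := by
      rw [← integral_add (diff_integrable hg.1 _) (diff_integrable hh.1 _)]
      exact integral_mono ((diff_integrable hg.1 _).add (diff_integrable hh.1 _))
        (diff_integrable hf.1 _) fun x => hs _ _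
    have h6 : (∫ x, |g (x + t • v) - g x|) / t + (∫ x, |h (x + t • v) - h x|) / t ≤
        dirVar f v := by
      rw [← add_div, div_le_iff₀ ht0, mul_comm]
      exact h5.trans (hf.le_dirVar ht0 v)
    have h7 : |C₁| * ‖v‖ * t / s₁ + |C₂| * ‖v‖ * t / s₂ = K * t := by
      rw [hK]
      ring
    have h8 : K * t ≤ ε := by
      rw [ht, mul_div_assoc', div_le_iff₀ (by positivity)]
      nlinarith
    linarith
  have h1 : ∀ s₂ : ℝ, 0 < s₂ → dirVar g v ≤ dirVar f v - (∫ x, |h (x + s₂ • v) - h x|) / s₂ := by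
    intro s₂ h2
    refine dirVar_le_of fun t ht => ?_
    have h3 := key t s₂ ht h2
    have h4 : (∫ x, |g (x + t • v) - g x|) / t ≤
      dirVar f v - (∫ x, |h (x + s₂ • v) - h x|) / s₂ := by linarith
    rwa [div_le_iff₀' ht] at h4
  have h2 : dirVar h v ≤ dirVar f v - dirVar g v := by
    refine dirVar_le_of fun t ht => ?_
    have h3 := h1 t ht
    have h4 : (∫ x, |h (x + t • v) - h x|) / t ≤ dirVar f v - dirVar g v := by linarith
    rwa [div_le_iff₀' ht] at h4
  linarith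

theorem zero_mem_fnProjBody (f : V → ℝ) : (0 : V) ∈ fnProjBody f := by
  intro v
  rw [inner_zero_left]
  exact div_nonneg (dirVar_nonneg _ _) zero_le_two

theorem split_vol {m : ℕ} (hd : finrank ℝ V = m + 1) {f g h : V → ℝ} (hf : IsBV f)
    (hg : IsBV g) (hh : IsBV h) (hs : ∀ x y, |g x - g y| + |h x - h y| ≤ |f x - f y|) :
    vol (fnProjBody g) ^ ((1 : ℝ) / (m + 1)) + vol (fnProjBody h) ^ ((1 : ℝ) / (m + 1)) ≤
      vol (fnProjBody f) ^ ((1 : ℝ) / (m + 1)) := by
  have h1 := brunn_minkowski hg.fnProjBody_compact hh.fnProjBody_compact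
    ⟨0, zero_mem_fnProjBody g⟩ ⟨0, zero_mem_fnProjBody h⟩ (by omega)
  have hc : ((finrank ℝ V : ℕ) : ℝ) = m + 1 := by rw [hd]; push_cast; rfl
  rw [hc] at h1
  refine h1.trans (Real.rpow_le_rpow (vol_nonneg _) (vol_mono hf.fnProjBody_compact ?_)
    (by positivity))
  rintro _ ⟨y, hy, z, hz, rfl⟩ v
  rw [inner_add_left]
  have h2 := hy v
  have h3 := hz v
  have h4 := split_le hf hg hh hs v
  linarith

/-- The splitting inequality in the equality case. -/
theorem split_norm {m : ℕ} (hd : finrank ℝ V = m + 1) {c : ℝ} (hc : 0 < c)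
    {I : (V → ℝ) → ℝ} (hI : ∀ f, 0 ≤ I f)
    (hBV : ∀ f : V → ℝ, IsBV f → c * I f ^ m ≤ vol (fnProjBody f)) {f g h : V → ℝ} (hf : IsBV f)
    (hg : IsBV g) (hh : IsBV h) (hs : ∀ x y, |g x - g y| + |h x - h y| ≤ |f x - f y|)
    (heq : vol (fnProjBody f) ≤ c * I f ^ m) :
    I g ^ ((m : ℝ) / (m + 1)) + I h ^ ((m : ℝ) / (m + 1)) ≤ I f ^ ((m : ℝ) / (m + 1)) := by
  have hm1 : (0 : ℝ) < (m : ℝ) + 1 := by positivity
  have h1 := split_vol hd hf hg hh hs
  have e : ∀ q : V → ℝ, (c * I q ^ m) ^ ((1 : ℝ) / (m + 1)) =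
      c ^ ((1 : ℝ) / (m + 1)) * I q ^ ((m : ℝ) / (m + 1)) := by
    intro q
    rw [Real.mul_rpow hc.le (pow_nonneg (hI q) m), ← Real.rpow_natCast, ← Real.rpow_mul (hI q)]
    congr 2
    ring
  have h2 : ∀ q : V → ℝ, IsBV q → c ^ ((1 : ℝ) / (m + 1)) * I q ^ ((m : ℝ) / (m + 1)) ≤
      vol (fnProjBody q) ^ ((1 : ℝ) / (m + 1)) := by
    intro q hq
    rw [← e]
    exact Real.rpow_le_rpow (mul_nonneg hc.le (pow_nonneg (hI q) m)) (hBV q hq) (by positivity)
  have h3 : vol (fnProjBody f) ^ ((1 : ℝ) / (m + 1)) ≤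
      c ^ ((1 : ℝ) / (m + 1)) * I f ^ ((m : ℝ) / (m + 1)) := by
    rw [← e]
    exact Real.rpow_le_rpow (vol_nonneg _) heq (by positivity)
  have h4 := h2 g hg
  have h5 := h2 h hh
  have hc' : 0 < c ^ ((1 : ℝ) / (m + 1)) := Real.rpow_pos_of_pos hc _
  refine le_of_mul_le_mul_left ?_ hc'
  rw [mul_add]
  linarith

/-! ### elementary inequalities -/

theorem strict_sub {θ a b : ℝ} (hθ1 : θ < 1) (ha : 0 < a) (hb : 0 < b) :
    (a + b) ^ θ < a ^ θ + b ^ θ := by
  have hab : 0 < a + b := by positivity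
  have e : ∀ x : ℝ, 0 < x → x ^ θ = x * x ^ (θ - 1) := by
    intro x hx
    rw [Real.rpow_sub hx, Real.rpow_one]
    field_simp
  have h1 : (a + b) ^ (θ - 1) < a ^ (θ - 1) :=
    Real.rpow_lt_rpow_of_neg ha (by linarith) (by linarith)
  have h2 : (a + b) ^ (θ - 1) < b ^ (θ - 1) :=
    Real.rpow_lt_rpow_of_neg hb (by linarith) (by linarith)
  rw [e _ hab, e _ ha, e _ hb, add_mul]
  exact add_lt_add (mul_lt_mul_of_pos_left h1 ha) (mul_lt_mul_of_pos_left h2 hb)

theorem strict_diff {p σ u β : ℝ} (hp : 1 < p) (hσ : 0 ≤ σ) (hu : σ < u) (hβ : 0 < β) :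
    u ^ p + (σ + β) ^ p < σ ^ p + (u + β) ^ p := by
  have hconv := strictConvexOn_rpow hp
  have hd : 0 < u - σ + β := by linarith
  set l := (u - σ) / (u - σ + β) with hl
  have hl0 : 0 < l := div_pos (by linarith) hd
  have hl1 : 0 < 1 - l := by
    have : 1 - l = β / (u - σ + β) := by
      rw [hl]
      field_simp
      ring
    rw [this]
    positivity
  have hx : σ ∈ Ici (0 : ℝ) := hσ
  have hy : u + β ∈ Ici (0 : ℝ) := by
    show (0 : ℝ) ≤ u + β
    linarith
  have hne : σ ≠ u + β := by linarith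
  have h1 := hconv.2 hx hy hne hl1 hl0 (by ring)
  have h2 := hconv.2 hx hy hne hl0 hl1 (by ring)
  have e1 : (1 - l) • σ + l • (u + β) = u := by
    simp only [smul_eq_mul, hl]
    field_simp
    ring
  have e2 : l • σ + (1 - l) • (u + β) = σ + β := by
    simp only [smul_eq_mul, hl]
    field_simp
    ring
  rw [e1] at h1
  rw [e2] at h2
  simp only [smul_eq_mul] at h1 h2
  nlinarith

end Vale.Agent.P237.H888
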