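import Vale.Agent.P237.H888.Flat
import Vale.Agent.P237.H888.Seq

/-!
# P237: transport to `ℝⁿ`
-/

set_option linter.unusedSectionVars false

open MeasureTheory Metric Set Module Filter Topology
open scoped ENNReal ContDiff NNReal Pointwise

namespace Vale.Agent.P237.H888

variable {V : Type*} [NormedAddCommGroup V] [InnerProductSpace ℝ V] [FiniteDimensional ℝ V]
  [MeasurableSpace V] [BorelSpace V] {n : ℕ}

/-- the divergence of a field -/
noncomputable def dv (X : EuclideanSpace ℝ (Fin n) → Fin n → ℝ) (x : EuclideanSpace ℝ (Fin n)) : ℝ :=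
  ∑ i, Vale.Agent.P219.Co.pd i (fun y => X y i) x

theorem toLp_eq (a : Fin n → ℝ) :
    (WithLp.toLp 2 a : EuclideanSpace ℝ (Fin n)) = ∑ i, a i • EuclideanSpace.single i (1 : ℝ) := by
  ext l
  simp [Finset.sum_apply, Pi.single_apply]

theorem comp_hcs {X : EuclideanSpace ℝ (Fin n) → Fin n → ℝ} (hXs : HasCompactSupport X)
    (i : Fin n) : HasCompactSupport fun x => X x i :=
  hXs.comp_left (g := fun a : Fin n → ℝ => a i) rfl

theorem pd_eq_fderiv {X : EuclideanSpace ℝ (Fin n) → Fin n → ℝ}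
    (hX : ∀ i, ContDiff ℝ ∞ fun x => X x i) (i : Fin n) (x : EuclideanSpace ℝ (Fin n)) :
    Vale.Agent.P219.Co.pd i (fun y => X y i) x =
      fderiv ℝ (fun y => X y i) x (EuclideanSpace.single i (1 : ℝ)) := by
  unfold Vale.Agent.P219.Co.pd
  exact (((hX i).differentiable (by simp)) x).lineDeriv_eq_fderiv

theorem fd_continuous {X : EuclideanSpace ℝ (Fin n) → Fin n → ℝ}
    (hX : ∀ i, ContDiff ℝ ∞ fun x => X x i) (i : Fin n) :
    Continuous fun x => fderiv ℝ (fun y => X y i) x (EuclideanSpace.single i (1 : ℝ)) :=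
  ((hX i).continuous_fderiv (by simp)).clm_apply continuous_const

theorem fd_hcs {X : EuclideanSpace ℝ (Fin n) → Fin n → ℝ} (hXs : HasCompactSupport X)
    (i : Fin n) : HasCompactSupport
      fun x => fderiv ℝ (fun y => X y i) x (EuclideanSpace.single i (1 : ℝ)) :=
  ((comp_hcs hXs i).fderiv (𝕜 := ℝ)).comp_left
    (g := fun L : EuclideanSpace ℝ (Fin n) →L[ℝ] ℝ => L (EuclideanSpace.single i (1 : ℝ))) rfl

theorem dv_continuous {X : EuclideanSpace ℝ (Fin n) → Fin n → ℝ}
    (hX : ∀ i, ContDiff ℝ ∞ fun x => X x i) : Continuous (dv X) := by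
  unfold dv
  simp_rw [pd_eq_fderiv hX]
  exact continuous_finsetSum _ fun i _ => fd_continuous hX i

theorem dv_integrable {X : EuclideanSpace ℝ (Fin n) → Fin n → ℝ}
    (hX : ∀ i, ContDiff ℝ ∞ fun x => X x i) (hXs : HasCompactSupport X) : Integrable (dv X) := by
  unfold dv
  simp_rw [pd_eq_fderiv hX]
  exact integrable_finsetSum _ fun i _ =>
    (fd_continuous hX i).integrable_of_hasCompactSupport (fd_hcs hXs i)

theorem ibp {g : EuclideanSpace ℝ (Fin n) → ℝ} (hg : ContDiff ℝ 1 g) (hgs : HasCompactSupport g)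
    {X : EuclideanSpace ℝ (Fin n) → Fin n → ℝ} (hX : ∀ i, ContDiff ℝ ∞ fun x => X x i)
    (hXs : HasCompactSupport X) :
    ∫ x, g x * dv X x = - ∫ x, fderiv ℝ g x (WithLp.toLp 2 (X x)) := by
  have hgf : ∀ v, Continuous fun x => fderiv ℝ g x v := fun v =>
    (hg.continuous_fderiv (by simp)).clm_apply continuous_const
  have h1 : ∀ i, Integrable fun x => fderiv ℝ g x (EuclideanSpace.single i (1 : ℝ)) * X x i :=
    fun i => ((hgf _).mul (hX i).continuous).integrable_of_hasCompactSupport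
      ((comp_hcs hXs i).mul_left)
  have h2 : ∀ i, Integrable fun x =>
      g x * fderiv ℝ (fun y => X y i) x (EuclideanSpace.single i (1 : ℝ)) :=
    fun i => (hg.continuous.mul (fd_continuous hX i)).integrable_of_hasCompactSupport hgs.mul_right
  have h3 : ∀ i, Integrable fun x => g x * X x i :=
    fun i => (hg.continuous.mul (hX i).continuous).integrable_of_hasCompactSupport hgs.mul_right
  calc ∫ x, g x * dv X x
      = ∫ x, ∑ i, g x * fderiv ℝ (fun y => X y i) x (EuclideanSpace.single i (1 : ℝ)) := by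
        refine integral_congr_ae (ae_of_all _ fun x => ?_)
        show g x * dv X x = _
        unfold dv
        simp_rw [pd_eq_fderiv hX]
        rw [Finset.mul_sum]
    _ = ∑ i, ∫ x, g x * fderiv ℝ (fun y => X y i) x (EuclideanSpace.single i (1 : ℝ)) :=
        integral_finsetSum _ fun i _ => h2 i
    _ = ∑ i, - ∫ x, fderiv ℝ g x (EuclideanSpace.single i (1 : ℝ)) * X x i :=
        Finset.sum_congr rfl fun i _ =>
          integral_mul_fderiv_eq_neg_fderiv_mul_of_integrable (h1 i) (h2 i) (h3 i)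
            (fun x _ => hg.differentiable (by simp) x)
            (fun x _ => (hX i).differentiable (by simp) x)
    _ = - ∫ x, ∑ i, fderiv ℝ g x (EuclideanSpace.single i (1 : ℝ)) * X x i := by
        rw [integral_finsetSum _ fun i _ => h1 i, Finset.sum_neg_distrib]
    _ = _ := by
        congr 1
        refine integral_congr_ae (ae_of_all _ fun x => ?_)
        show ∑ i, fderiv ℝ g x (EuclideanSpace.single i (1 : ℝ)) * X x i =
          fderiv ℝ g x (WithLp.toLp 2 (X x))
        rw [toLp_eq, map_sum]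
        refine Finset.sum_congr rfl fun i _ => ?_
        rw [map_smul, smul_eq_mul, mul_comm]

theorem step_le {g : V → ℝ} (hg : ContDiff ℝ 1 g) (hgs : HasCompactSupport g)
    (A : EuclideanSpace ℝ (Fin n) ≃L[ℝ] V) {K₀ : Set V} (hK : IsCompact K₀) (nK : K₀.Nonempty)
    (hKA : ∀ z : EuclideanSpace ℝ (Fin n), ‖z‖ ≤ 1 → ∀ w : V, inner ℝ w (A z) ≤ supp K₀ w)
    {X : EuclideanSpace ℝ (Fin n) → Fin n → ℝ} (hX : ∀ i, ContDiff ℝ ∞ fun x => X x i)
    (hXs : HasCompactSupport X) (hX1 : ∀ x, ∑ i, X x i ^ 2 ≤ 1) :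
    ∫ x, g (A x) * dv X x ≤ ∫ x, supp K₀ (gr g (A x)) := by
  have hG : ContDiff ℝ 1 fun x => g (A x) := hg.comp A.contDiff
  have hGs : HasCompactSupport fun x => g (A x) := hgs.comp_homeomorph A.toHomeomorph
  rw [ibp hG hGs hX hXs, ← integral_neg]
  have hfd : ∀ x v, fderiv ℝ (fun x => g (A x)) x v = inner ℝ (gr g (A x)) (A v) := by
    intro x v
    rw [inner_gr]
    have h1 : HasFDerivAt (fun x => g (A x)) ((fderiv ℝ g (A x)).comp (A : _ →L[ℝ] V)) x :=
      ((hg.differentiable (by simp) (A x)).hasFDerivAt).comp x A.hasFDerivAt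
    rw [h1.fderiv]
    rfl
  have hXc : Continuous fun x => (WithLp.toLp 2 (X x) : EuclideanSpace ℝ (Fin n)) :=
    (PiLp.continuous_toLp 2 _).comp (continuous_pi fun i => (hX i).continuous)
  have hi1 : Integrable fun x => -(fderiv ℝ (fun x => g (A x)) x (WithLp.toLp 2 (X x))) := by
    refine Continuous.integrable_of_hasCompactSupport ?_ ?_
    · exact ((hG.continuous_fderiv (by simp)).clm_apply hXc).neg
    · refine HasCompactSupport.intro (hGs.isCompact) fun x hx => ?_
      have : fderiv ℝ (fun x => g (A x)) x = 0 := by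
        by_contra h
        exact hx (tsupport_fderiv_subset ℝ (subset_tsupport _ h))
      show -(fderiv ℝ (fun x => g (A x)) x (WithLp.toLp 2 (X x))) = 0
      rw [this]
      simp
  have hi2 : Integrable fun x => supp K₀ (gr g (A x)) := by
    refine Continuous.integrable_of_hasCompactSupport
      ((supp_continuous hK nK).comp ((gr_continuous hg).comp A.continuous)) ?_
    refine HasCompactSupport.intro (hGs.isCompact) fun x hx => ?_
    have h0 : gr g (A x) = 0 := by
      refine ext_inner_right ℝ fun v => ?_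
      have hv : A (A.symm v) = v := A.apply_symm_apply v
      rw [← hv, ← hfd x (A.symm v), inner_zero_left]
      have : fderiv ℝ (fun x => g (A x)) x = 0 := by
        by_contra h
        exact hx (tsupport_fderiv_subset ℝ (subset_tsupport _ h))
      rw [this]
      rfl
    show supp K₀ (gr g (A x)) = 0
    rw [h0, supp_zero' nK]
  refine integral_mono hi1 hi2 fun x => ?_
  show -(fderiv ℝ (fun x => g (A x)) x (WithLp.toLp 2 (X x))) ≤ supp K₀ (gr g (A x))
  rw [hfd, ← inner_neg_right, ← map_neg]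
  refine hKA _ ?_ _
  rw [norm_neg]
  have h2 : ‖(WithLp.toLp 2 (X x) : EuclideanSpace ℝ (Fin n))‖ ^ 2 ≤ 1 := by
    rw [EuclideanSpace.norm_sq_eq]
    simpa using hX1 x
  nlinarith [norm_nonneg (WithLp.toLp 2 (X x) : EuclideanSpace ℝ (Fin n))]

/-- **Rigidity**: a set of finite perimeter with an extremal ellipsoid is an ellipsoid. -/
theorem tr_rigid {m : ℕ} (hm : 1 ≤ m) {S : Set V} (hS : MeasurableSet S) (hpos : 0 < vol S)
    (hfin : volume S ≠ ⊤) (hf : IsBV (S.indicator fun _ => (1 : ℝ)))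
    (A : EuclideanSpace ℝ (Fin (m + 1)) ≃L[ℝ] V) {K₀ : Set V} (hK : IsCompact K₀)
    (nK : K₀.Nonempty)
    (hKA : ∀ z : EuclideanSpace ℝ (Fin (m + 1)), ‖z‖ ≤ 1 → ∀ w : V, inner ℝ w (A z) ≤ supp K₀ w)
    {δ : ℝ} (hδ : 0 < δ) (hA : ∀ h : V → ℝ, ∫ x, h (A x) = δ⁻¹ * ∫ x, h x)
    (hAq : Measure.QuasiMeasurePreserving A volume volume)
    (hAv : volume (A ⁻¹' S) = ENNReal.ofReal δ⁻¹ * volume S)
    (hnorm : δ * Vale.Agent.P219.Co.omega (m + 1) * vol S ^ m = 1)
    (hF : LF (S.indicator fun _ => (1 : ℝ)) K₀ ≤ m + 1) :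
    ∃ p, A ⁻¹' S =ᵐ[volume] closedBall p (vol S) := by
  set f : V → ℝ := S.indicator fun _ => (1 : ℝ) with hfd
  set om := Vale.Agent.P219.Co.omega (m + 1) with hom
  have hf0 : ∀ x, 0 ≤ f x := fun x => indicator_nonneg (fun _ _ => zero_le_one) x
  have hf1 : ∀ x, f x ≤ 1 := fun x => indicator_le' (fun _ _ => le_rfl) (fun _ _ => zero_le_one) x
  have hAm : MeasurableSet (A ⁻¹' S) := A.continuous.measurable hS
  refine flat_rigid (by omega) hAm hpos ?_ ?_
  · rw [hAv, ← ENNReal.ofReal_toReal hfin, ← ENNReal.ofReal_mul (by positivity)]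
    congr 1
    show δ⁻¹ * vol S = om * vol S ^ (m + 1)
    rw [inv_mul_eq_iff_eq_mul₀ hδ.ne']
    calc vol S = 1 * vol S := (one_mul _).symm
      _ = (δ * om * vol S ^ m) * vol S := by rw [hnorm]
      _ = _ := by ring
  · intro X hX hXs hX1
    have e1 : ∫ x in A ⁻¹' S, ∑ i, Vale.Agent.P219.Co.pd i (fun y => X y i) x =
        ∫ x, f (A x) * dv X x := by
      rw [← integral_indicator hAm]
      refine integral_congr_ae (ae_of_all _ fun x => ?_)
      show (A ⁻¹' S).indicator (dv X) x = f (A x) * dv X x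
      by_cases hx : A x ∈ S
      · rw [indicator_of_mem (show x ∈ A ⁻¹' S from hx), hfd, indicator_of_mem hx, one_mul]
      · rw [indicator_of_notMem (show x ∉ A ⁻¹' S from hx), hfd, indicator_of_notMem hx, zero_mul]
    rw [e1]
    have hlim : Tendsto (fun j => ∫ x, ap f j (A x) * dv X x) UU
        (𝓝 (∫ x, f (A x) * dv X x)) := by
      refine Tendsto.mono_left ?_ UU_le
      refine tendsto_integral_of_dominated_convergence (fun x => |dv X x|) (fun j => ?_)
        (dv_integrable hX hXs).abs (fun j => ae_of_all _ fun x => ?_) ?_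
      · exact (((ap_contDiff hf j).continuous.comp A.continuous).mul
          (dv_continuous hX)).aestronglyMeasurable
      · rw [norm_mul, Real.norm_eq_abs, Real.norm_eq_abs, abs_of_nonneg (ap_nonneg hf0 j _)]
        exact mul_le_of_le_one_left (abs_nonneg _) (ap_le_one hf hf0 hf1 j _)
      · have h1 := hAq.ae (ap_tendsto hf)
        filter_upwards [h1] with x hx
        exact hx.mul_const _
    have hlim2 : Tendsto (fun j => δ⁻¹ * Fn (gr (ap f j)) K₀) UU (𝓝 (δ⁻¹ * LF f K₀)) :=
      (LF_tendsto hf hK nK).const_mul _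
    have h2 : ∫ x, f (A x) * dv X x ≤ δ⁻¹ * LF f K₀ := by
      refine le_of_tendsto_of_tendsto' hlim hlim2 fun j => ?_
      have h3 := step_le (ap_contDiff hf j) (ap_hcs j) A hK nK hKA hX hXs hX1
      rw [hA fun y => supp K₀ (gr (ap f j) y)] at h3
      exact h3
    refine h2.trans ((mul_le_mul_of_nonneg_left hF (by positivity)).trans (le_of_eq ?_))
    rw [inv_mul_eq_iff_eq_mul₀ hδ.ne']
    rw [show m + 1 - 1 = m by omega]
    push_cast
    calc (m : ℝ) + 1 = (m + 1) * 1 := (mul_one _).symm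
      _ = (m + 1) * (δ * om * vol S ^ m) := by rw [hnorm]
      _ = _ := by ring

end Vale.Agent.P237.H888
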